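import Vale.Agent.P150.Full.T.Channel

/-!
# P150 no traps, module N1: the Dirichlet form only decreases along the channel

An edge contributes to the mixed posterior at most what it contributed before, by concavity of
`(a, b) ↦ a b / (a + b)`. Also: a small Dirichlet form makes the conditional means of a law close to
the heat-bath ones.
-/

open Finset MeasureTheory Real
open Vale.Agent.P150.Fast
open Vale.Agent.P150.Beyond Vale.Agent.P150.Beyond.Stability

namespace Vale.Agent.P150.Full

variable {n : ℕ} {g : Edge n → ℝ} {c L θ t : ℝ} {A : Fin n → Fin n → ℝ} {y : Fin n → ℝ}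
  {ν : (Fin n → Bool) → ℝ}

theorem flip_flip (i : Fin n) (x : Fin n → Bool) : flip i (flip i x) = x := by
  simp [flip]

theorem spin_not (b : Bool) : spin (!b) = -spin b := by cases b <;> simp [spin]

theorem field_flip (θ : ℝ) (g : Edge n → ℝ) (y : Fin n → ℝ) (i : Fin n) (x : Fin n → Bool) :
    field (skMat n θ g) y i (flip i x) = field (skMat n θ g) y i x :=
  field_update_self y (isCoupling_skMat n θ g) i x _

theorem flipRate_mem (θ : ℝ) (g : Edge n → ℝ) (y : Fin n → ℝ) (i : Fin n) (x : Fin n → Bool) :
    0 < flipRate θ g y i x ∧ flipRate θ g y i x + flipRate θ g y i (flip i x) = 1 := by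
  obtain ⟨k1, k2⟩ := abs_lt.1 (Real.abs_tanh_lt_one (field (skMat n θ g) y i x))
  refine ⟨?_, ?_⟩
  · unfold flipRate
    rcases spin_cases (x i) with h | h <;> rw [h] <;> linarith
  · have e : spin (flip i x i) = -spin (x i) := by simp [flip, spin_not]
    simp only [flipRate, field_flip, e]
    ring

theorem flipRate_eq (θ : ℝ) (g : Edge n → ℝ) (y : Fin n → ℝ) (i : Fin n) (x : Fin n → Bool) :
    flipRate θ g y i x = Real.exp (ham (skMat n θ g) y (flip i x)) /
      (Real.exp (ham (skMat n θ g) y x) + Real.exp (ham (skMat n θ g) y (flip i x))) := by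
  have hu := ham_update (J := skMat n θ g) y (isCoupling_skMat n θ g) i x (!x i)
  rw [show Function.update x i (!x i) = flip i x from rfl, spin_not] at hu
  set H := field (skMat n θ g) y i x with hH
  rw [flipRate, ← hH, hu, Real.exp_add, Real.tanh_eq]
  have e : Real.exp ((-spin (x i) - spin (x i)) * H) =
      Real.exp (-(spin (x i) * H)) / Real.exp (spin (x i) * H) := by
    rw [← Real.exp_sub]
    congr 1
    ring
  rw [e]
  rcases spin_cases (x i) with h | h <;> rw [h] <;>
    simp only [one_mul, neg_mul, neg_neg] <;>
    field_simp <;> ring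

theorem flipRate_post (hA : IsRoot (skMat n 1 g) c L A) (θ t : ℝ) (y W : Fin n → ℝ) (i : Fin n)
    (x : Fin n → Bool) :
    flipRate (θ - t) g (chField A y W) i x =
      flipRate θ g y i x * chTilt A t W (flip i x) /
        (flipRate θ g y i (flip i x) * chTilt A t W x +
          flipRate θ g y i x * chTilt A t W (flip i x)) := by
  simp only [flipRate_eq, flip_flip]
  have e : ∀ z, Real.exp (ham (skMat n (θ - t) g) (chField A y W) z) =
      Real.exp (ham (skMat n θ g) y z) * chTilt A t W z * Real.exp (t * c * n / 2) := fun z => by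
    rw [ham_channel hA, Real.exp_add, Real.exp_add, chTilt]
  rw [e, e]
  have := Real.exp_pos (ham (skMat n θ g) y x)
  have := Real.exp_pos (ham (skMat n θ g) y (flip i x))
  have := chTilt_pos (A := A) t W x
  have := chTilt_pos (A := A) t W (flip i x)
  have := Real.exp_pos (t * c * n / 2)
  field_simp
  ring

/-- The contribution of one edge. -/
noncomputable def edgeTerm (θ : ℝ) (g : Edge n → ℝ) (y : Fin n → ℝ) (ν : (Fin n → Bool) → ℝ)
    (i : Fin n) (x : Fin n → Bool) : ℝ :=
  (√(ν x * flipRate θ g y i x) - √(ν (flip i x) * flipRate θ g y i (flip i x))) ^ 2 / 2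

theorem fisher_eq (θ : ℝ) (g : Edge n → ℝ) (y : Fin n → ℝ) (ν : (Fin n → Bool) → ℝ) :
    fisher θ g y ν = ∑ i, ∑ x, edgeTerm θ g y ν i x := rfl

/-- One edge of the posterior, weighted by the likelihood. -/
theorem edgeTerm_post_le (hA : IsRoot (skMat n 1 g) c L A) (hν : IsLaw ν) (θ t : ℝ) (y W : Fin n → ℝ)
    (i : Fin n) (x : Fin n → Bool) :
    chZ ν A t W * edgeTerm (θ - t) g (chField A y W) (post ν A t W) i x ≤
      edgeTerm θ g y ν i x *
        (flipRate θ g y i x * chTilt A t W x + flipRate θ g y i (flip i x) * chTilt A t W (flip i x)) := by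
  obtain ⟨ha, hab⟩ := flipRate_mem θ g y i x
  have hb := (flipRate_mem θ g y i (flip i x)).1
  set a := flipRate θ g y i x
  set b := flipRate θ g y i (flip i x)
  set T := chTilt A t W x with hT
  set T' := chTilt A t W (flip i x) with hT'
  set Z := chZ ν A t W
  have hT0 : 0 < T := chTilt_pos _ _ _
  have hT0' : 0 < T' := chTilt_pos _ _ _
  have hZ : 0 < Z := chZ_pos hν t W
  set den := b * T + a * T' with hden
  have hd : 0 < den := by positivity
  have e1 : post ν A t W x * flipRate (θ - t) g (chField A y W) i x = ν x * a * (T * T' / (Z * den)) := by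
    rw [flipRate_post hA, post]
    change ν x * T / Z * (a * T' / den) = _
    field_simp
  have e2 : post ν A t W (flip i x) * flipRate (θ - t) g (chField A y W) i (flip i x) =
      ν (flip i x) * b * (T * T' / (Z * den)) := by
    rw [flipRate_post hA, post, flip_flip]
    change ν (flip i x) * T' / Z * (b * T / (a * T' + b * T)) = _
    rw [add_comm (a * T'), ← hden]
    field_simp
  have hk : 0 ≤ T * T' / (Z * den) := by positivity
  have e : edgeTerm (θ - t) g (chField A y W) (post ν A t W) i x =
      edgeTerm θ g y ν i x * (T * T' / (Z * den)) := by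
    rw [edgeTerm, edgeTerm, e1, e2, Real.sqrt_mul (mul_nonneg (hν.1 _) ha.le),
      Real.sqrt_mul (mul_nonneg (hν.1 _) hb.le), ← sub_mul, mul_pow, Real.sq_sqrt hk]
    ring
  rw [e, mul_left_comm]
  refine mul_le_mul_of_nonneg_left ?_ (div_nonneg (sq_nonneg _) zero_le_two)
  have e3 : Z * (T * T' / (Z * den)) = T * T' / den := by field_simp
  rw [e3, div_le_iff₀ hd, hden]
  have key : (a * T + b * T') * (b * T + a * T') = (a + b) ^ 2 * (T * T') + a * b * (T - T') ^ 2 := by
    ring
  rw [key, hab]
  nlinarith [mul_nonneg (mul_pos ha hb).le (sq_nonneg (T - T'))]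

theorem continuous_fisher_post (hν : IsLaw ν) (A : Fin n → Fin n → ℝ) (θ t : ℝ) (g : Edge n → ℝ)
    (y : Fin n → ℝ) :
    Continuous fun W => fisher (θ - t) g (chField A y W) (post ν A t W) := by
  have htanh : Continuous Real.tanh := by
    simp only [show Real.tanh = fun a => Real.sinh a / Real.cosh a from
      funext Real.tanh_eq_sinh_div_cosh]
    exact Real.continuous_sinh.div₀ Real.continuous_cosh fun a => (Real.cosh_pos a).ne'
  have := continuous_post hν A t
  unfold fisher flipRate field chField
  fun_prop

theorem fisher_nonneg (θ : ℝ) (g : Edge n → ℝ) (y : Fin n → ℝ) (ν : (Fin n → Bool) → ℝ) :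
    0 ≤ fisher θ g y ν :=
  Finset.sum_nonneg fun i _ => Finset.sum_nonneg fun x _ => by positivity

/-- P1: the expected Dirichlet form of the posterior is at most the Dirichlet form. -/
theorem fisher_channel (hA : IsRoot (skMat n 1 g) c L A) (hν : IsLaw ν) (ht : 0 ≤ t) (θ : ℝ)
    (y : Fin n → ℝ) :
    chE ν A t (fun W => fisher (θ - t) g (chField A y W) (post ν A t W)) ≤ fisher θ g y ν ∧
      ChInt ν A t fun W => fisher (θ - t) g (chField A y W) (post ν A t W) := by
  set E := fun i x z => edgeTerm θ g y ν i x * (flipRate θ g y i x * chTilt A t (obs t z) x +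
    flipRate θ g y i (flip i x) * chTilt A t (obs t z) (flip i x)) with hE
  have hi : ∀ i x, Integrable (E i x) (stdPi (Fin n)) := fun i x =>
    (((integral_chTilt ht x).2.const_mul _).add ((integral_chTilt ht _).2.const_mul _)).const_mul _
  have hpt : ∀ z, chZ ν A t (obs t z) *
      fisher (θ - t) g (chField A y (obs t z)) (post ν A t (obs t z)) ≤ ∑ i, ∑ x, E i x z := fun z => by
    simp only [fisher_eq, Finset.mul_sum]
    exact Finset.sum_le_sum fun i _ => Finset.sum_le_sum fun x _ =>
      edgeTerm_post_le hA hν θ t y _ i x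
  have hS : Integrable (fun z => ∑ i, ∑ x, E i x z) (stdPi (Fin n)) :=
    integrable_finsetSum _ fun i _ => integrable_finsetSum _ fun x _ => hi i x
  have hI : ChInt ν A t fun W => fisher (θ - t) g (chField A y W) (post ν A t W) :=
    hS.mono' (((continuous_chZ ν A t).comp (continuous_obs t)).mul
      ((continuous_fisher_post hν A θ t g y).comp (continuous_obs t))).aestronglyMeasurable
      (Filter.Eventually.of_forall fun z => by
        rw [Real.norm_of_nonneg (mul_nonneg (chZ_pos hν _ _).le (fisher_nonneg _ _ _ _))]
        exact hpt z)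
  refine ⟨(integral_mono hI hS hpt).trans (le_of_eq ?_), hI⟩
  rw [integral_finsetSum _ fun i _ => integrable_finsetSum _ fun x _ => hi i x, fisher_eq]
  refine Finset.sum_congr rfl fun i _ => ?_
  rw [integral_finsetSum _ fun x _ => hi i x]
  refine Finset.sum_congr rfl fun x _ => ?_
  have h1 : ∀ x, ∫ z, chTilt A t (fun k => √t * z k) x ∂stdPi (Fin n) = 1 := fun x => (integral_chTilt ht x).1
  simp only [hE]
  unfold obs
  rw [integral_const_mul, integral_add ((integral_chTilt ht x).2.const_mul _)
    ((integral_chTilt ht _).2.const_mul _), integral_const_mul, integral_const_mul, h1, h1, mul_one,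
    mul_one, (flipRate_mem θ g y i x).2, mul_one]

/-- The mean of spin `i` given the other spins. -/
noncomputable def condMean (ν : (Fin n → Bool) → ℝ) (i : Fin n) (x : Fin n → Bool) : ℝ :=
  (ν x * spin (x i) + ν (flip i x) * spin (flip i x i)) / (ν x + ν (flip i x))

/-- Near-stationarity: the conditional means are close to the heat-bath ones. -/
theorem condMean_fisher (hν : IsLaw ν) (θ : ℝ) (g : Edge n → ℝ) (y : Fin n → ℝ) :
    ∑ i, ∑ x, ν x * (condMean ν i x - Real.tanh (field (skMat n θ g) y i x)) ^ 2 ≤
      4 * fisher θ g y ν := by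
  rw [fisher_eq, Finset.mul_sum]
  refine Finset.sum_le_sum fun i _ => ?_
  set P := fun x => ν x * (condMean ν i x - Real.tanh (field (skMat n θ g) y i x)) ^ 2 with hP
  have hinv : Function.Involutive (flip i : (Fin n → Bool) → Fin n → Bool) := flip_flip i
  have hsum : ∑ x, P (flip i x) = ∑ x, P x := Equiv.sum_comp hinv.toPerm P
  have key : ∀ x, P x + P (flip i x) ≤ 8 * edgeTerm θ g y ν i x := fun x => by
    obtain ⟨ha, hab⟩ := flipRate_mem θ g y i x
    set a := flipRate θ g y i x with hadef
    set b := flipRate θ g y i (flip i x) with hbdef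
    have hu : 0 ≤ ν x := hν.1 x
    have hv : 0 ≤ ν (flip i x) := hν.1 _
    set u := ν x
    set v := ν (flip i x) with hvdef
    have hb : 0 < b := (flipRate_mem θ g y i _).1
    rcases (add_nonneg hu hv).eq_or_lt with h0 | h0
    · have h1 : u = 0 := by linarith
      have h2 : v = 0 := by linarith
      simp only [hP]
      rw [show ν x = 0 from h1, show ν (flip i x) = 0 from h2, zero_mul, zero_mul, add_zero]
      unfold edgeTerm
      positivity
    have ec : condMean ν i (flip i x) = condMean ν i x := by
      simp only [condMean, flip_flip]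
      rw [add_comm (ν (flip i x) * _), add_comm (ν (flip i x))]
    have ed : condMean ν i x - Real.tanh (field (skMat n θ g) y i x) =
        2 * spin (x i) * ((u * a - v * b) / (u + v)) := by
      have es : spin (flip i x i) = -spin (x i) := by simp [flip, spin_not]
      have eb : b = 1 - a := by linarith
      have hne : ν x + ν (flip i x) ≠ 0 := h0.ne'
      rw [condMean, es, eb, hadef, flipRate]
      simp only [hvdef, show u = ν x from rfl]
      field_simp
      linear_combination ((ν x + ν (flip i x)) * Real.tanh (field (skMat n θ g) y i x)) *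
        spin_mul_spin (x i)
    simp only [hP, field_flip, ec]
    rw [ed, ← add_mul, mul_pow, mul_pow, sq (spin (x i)), spin_mul_spin, mul_one, edgeTerm, div_pow]
    have hcs : (√(u * a) + √(v * b)) ^ 2 ≤ u + v := by
      have h := two_mul_le_add_sq (√(u * b)) (√(v * a))
      have e : √(u * a) * √(v * b) = √(u * b) * √(v * a) := by
        rw [← Real.sqrt_mul (by positivity), ← Real.sqrt_mul (by positivity)]
        congr 1; ring
      rw [Real.sq_sqrt (by positivity), Real.sq_sqrt (by positivity), mul_assoc, ← e] at h
      rw [add_sq, Real.sq_sqrt (by positivity), Real.sq_sqrt (by positivity)]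
      have hu1 : u * a + u * b = u := by rw [← mul_add, hab, mul_one]
      have hv1 : v * a + v * b = v := by rw [← mul_add, hab, mul_one]
      linarith
    have e2 : (u * a - v * b) ^ 2 = (√(u * a) - √(v * b)) ^ 2 * (√(u * a) + √(v * b)) ^ 2 := by
      rw [← mul_pow]
      congr 1
      have p1 := Real.mul_self_sqrt (show 0 ≤ u * a by positivity)
      have p2 := Real.mul_self_sqrt (show 0 ≤ v * b by positivity)
      linear_combination p2 - p1
    calc (u + v) * (2 ^ 2 * ((u * a - v * b) ^ 2 / (u + v) ^ 2))
        = 4 * ((u * a - v * b) ^ 2 / (u + v)) := by field_simp; ring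
      _ ≤ 4 * (√(u * a) - √(v * b)) ^ 2 := by
          refine mul_le_mul_of_nonneg_left ?_ (by norm_num)
          rw [div_le_iff₀ h0, e2]
          exact mul_le_mul_of_nonneg_left hcs (sq_nonneg _)
      _ = _ := by ring
  have := Finset.sum_le_sum (s := univ) fun x _ => key x
  rw [Finset.sum_add_distrib, hsum, ← Finset.mul_sum] at this
  linarith

end Vale.Agent.P150.Full
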