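import Vale.Agent.P150.Full.T.LocalLawAlg
import Vale.Agent.P150.Fast.Coupling

/-!
# P150: the local law functional, its Lipschitz bound and its mean by Gaussian integration by parts
-/

open Finset MeasureTheory Real Filter
open scoped Matrix.Norms.L2Operator ComplexConjugate Topology
open Vale.Agent.P150 Vale.Agent.P150.Fast

namespace Vale.Agent.P150.Full.T

variable {n : ℕ}

/-- The linear functional of the residual. -/
noncomputable def lawFun (p : LawPar n) (w : Fin n → ℂ) (g : Edge n → ℝ) : ℝ :=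
  (∑ i, w i * lawRes p g i).re

theorem continuous_cmat : Continuous fun g : Edge n → ℝ => cmat g := by
  refine continuous_matrix fun i j => Complex.continuous_ofReal.comp ?_
  simp only [skMat_eq]
  refine continuous_const.mul ?_
  unfold gmat
  split_ifs <;> fun_prop

theorem continuous_lres {p : LawPar n} (hp : 0 < p.ε) : Continuous fun g => lres p g := by
  have hc : Continuous fun g => mmat p g :=
    continuous_const.sub ((((continuous_const : Continuous fun _ : Edge n → ℝ => bmat p.b).matrix_mul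
      continuous_cmat).matrix_mul continuous_const).const_smul (p.θ : ℂ))
  refine continuous_iff_continuousAt.2 fun g => ContinuousAt.comp (g := Inv.inv)
    (continuousAt_matrix_inv _ ?_) hc.continuousAt
  exact NormedRing.inverse_continuousAt ((lres_bound hp g).1).unit

theorem continuous_qmat {p : LawPar n} (hp : 0 < p.ε) : Continuous fun g => qmat p g :=
  (continuous_const.matrix_mul (continuous_lres hp)).matrix_mul continuous_const

theorem continuous_lawFun {p : LawPar n} (hp : 0 < p.ε) (w : Fin n → ℂ) :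
    Continuous (lawFun p w) := by
  refine Complex.continuous_re.comp (continuous_finsetSum _ fun i _ => continuous_const.mul ?_)
  refine (Continuous.matrix_elem ?_ i i).sub
    ((continuous_const.mul ((continuous_qmat hp).matrix_trace.div_const _)).mul
      ((continuous_qmat hp).matrix_elem i i))
  exact (((continuous_const : Continuous fun _ : Edge n → ℝ => bmat p.b).matrix_mul
      continuous_cmat).matrix_mul continuous_const).matrix_mul (continuous_lres hp)

theorem frob_cmat_le (g g' : Edge n → ℝ) :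
    frob (cmat g - cmat g') ≤ √2 * √(∑ e, (g e - g' e) ^ 2) / √(n : ℝ) := by
  rw [← Real.sqrt_mul zero_le_two, ← Real.sqrt_div' _ (Nat.cast_nonneg n), frob]
  refine Real.sqrt_le_sqrt (le_of_eq ?_)
  have h := sum_edge (fun i j => (gmat n g i j - gmat n g' i j) ^ 2) fun i j => by
    rw [gmat_symm g i j, gmat_symm g' i j]
  simp only [gmat_self, sub_zero, zero_pow two_ne_zero, Finset.sum_const_zero] at h
  have e : ∀ e : Edge n, (gmat n g e.1.1 e.1.2 - gmat n g' e.1.1 e.1.2) ^ 2 = (g e - g' e) ^ 2 :=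
    fun e => by simp only [gmat, dif_pos e.2]
  simp only [e] at h
  rw [h, Finset.sum_div]
  refine Finset.sum_congr rfl fun i _ => ?_
  rw [Finset.sum_div]
  refine Finset.sum_congr rfl fun j _ => ?_
  rw [Matrix.sub_apply, cmat, cmat, Matrix.of_apply, Matrix.of_apply, ← Complex.ofReal_sub,
    Complex.norm_real, Real.norm_eq_abs, sq_abs, skMat_eq, skMat_eq, ← mul_sub, mul_pow, div_pow,
    Real.sq_sqrt (Nat.cast_nonneg n)]
  ring

/-- Lipschitz in the couplings, with a constant free of `n`. -/
theorem lawFun_lip {p : LawPar n} {ε : ℝ} (h : p.Ok ε) (hε0 : 0 < ε) (hε1 : ε ≤ 1) {w : Fin n → ℂ}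
    (hw : ∀ i, ‖w i‖ ≤ 1) (g g' : Edge n → ℝ) :
    |lawFun p w g - lawFun p w g'| ≤ 12 / ε ^ 3 * √(∑ e, (g e - g' e) ^ 2) := by
  have hp : 0 < p.ε := h.eps.symm ▸ hε0
  rcases Nat.eq_zero_or_pos n with h0 | hn
  · subst h0; simp [lawFun]
  have hn' : (0 : ℝ) < n := by exact_mod_cast hn
  set D := √(∑ e, (g e - g' e) ^ 2)
  set E := cmat g - cmat g'
  have hE : √(n : ℝ) * frob E ≤ 2 * D := by
    refine (mul_le_mul_of_nonneg_left (frob_cmat_le g g') (Real.sqrt_nonneg _)).trans ?_
    rw [mul_div_cancel₀ _ (Real.sqrt_pos.2 hn').ne']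
    exact mul_le_mul_of_nonneg_right ((Real.sqrt_le_left zero_le_two).2 (by norm_num))
      (Real.sqrt_nonneg _)
  have hsand : ∀ (u : Fin n → ℂ), (∀ i, ‖u i‖ ≤ 1) → ∀ (P R : Matrix (Fin n) (Fin n) ℂ) (a b : ℝ),
      0 ≤ a → ‖P‖ ≤ a → ‖R‖ ≤ b → ‖∑ i, u i * (P * E * R) i i‖ ≤ a * b * (2 * D) := by
    intro u hu P R a b ha hP hR
    refine (norm_wsum_le hu P E R).trans ?_
    have h2 := mul_le_mul (mul_le_mul hP hR (norm_nonneg _) ha) hE
      (mul_nonneg (Real.sqrt_nonneg _) (Real.sqrt_nonneg _))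
      (mul_nonneg ha ((norm_nonneg _).trans hR))
    linarith
  have hθ : ‖(p.θ : ℂ)‖ ≤ 1 := by rw [Complex.norm_real, Real.norm_of_nonneg h.θ0]; exact h.θ1
  have hQ := norm_qmat_le h hε0
  -- the three pieces
  have h1 : ‖∑ i, w i * ((kmat p g * lres p g) i i - (kmat p g' * lres p g') i i)‖
      ≤ (4 * (1 / ε)) * (1 / ε) * (2 * D) := by
    simp only [← Matrix.sub_apply, kres_sub hp]
    refine hsand w hw _ _ _ _ (by positivity) ?_ ?_
    · exact (norm_mul_le _ _).trans ((mul_le_of_le_one_right (norm_nonneg _) (norm_bmat_le h)).trans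
        ((norm_mul_le _ _).trans (mul_le_mul (norm_amat_le h hε0 hε1) (norm_lres_le h hε0 g)
          (norm_nonneg _) (by norm_num))))
    · exact (norm_mul_le _ _).trans ((mul_le_of_le_one_left (norm_nonneg _) (norm_bmat_le h)).trans
        (norm_lres_le h hε0 g'))
  have hd : ∀ (u : Fin n → ℂ), (∀ i, ‖u i‖ ≤ 1) →
      ‖∑ i, u i * (qmat p g i i - qmat p g' i i)‖ ≤ 1 / ε * (1 / ε) * (2 * D) := fun u hu => by
    simp only [← Matrix.sub_apply, qmat_sub hp, Matrix.smul_apply, smul_eq_mul, mul_left_comm (u _),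
      ← Finset.mul_sum, norm_mul]
    exact (mul_le_of_le_one_left (norm_nonneg _) hθ).trans
      (hsand u hu _ _ _ _ (by positivity) (hQ g) (hQ g'))
  set t := (qmat p g).trace / (n : ℂ)
  set t' := (qmat p g').trace / (n : ℂ)
  have h3 : ‖∑ i, w i * qmat p g' i i‖ ≤ 1 / ε * n :=
    (norm_sum_le _ _).trans ((Finset.sum_le_sum fun i _ => (norm_mul_le _ _).trans
      ((mul_le_of_le_one_left (norm_nonneg _) (hw i)).trans ((entry_le _ i i).trans (hQ g')))).trans
      (le_of_eq (by simp [mul_comm])))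
  have h2 : ‖t - t'‖ ≤ 1 / ε * (1 / ε) * (2 * D) / n := by
    rw [← sub_div, norm_div, Complex.norm_natCast]
    refine div_le_div_of_nonneg_right (le_trans (le_of_eq ?_) (hd (fun _ => 1) (by simp))) hn'.le
    simp [Matrix.trace, Finset.sum_sub_distrib]
  have ht : ‖t‖ ≤ 1 / ε := (norm_trace_div_le _).trans (hQ g)
  have e : ∑ i, w i * lawRes p g i - ∑ i, w i * lawRes p g' i
      = ∑ i, w i * ((kmat p g * lres p g) i i - (kmat p g' * lres p g') i i)
        - (p.θ : ℂ) * (t * ∑ i, w i * (qmat p g i i - qmat p g' i i) + (t - t') * ∑ i, w i * qmat p g' i i) := by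
    simp only [lawRes, Finset.mul_sum, ← Finset.sum_add_distrib, ← Finset.sum_sub_distrib]
    exact Finset.sum_congr rfl fun i _ => by ring
  refine (show |lawFun p w g - lawFun p w g'| ≤ ‖∑ i, w i * lawRes p g i - ∑ i, w i * lawRes p g' i‖ by
    rw [lawFun, lawFun, ← Complex.sub_re]; exact Complex.abs_re_le_norm _).trans ?_
  rw [e]
  refine (norm_sub_le _ _).trans ((add_le_add h1 ((norm_mul_le _ _).trans
    ((mul_le_of_le_one_left (norm_nonneg _) hθ).trans ((norm_add_le _ _).trans (add_le_add
      ((norm_mul_le _ _).trans (mul_le_mul ht (hd w hw) (norm_nonneg _) (by positivity)))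
      ((norm_mul_le _ _).trans (mul_le_mul h2 h3 (norm_nonneg _) (by positivity)))))))).trans ?_)
  have e2 : 1 / ε * (1 / ε) * (2 * D) / n * (1 / ε * n) = 2 / ε ^ 3 * D := by field_simp
  rw [e2, show 4 * (1 / ε) * (1 / ε) * (2 * D) = 8 * ε / ε ^ 3 * D by field_simp; ring,
    show 1 / ε * (1 / ε * (1 / ε) * (2 * D)) = 2 / ε ^ 3 * D by field_simp, ← add_mul, ← add_mul,
    ← add_div, ← add_div]
  refine mul_le_mul_of_nonneg_right (div_le_div_of_nonneg_right ?_ (by positivity)) (Real.sqrt_nonneg _)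
  linarith

theorem cmat_edge {i k : Fin n} (h : k ≠ i) (g : Edge n → ℝ) (y x : ℝ) :
    cmat (Function.update g (edgeOf i k h) y) - cmat (Function.update g (edgeOf i k h) x)
      = (((y - x) / √(n : ℝ) : ℝ) : ℂ) • (Matrix.single i k 1 + Matrix.single k i 1) := by
  ext a b
  simp only [Matrix.sub_apply, Matrix.smul_apply, Matrix.add_apply, smul_eq_mul, cmat, Matrix.of_apply,
    skMat_eq, Matrix.single_apply]
  rcases eq_or_ne b a with hab | hab
  · subst hab
    have : ¬(i = b ∧ k = b) := fun e => h (e.2.trans e.1.symm)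
    have : ¬(k = b ∧ i = b) := fun e => h (e.1.trans e.2.symm)
    simp [gmat_self, *]
  by_cases he : edgeOf a b hab = edgeOf i k h
  · have hc : (i = a ∧ k = b ∧ ¬(k = a ∧ i = b)) ∨ (k = a ∧ i = b ∧ ¬(i = a ∧ k = b)) := by
      have hne : ¬(i = a ∧ k = b ∧ k = a ∧ i = b) := fun e => hab (e.2.1.symm.trans e.2.2.1)
      unfold edgeOf at he
      split_ifs at he <;> simp only [Subtype.mk.injEq, Prod.mk.injEq] at he
      all_goals obtain ⟨e1, e2⟩ := he
      all_goals subst e1 e2
      all_goals simp_all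
    rw [gmat_edgeOf _ a b hab, gmat_edgeOf _ a b hab, he, Function.update_self, Function.update_self]
    rcases hc with ⟨h1, h2, h3⟩ | ⟨h1, h2, h3⟩ <;>
      simp [h1, h2, hab, hab.symm] <;> ring
  · have h1 : ¬(i = a ∧ k = b) := by rintro ⟨rfl, rfl⟩; exact he rfl
    have h2 : ¬(k = a ∧ i = b) := by
      rintro ⟨rfl, rfl⟩
      refine he ?_
      unfold edgeOf
      split_ifs with h3 h4 h4 <;> first | rfl | exact absurd h3 h4.not_gt |
        exact absurd (lt_of_le_of_ne (not_lt.1 h3) h.symm) h4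
    rw [gmat_edgeOf _ a b hab, gmat_edgeOf _ a b hab, Function.update_of_ne he, Function.update_of_ne he]
    simp [h1, h2]

theorem sandwich_apply (P R : Matrix (Fin n) (Fin n) ℂ) (i k : Fin n) :
    (P * (Matrix.single i k (1 : ℂ) + Matrix.single k i (1 : ℂ)) * R) k i = P k i * R k i + P k k * R i i := by
  simp [mul_add, add_mul, Matrix.mul_apply, Matrix.single_apply, ite_and, Finset.sum_add_distrib]

theorem hasDerivAt_qmat {p : LawPar n} (hp : 0 < p.ε) {i k : Fin n} (h : k ≠ i) (g : Edge n → ℝ) (x : ℝ) :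
    HasDerivAt (fun y => qmat p (Function.update g (edgeOf i k h) y) k i)
      (((p.θ / √(n : ℝ) : ℝ) : ℂ) * (qmat p (Function.update g (edgeOf i k h) x) k i ^ 2
        + qmat p (Function.update g (edgeOf i k h) x) k k * qmat p (Function.update g (edgeOf i k h) x) i i)) x := by
  set G := fun y : ℝ => qmat p (Function.update g (edgeOf i k h) y)
  have hc : ∀ a b, Continuous fun y => G y a b := fun a b =>
    ((continuous_qmat hp).comp (continuous_const.update _ continuous_id)).matrix_elem a b
  set S := fun y => ((p.θ / √(n : ℝ) : ℝ) : ℂ) * (G y k i * G x k i + G y k k * G x i i)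
  have hs : ∀ y ∈ ({x}ᶜ : Set ℝ), slope (fun y => G y k i) x y = S y := fun y hy => by
    have hne : y - x ≠ 0 := sub_ne_zero.2 hy
    rw [slope_def_module, Complex.real_smul,
      show G y k i - G x k i = (G y - G x) k i from rfl, qmat_sub hp, cmat_edge h, mul_smul_comm,
      smul_mul_assoc, Matrix.smul_apply, Matrix.smul_apply, sandwich_apply]
    simp only [smul_eq_mul, S, G, ← mul_assoc, ← Complex.ofReal_mul]
    congr 2
    field_simp
  rw [hasDerivAt_iff_tendsto_slope]
  refine Tendsto.congr' (eventually_nhdsWithin_of_forall fun y hy => (hs y hy).symm) ?_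
  have hS : Continuous S := continuous_const.mul (((hc k i).mul continuous_const).add
    ((hc k k).mul continuous_const))
  exact ((hS.tendsto' x _ (by simp only [S, G]; ring)).mono_left nhdsWithin_le_nhds)

theorem norm_pair_le {a b c : ℂ} {r : ℝ} (ha : ‖a‖ ≤ r) (hb : ‖b‖ ≤ r) (hc : ‖c‖ ≤ r) :
    ‖a ^ 2 + b * c‖ ≤ r * r + r * r := by
  refine (norm_add_le _ _).trans (add_le_add ?_ ?_)
  · rw [norm_pow, sq]; exact mul_le_mul ha ha (norm_nonneg _) ((norm_nonneg a).trans ha)
  · exact (norm_mul_le _ _).trans (mul_le_mul hb hc (norm_nonneg _) ((norm_nonneg b).trans hb))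

/-- Integration by parts at one edge. -/
theorem edge_ibp {p : LawPar n} {ε : ℝ} (hp : p.Ok ε) (hε : 0 < ε) (z : ℂ) {i k : Fin n} (h : k ≠ i) :
    ∫ g, g (edgeOf i k h) * (z * qmat p g k i).re ∂stdPi (Edge n) = ∫ g,
      (z * (((p.θ / √(n : ℝ) : ℝ) : ℂ) * (qmat p g k i ^ 2 + qmat p g k k * qmat p g i i))).re
        ∂stdPi (Edge n) := by
  have hp0 : 0 < p.ε := hp.eps.symm ▸ hε
  have hq : ∀ a b, Continuous fun g => qmat p g a b := fun a b => (continuous_qmat hp0).matrix_elem a b
  have he : ∀ g a b, ‖qmat p g a b‖ ≤ 1 / ε := fun g a b => (entry_le _ a b).trans (norm_qmat_le hp hε g)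
  refine gauss_ibp (edgeOf i k h) (B := ‖z‖ * (1 / ε))
    (B' := ‖z‖ * (‖((p.θ / √(n : ℝ) : ℝ) : ℂ)‖ * (1 / ε * (1 / ε) + 1 / ε * (1 / ε))))
    (Complex.continuous_re.comp (continuous_const.mul (hq k i))).measurable
    (Complex.continuous_re.comp (continuous_const.mul (continuous_const.mul
      (((hq k i).pow 2).add ((hq k k).mul (hq i i)))))).measurable
    (fun g => (Complex.abs_re_le_norm _).trans ((norm_mul_le _ _).trans
      (mul_le_mul_of_nonneg_left (he g k i) (norm_nonneg _))))
    (fun g => (Complex.abs_re_le_norm _).trans ((norm_mul_le _ _).trans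
      (mul_le_mul_of_nonneg_left ((norm_mul_le _ _).trans (mul_le_mul_of_nonneg_left
        (norm_pair_le (he g k i) (he g k k) (he g i i)) (norm_nonneg _))) (norm_nonneg _)))) fun g x => ?_
  exact Complex.reCLM.hasFDerivAt.comp_hasDerivAt x ((hasDerivAt_qmat hp0 h g x).const_mul z)

theorem kres_apply (p : LawPar n) (g : Edge n → ℝ) (i : Fin n) :
    (kmat p g * lres p g) i i = ∑ k, (skMat n 1 g i k : ℂ) * qmat p g k i := by
  simp only [kmat, qmat, bmat, cmat, Matrix.mul_apply, Matrix.diagonal_apply, Matrix.of_apply, ite_mul,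
    zero_mul, mul_ite, mul_zero, Finset.sum_ite_eq, Finset.sum_ite_eq', Finset.mem_univ, if_true]
  exact Finset.sum_congr rfl fun k _ => by ring

/-- The mean of the functional is of order one. -/
theorem lawFun_mean {p : LawPar n} {ε : ℝ} (hp : p.Ok ε) (hε : 0 < ε) {w : Fin n → ℂ}
    (hw : ∀ i, ‖w i‖ ≤ 1) : |∫ g, lawFun p w g ∂stdPi (Edge n)| ≤ 1 / ε ^ 2 := by
  have hp0 : 0 < p.ε := hp.eps.symm ▸ hε
  have hq : ∀ a b, Continuous fun g => qmat p g a b := fun a b => (continuous_qmat hp0).matrix_elem a b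
  have he : ∀ g a b, ‖qmat p g a b‖ ≤ 1 / ε := fun g a b => (entry_le _ a b).trans (norm_qmat_le hp hε g)
  have hb : ∀ F : (Edge n → ℝ) → ℂ, Continuous F → ∀ B, (∀ g, ‖F g‖ ≤ B) →
      Integrable (fun g => (F g).re) (stdPi (Edge n)) := fun F hF B hB =>
    Integrable.of_bound (Complex.continuous_re.comp hF).aestronglyMeasurable B
      (Eventually.of_forall fun g => (Complex.abs_re_le_norm _).trans (hB g))
  set c : ℂ := ((p.θ / n : ℝ) : ℂ)
  -- the couplings are traded for the derivative
  set T := fun g i k => w i * (c * (qmat p g k i ^ 2 + qmat p g k k * qmat p g i i))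
  have hT : ∀ i k, Integrable (fun g => (T g i k).re) (stdPi (Edge n)) := fun i k =>
    hb _ (continuous_const.mul (continuous_const.mul (((hq k i).pow 2).add ((hq k k).mul (hq i i)))))
      (‖w i‖ * (‖c‖ * (1 / ε * (1 / ε) + 1 / ε * (1 / ε)))) fun g => (norm_mul_le _ _).trans
      (mul_le_mul_of_nonneg_left ((norm_mul_le _ _).trans (mul_le_mul_of_nonneg_left
        (norm_pair_le (he g k i) (he g k k) (he g i i)) (norm_nonneg _))) (norm_nonneg _))
  set S := fun g i k => (skMat n 1 g i k : ℂ) * qmat p g k i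
  have hS : ∀ i k, Integrable (fun g => (w i * S g i k).re) (stdPi (Edge n)) ∧
      ∫ g, (w i * S g i k).re ∂stdPi (Edge n)
        = if k = i then 0 else ∫ g, (T g i k).re ∂stdPi (Edge n) := fun i k => by
    by_cases h : k = i
    · simp [S, h, skMat_eq, gmat_self]
    rw [if_neg h]
    have e : ∀ g, (w i * S g i k).re = 1 / √(n : ℝ) * (g (edgeOf i k h) * (w i * qmat p g k i).re) :=
      fun g => by
        simp only [S, skMat_eq, gmat_edgeOf g i k h]
        rw [mul_left_comm, Complex.re_ofReal_mul, mul_assoc]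
    simp only [e]
    refine ⟨((integrable_coord _).mul_bdd (Complex.continuous_re.comp
      (continuous_const.mul (hq k i))).aestronglyMeasurable (Eventually.of_forall fun g =>
      (Complex.abs_re_le_norm _).trans ((norm_mul_le _ _).trans
        (mul_le_mul_of_nonneg_left (he g k i) (norm_nonneg _))))).const_mul _, ?_⟩
    rw [integral_const_mul, edge_ibp hp hε (w i) h, ← integral_const_mul]
    refine integral_congr_ae (Eventually.of_forall fun g => ?_)
    simp only [T, c, ← Complex.re_ofReal_mul]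
    congr 1
    rw [show ((p.θ / n : ℝ) : ℂ) = ((1 / √(n : ℝ) : ℝ) : ℂ) * ((p.θ / √(n : ℝ) : ℝ) : ℂ) by
      rw [← Complex.ofReal_mul]; congr 1
      rw [div_mul_div_comm, one_mul, Real.mul_self_sqrt (Nat.cast_nonneg n)]]
    ring
  set U := fun g i k => w i * (c * (qmat p g k k * qmat p g i i))
  have hU : ∀ i k, Integrable (fun g => (U g i k).re) (stdPi (Edge n)) := fun i k =>
    hb _ (continuous_const.mul (continuous_const.mul ((hq k k).mul (hq i i))))
      (‖w i‖ * (‖c‖ * (1 / ε * (1 / ε)))) fun g => (norm_mul_le _ _).trans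
      (mul_le_mul_of_nonneg_left ((norm_mul_le _ _).trans (mul_le_mul_of_nonneg_left
        ((norm_mul_le _ _).trans (mul_le_mul (he g k k) (he g i i) (norm_nonneg _) (by positivity)))
        (norm_nonneg _))) (norm_nonneg _))
  have e : ∀ g, lawFun p w g = ∑ i, ∑ k, ((w i * S g i k).re - (U g i k).re) := fun g => by
    simp only [lawFun, lawRes, kres_apply, Matrix.trace, Matrix.diag_apply, ← Complex.sub_re,
      ← Complex.re_sum]
    congr 1
    refine Finset.sum_congr rfl fun i _ => ?_
    rw [mul_sub, Finset.mul_sum, Finset.sum_div, Finset.mul_sum, Finset.sum_mul, Finset.mul_sum,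
      Finset.sum_sub_distrib]
    congr 1
    refine Finset.sum_congr rfl fun k _ => ?_
    simp only [U, c]; push_cast; ring
  have e2 : ∫ g, lawFun p w g ∂stdPi (Edge n)
      = ∫ g, ∑ i, ∑ k, ((if k = i then 0 else (T g i k).re) - (U g i k).re) ∂stdPi (Edge n) := by
    have hi1 : ∀ i k, Integrable (fun g => (w i * S g i k).re - (U g i k).re) (stdPi (Edge n)) :=
      fun i k => (hS i k).1.sub (hU i k)
    have hi2 : ∀ i k, Integrable (fun g => if k = i then 0 else (T g i k).re) (stdPi (Edge n)) := fun i k => by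
      by_cases h : k = i <;> simp only [h, if_true, if_false]
      · exact integrable_const _
      · exact hT i k
    have hi3 : ∀ i k, Integrable (fun g => (if k = i then 0 else (T g i k).re) - (U g i k).re)
        (stdPi (Edge n)) := fun i k => (hi2 i k).sub (hU i k)
    simp only [e]
    rw [integral_finsetSum _ fun i _ => integrable_finsetSum _ fun k _ => hi1 i k,
      integral_finsetSum _ fun i _ => integrable_finsetSum _ fun k _ => hi3 i k]
    refine Finset.sum_congr rfl fun i _ => ?_
    rw [integral_finsetSum _ fun k _ => hi1 i k, integral_finsetSum _ fun k _ => hi3 i k]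
    refine Finset.sum_congr rfl fun k _ => ?_
    rw [integral_sub (hS i k).1 (hU i k), integral_sub (hi2 i k) (hU i k), (hS i k).2]
    congr 1
    by_cases h : k = i <;> simp [h]
  rw [e2]
  refine (abs_integral_le_integral_abs).trans ((integral_mono_of_nonneg
    (Eventually.of_forall fun g => abs_nonneg _) (integrable_const (1 / ε ^ 2))
    (Eventually.of_forall fun g => ?_)).trans (le_of_eq (by simp)))
  refine (Finset.abs_sum_le_sum_abs _ _).trans ?_
  have hpt : ∀ i k, |(if k = i then 0 else (T g i k).re) - (U g i k).re|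
      ≤ p.θ / n * ‖qmat p g k i‖ ^ 2 := fun i k => by
    have hc : ‖c‖ = p.θ / n := by
      rw [Complex.norm_real, Real.norm_of_nonneg (div_nonneg hp.θ0 (Nat.cast_nonneg n))]
    by_cases h : k = i
    · rw [if_pos h, zero_sub, abs_neg, h]
      refine (Complex.abs_re_le_norm _).trans ?_
      simp only [U, norm_mul, hc, sq]
      exact mul_le_of_le_one_left (mul_nonneg (div_nonneg hp.θ0 (Nat.cast_nonneg n))
        (mul_self_nonneg _)) (hw i)
    · rw [if_neg h, ← Complex.sub_re]
      refine (Complex.abs_re_le_norm _).trans ?_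
      rw [show T g i k - U g i k = w i * (c * qmat p g k i ^ 2) by simp only [T, U]; ring]
      simp only [norm_mul, hc, norm_pow]
      exact mul_le_of_le_one_left (mul_nonneg (div_nonneg hp.θ0 (Nat.cast_nonneg n)) (sq_nonneg _)) (hw i)
  refine (Finset.sum_le_sum fun i _ => (Finset.abs_sum_le_sum_abs _ _).trans
    ((Finset.sum_le_sum fun k _ => hpt i k).trans (le_of_eq (Finset.mul_sum _ _ _).symm))).trans ?_
  refine (Finset.sum_le_sum fun i _ => mul_le_mul_of_nonneg_left ((col_sq_le _ i).trans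
    (pow_le_pow_left₀ (norm_nonneg _) (norm_qmat_le hp hε g) 2))
    (div_nonneg hp.θ0 (Nat.cast_nonneg n))).trans ?_
  rw [Finset.sum_const, Finset.card_univ, Fintype.card_fin, nsmul_eq_mul, div_pow, one_pow, ← mul_assoc]
  refine mul_le_of_le_one_left (by positivity) ?_
  rcases Nat.eq_zero_or_pos n with h0 | h0
  · simp [h0]
  · rw [mul_div_cancel₀ _ (by exact_mod_cast h0.ne' : (n : ℝ) ≠ 0)]; exact hp.θ1

end Vale.Agent.P150.Full.T
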