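import Vale.Agent.P150.Gauss
import Vale.Agent.P245.Rotation

/-!
# P150, every inverse temperature below one: blow-ups of sets of disorders

The Maurey-Pisier inequality for Lipschitz functions, by mollification, applied to the distance to a set:
if `A` has probability at least `1/2` then all but `2 exp (-2 t^2 / pi^2)` of the disorder is `t`-close to `A`.
-/

open MeasureTheory ProbabilityTheory Real Convolution ContinuousLinearMap
open scoped ENNReal RealInnerProductSpace

namespace Vale.Agent.P150.Full.Amp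

variable {E : Type*} [NormedAddCommGroup E] [InnerProductSpace ℝ E] [FiniteDimensional ℝ E]
  [MeasurableSpace E] [BorelSpace E]

/-- A smooth Lipschitz approximation. -/
theorem exists_smooth_approx {f : E → ℝ} {L : NNReal} (hf : LipschitzWith L f) {δ : ℝ} (hδ : 0 < δ) :
    ∃ h : E → ℝ, ContDiff ℝ 1 h ∧ LipschitzWith L h ∧ ∀ x, |h x - f x| ≤ L * δ := by
  let φ : ContDiffBump (0 : E) := ⟨δ / 2, δ, half_pos hδ, half_lt_self hδ⟩
  set h : E → ℝ := (φ.normed volume ⋆[lsmul ℝ ℝ, volume] f) with hh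
  have hfc := hf.continuous
  have hex : ConvolutionExists (φ.normed volume) f (lsmul ℝ ℝ) volume :=
    φ.hasCompactSupport_normed.convolutionExists_left _ φ.continuous_normed hfc.locallyIntegrable
  refine ⟨h, φ.hasCompactSupport_normed.contDiff_convolution_left _ φ.contDiff_normed
    hfc.locallyIntegrable, LipschitzWith.of_dist_le_mul fun x y => ?_, fun x => ?_⟩
  · have ix := hex x
    have iy := hex y
    simp only [ConvolutionExistsAt, lsmul_apply] at ix iy
    simp only [hh, MeasureTheory.convolution_def, lsmul_apply, dist_eq_norm]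
    rw [← integral_sub ix iy]
    refine (norm_integral_le_of_norm_le ((φ.integrable_normed (μ := volume)).mul_const (L * ‖x - y‖))
      (Filter.Eventually.of_forall fun t => ?_)).trans (le_of_eq ?_)
    · rw [← smul_sub, norm_smul, Real.norm_of_nonneg (φ.nonneg_normed t)]
      refine mul_le_mul_of_nonneg_left ?_ (φ.nonneg_normed t)
      simpa [dist_eq_norm] using hf.dist_le_mul (x - t) (y - t)
    · rw [integral_mul_const, φ.integral_normed, one_mul]
  · rw [← Real.dist_eq]
    refine φ.dist_normed_convolution_le hfc.aestronglyMeasurable fun y hy => ?_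
    exact (hf.dist_le_mul y x).trans (mul_le_mul_of_nonneg_left (Metric.mem_ball.1 hy).le L.2)

/-- Maurey-Pisier for Lipschitz functions. -/
theorem lintegral_exp_sub_le_lipschitz {f : E → ℝ} {L : NNReal} (hf : LipschitzWith L f) :
    ∫⁻ p, ENNReal.ofReal (exp (f p.1 - f p.2)) ∂(stdGaussian E).prod (stdGaussian E)
      ≤ ENNReal.ofReal (exp (π ^ 2 / 8 * (L : ℝ) ^ 2)) := by
  have key : ∀ δ : ℝ, 0 < δ →
      ∫⁻ p, ENNReal.ofReal (exp (f p.1 - f p.2)) ∂(stdGaussian E).prod (stdGaussian E)
        ≤ ENNReal.ofReal (exp (π ^ 2 / 8 * (L : ℝ) ^ 2 + 2 * (L * δ))) := by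
    intro δ hδ
    obtain ⟨h, h1, h2, h3⟩ := exists_smooth_approx hf hδ
    set G : E → E := fun X => (InnerProductSpace.toDual ℝ E).symm (fderiv ℝ h X) with hG
    have hd : ∀ X, HasFDerivAt h (innerSL ℝ (G X)) X := fun X => by
      refine ((h1.differentiable one_ne_zero) X).hasFDerivAt.congr_fderiv ?_
      ext Y
      simp only [hG, innerSL_apply_apply, InnerProductSpace.toDual_symm_apply]
    have hGc : Continuous G :=
      (InnerProductSpace.toDual ℝ E).symm.continuous.comp (h1.continuous_fderiv one_ne_zero)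
    have hGn : ∀ X, ‖G X‖ ≤ L := fun X => by
      simpa [hG] using norm_fderiv_le_of_lipschitz ℝ (x₀ := X) h2
    calc ∫⁻ p, ENNReal.ofReal (exp (f p.1 - f p.2)) ∂(stdGaussian E).prod (stdGaussian E)
        ≤ ∫⁻ p, ENNReal.ofReal (exp (2 * (L * δ))) * ENNReal.ofReal (exp (h p.1 - h p.2))
            ∂(stdGaussian E).prod (stdGaussian E) := lintegral_mono fun p => by
          rw [← ENNReal.ofReal_mul (exp_pos _).le, ← exp_add]
          refine ENNReal.ofReal_le_ofReal (exp_le_exp.2 ?_)
          linarith [(abs_le.1 (h3 p.1)).1, (abs_le.1 (h3 p.2)).2]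
      _ = ENNReal.ofReal (exp (2 * (L * δ))) * ∫⁻ p, ENNReal.ofReal (exp (h p.1 - h p.2))
            ∂(stdGaussian E).prod (stdGaussian E) := lintegral_const_mul' _ _ ENNReal.ofReal_ne_top
      _ ≤ ENNReal.ofReal (exp (2 * (L * δ))) * ENNReal.ofReal (exp (π ^ 2 / 8 * (L : ℝ) ^ 2)) := by
          refine mul_le_mul' le_rfl ((P245.lintegral_exp_sub_le hd hGc).trans ?_)
          refine (lintegral_mono fun X => ENNReal.ofReal_le_ofReal (exp_le_exp.2
            (mul_le_mul_of_nonneg_left (pow_le_pow_left₀ (norm_nonneg _) (hGn X) 2)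
              (by positivity)))).trans ?_
          simp
      _ = _ := by rw [← ENNReal.ofReal_mul (exp_pos _).le, ← exp_add, add_comm]
  have ht : Filter.Tendsto (fun k : ℕ => ENNReal.ofReal (exp (π ^ 2 / 8 * (L : ℝ) ^ 2 +
      2 * (L * (1 / ((k : ℝ) + 1)))))) Filter.atTop (nhds (ENNReal.ofReal (exp (π ^ 2 / 8 * (L : ℝ) ^ 2)))) := by
    refine ENNReal.tendsto_ofReal ((continuous_exp.tendsto _).comp ?_)
    simpa using tendsto_const_nhds.add
      (((tendsto_one_div_add_atTop_nhds_zero_nat (𝕜 := ℝ)).const_mul (L : ℝ)).const_mul 2)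
  exact ge_of_tendsto' ht fun k => key _ (by positivity)

/-- The points within distance `t` of a set. -/
def near {κ : Type*} [Fintype κ] (A : Set (κ → ℝ)) (t : ℝ) : Set (κ → ℝ) :=
  {g | ∃ g' ∈ A, √(∑ e, (g e - g' e) ^ 2) ≤ t}

/-- Gaussian blow-up: a set of probability at least `1/2` is near almost everything. -/
theorem gauss_blowup {κ : Type*} [Fintype κ] {A : Set (κ → ℝ)} (hA : 1 / 2 ≤ (stdPi κ).real A)
    {t : ℝ} (ht : 0 < t) : (stdPi κ).real (near A t)ᶜ ≤ 2 * exp (-2 * t ^ 2 / π ^ 2) := by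
  set T : (κ → ℝ) → EuclideanSpace ℝ κ := WithLp.toLp 2 with hT
  have hTm : Measurable T := by simp only [hT]; fun_prop
  have hAne : A.Nonempty := by
    by_contra h
    rw [Set.not_nonempty_iff_eq_empty.1 h] at hA
    simp at hA
    linarith
  set l := 4 * t / π ^ 2 with hl
  have hl0 : 0 ≤ l := by positivity
  set d : EuclideanSpace ℝ κ → ℝ := fun X => Metric.infDist X (T '' A) with hd
  have hlip : LipschitzWith l.toNNReal fun X => l * d X := by
    refine LipschitzWith.of_dist_le' fun X Y => ?_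
    rw [Real.dist_eq, ← mul_sub, abs_mul, abs_of_nonneg hl0]
    refine mul_le_mul_of_nonneg_left ?_ hl0
    have := (Metric.lipschitz_infDist_pt (T '' A)).dist_le_mul X Y
    rwa [NNReal.coe_one, one_mul, Real.dist_eq] at this
  have hdm : Measurable fun g => d (T g) := (Metric.continuous_infDist_pt _).measurable.comp hTm
  have h1 : (near A t)ᶜ ⊆ {g | t ≤ d (T g)} := fun g hg => by
    refine (Metric.le_infDist (hAne.image T)).2 ?_
    rintro _ ⟨g', hg', rfl⟩
    have := not_le.1 fun h => hg ⟨g', hg', h⟩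
    refine this.le.trans (le_of_eq ?_)
    simp [hT, EuclideanSpace.dist_eq, Real.dist_eq, sq_abs]
  have h2 : A ⊆ {g | d (T g) ≤ 0} := fun g hg =>
    le_of_eq (Metric.infDist_zero_of_mem (Set.mem_image_of_mem T hg))
  have hmap : (stdPi κ).map T = stdGaussian (EuclideanSpace ℝ κ) := map_pi_eq_stdGaussian
  have hprod : (stdPi κ) {g | t ≤ d (T g)} * (stdPi κ) {g | d (T g) ≤ 0} * ENNReal.ofReal (exp (l * t))
      ≤ ENNReal.ofReal (exp (π ^ 2 / 8 * l ^ 2)) := by
    have h := lintegral_exp_sub_le_lipschitz hlip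
    rw [Real.coe_toNNReal _ hl0] at h
    refine le_trans ?_ h
    rw [← hmap, Measure.map_prod_map _ _ hTm hTm, lintegral_map (by fun_prop) (hTm.prodMap hTm),
      mul_comm, ← Measure.prod_prod, ← setLIntegral_const]
    refine (setLIntegral_mono (by fun_prop) fun p hp => ?_).trans (setLIntegral_le_lintegral _ _)
    obtain ⟨hp1, hp2⟩ := hp
    simp only [Set.mem_ofPred_eq] at hp1 hp2
    refine ENNReal.ofReal_le_ofReal (exp_le_exp.2 ?_)
    simp only [Prod.map]
    linarith [mul_le_mul_of_nonneg_left hp1 hl0, mul_le_mul_of_nonneg_left hp2 hl0]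
  have h3 := ENNReal.toReal_mono ENNReal.ofReal_ne_top hprod
  rw [ENNReal.toReal_mul, ENNReal.toReal_mul, ENNReal.toReal_ofReal (exp_pos _).le,
    ENNReal.toReal_ofReal (exp_pos _).le, ← le_div_iff₀ (exp_pos _), ← exp_sub] at h3
  have h4 : π ^ 2 / 8 * l ^ 2 - l * t = -2 * t ^ 2 / π ^ 2 := by
    rw [hl]
    field_simp
    ring
  rw [h4] at h3
  have h5 := hA.trans (measureReal_mono (μ := stdPi κ) h2)
  refine (measureReal_mono (μ := stdPi κ) h1).trans ?_
  rw [measureReal_def] at h5 ⊢
  nlinarith [ENNReal.toReal_nonneg (a := (stdPi κ) {g | t ≤ d (T g)})]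

end Vale.Agent.P150.Full.Amp
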