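import Vale.Agent.P150.Full.Defs

/-!
# P150, every inverse temperature below one: the excess and the Dirichlet form as functions of the couplings

At a fixed law with small covariances both move little when the couplings move by `τ √n` in the
Euclidean norm, provided the field is moved so as to keep `w = y + θ K m` fixed.
-/

open Finset Real
open Vale.Agent.P150.Fast
open Vale.Agent.P150.Beyond Vale.Agent.P150.Beyond.Stability

namespace Vale.Agent.P150.Full.Amp

variable {n : ℕ}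

/-- The field at the couplings `g'` with the same local fields at the mean `m` as `y` at `g`. -/
noncomputable def recentre (θ : ℝ) (g g' : Edge n → ℝ) (m y : Fin n → ℝ) (i : Fin n) : ℝ :=
  y i + θ * (couple g m i - couple g' m i)

/-- The difference of the couplings. -/
noncomputable def dMat (g g' : Edge n → ℝ) (i j : Fin n) : ℝ := skMat n 1 g i j - skMat n 1 g' i j

theorem skMat_scale (θ : ℝ) (g : Edge n → ℝ) (i j : Fin n) : skMat n θ g i j = θ * skMat n 1 g i j := by
  rw [skMat_eq, skMat_eq]; ring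

theorem dMat_self (g g' : Edge n → ℝ) (i : Fin n) : dMat g g' i i = 0 := by
  simp [dMat, skMat_eq, gmat_self]

theorem sum_dMat_sq_le {g g' : Edge n → ℝ} {τ : ℝ} (h : ∑ e, (g e - g' e) ^ 2 ≤ τ ^ 2 * n) :
    ∑ i, ∑ j, dMat g g' i j ^ 2 ≤ 2 * τ ^ 2 := by
  rcases Nat.eq_zero_or_pos n with rfl | hn
  · simp; positivity
  have hN : (0 : ℝ) < n := by exact_mod_cast hn
  have hs := sum_edge (fun i j => (gmat n g i j - gmat n g' i j) ^ 2) fun i j => by
    rw [gmat_symm g i j, gmat_symm g' i j]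
  simp only [gmat_self, sub_self, ne_eq, OfNat.ofNat_ne_zero, not_false_eq_true, zero_pow,
    Finset.sum_const_zero, sub_zero] at hs
  have e : ∑ e : Edge n, (gmat n g e.1.1 e.1.2 - gmat n g' e.1.1 e.1.2) ^ 2 = ∑ e, (g e - g' e) ^ 2 :=
    Finset.sum_congr rfl fun e _ => by simp only [gmat, dif_pos e.2]
  rw [e] at hs
  have e2 : ∀ i j, dMat g g' i j ^ 2 = (gmat n g i j - gmat n g' i j) ^ 2 / n := fun i j => by
    rw [dMat, skMat_eq, skMat_eq, ← mul_sub, mul_pow, div_pow, one_pow, sq_sqrt hN.le]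
    ring
  simp only [e2, ← Finset.sum_div]
  rw [div_le_iff₀ hN, ← hs]
  linarith

theorem excess_sub_le {g g' : Edge n → ℝ} {τ σ θ : ℝ} (hθ : 0 ≤ θ) (hτ : 0 ≤ τ)
    (h : ∑ e, (g e - g' e) ^ 2 ≤ τ ^ 2 * n) {ν : (Fin n → Bool) → ℝ}
    (hC : covSq ν ≤ σ ^ 4 * (n : ℝ) ^ 2) :
    |excess θ g ν - excess θ g' ν| ≤ θ * τ * σ ^ 2 * n := by
  have e : ∀ g : Edge n → ℝ, (∑ x, ν x * bil g (spinv x) (spinv x)) - bil g (bary ν) (bary ν)
      = ∑ i, ∑ j, skMat n 1 g i j * cov ν i j := fun g => by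
    simp only [bil, cov, mul_sub, Finset.sum_sub_distrib, Finset.mul_sum, spinv]
    congr 1
    · rw [Finset.sum_comm]
      refine Finset.sum_congr rfl fun i _ => ?_
      rw [Finset.sum_comm]
      exact Finset.sum_congr rfl fun j _ => Finset.sum_congr rfl fun x _ => by ring
    · exact Finset.sum_congr rfl fun i _ => Finset.sum_congr rfl fun j _ => by ring
  have hd : excess θ g ν - excess θ g' ν = -(θ / 2) * ∑ p : Fin n × Fin n, dMat g g' p.1 p.2 * cov ν p.1 p.2 := by
    rw [Fintype.sum_prod_type]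
    simp only [dMat, sub_mul, Finset.sum_sub_distrib, ← e]
    simp only [excess, freeE, tap, bil]
    ring
  have hcs := Finset.sum_mul_sq_le_sq_mul_sq univ (fun p : Fin n × Fin n => dMat g g' p.1 p.2)
    fun p => cov ν p.1 p.2
  have h1 : ∑ p : Fin n × Fin n, dMat g g' p.1 p.2 ^ 2 ≤ 2 * τ ^ 2 := by
    rw [Fintype.sum_prod_type]; exact sum_dMat_sq_le h
  have h2 : ∑ p : Fin n × Fin n, cov ν p.1 p.2 ^ 2 ≤ σ ^ 4 * (n : ℝ) ^ 2 := by
    rw [Fintype.sum_prod_type]; exact hC
  have h3 : |∑ p : Fin n × Fin n, dMat g g' p.1 p.2 * cov ν p.1 p.2| ≤ 2 * τ * σ ^ 2 * n :=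
    abs_le_of_sq_le_sq (hcs.trans ((mul_le_mul h1 h2 (Finset.sum_nonneg fun p _ => sq_nonneg _)
      (by positivity)).trans (by nlinarith [mul_nonneg (sq_nonneg τ) (mul_nonneg (pow_nonneg (sq_nonneg σ) 2)
        (sq_nonneg (n : ℝ)))]))) (by positivity)
  rw [hd, abs_mul, abs_neg, abs_of_nonneg (by linarith : (0 : ℝ) ≤ θ / 2)]
  nlinarith

theorem flip_flip (i : Fin n) (x : Fin n → Bool) : flip i (flip i x) = x := by
  funext j; by_cases h : j = i <;> simp [flip, h]

theorem spin_flip_ne {i j : Fin n} (h : j ≠ i) (x : Fin n → Bool) : spin (flip i x j) = spin (x j) := by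
  simp [flip, h]

theorem sum_flip (i : Fin n) (F : (Fin n → Bool) → ℝ) : ∑ x, F (flip i x) = ∑ x, F x :=
  Equiv.sum_comp (Function.Involutive.toPerm (flip i) (flip_flip i)) F

theorem field_flip (θ : ℝ) (g : Edge n → ℝ) (y : Fin n → ℝ) (i : Fin n) (x : Fin n → Bool) :
    field (skMat n θ g) y i (flip i x) = field (skMat n θ g) y i x := by
  refine congrArg (y i + ·) (Finset.sum_congr rfl fun j _ => ?_)
  by_cases h : j = i
  · subst h; simp [skMat_eq, gmat_self]
  · rw [spin_flip_ne h]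

theorem abs_tanh_sub_le (a b : ℝ) : |tanh a - tanh b| ≤ |a - b| := by
  have hd : ∀ x : ℝ, HasDerivWithinAt tanh (1 / cosh x ^ 2) Set.univ x := fun x => by
    have h := (hasDerivAt_sinh x).div (hasDerivAt_cosh x) (cosh_pos x).ne'
    rw [show tanh = fun y => sinh y / cosh y from funext tanh_eq_sinh_div_cosh]
    refine (h.congr_deriv ?_).hasDerivWithinAt
    rw [← sq, ← sq, cosh_sq]
    ring
  simpa [Real.norm_eq_abs] using convex_univ.norm_image_sub_le_of_norm_hasDerivWithin_le (fun x _ => hd x)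
    (C := 1) (fun x _ => by
      rw [Real.norm_of_nonneg (by positivity), div_le_one (by positivity)]
      nlinarith [one_le_cosh x]) (Set.mem_univ b) (Set.mem_univ a)

theorem abs_inv_cosh_sub_le (a b : ℝ) : |1 / cosh a - 1 / cosh b| ≤ |a - b| := by
  have hd : ∀ x : ℝ, HasDerivWithinAt (fun y => 1 / cosh y) (-sinh x / cosh x ^ 2) Set.univ x := fun x => by
    have h : HasDerivAt (fun y => 1 / cosh y) (-sinh x / cosh x ^ 2) x := by
      simpa [one_div, Pi.inv_def] using (hasDerivAt_cosh x).inv (cosh_pos x).ne'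
    exact h.hasDerivWithinAt
  simpa [Real.norm_eq_abs] using convex_univ.norm_image_sub_le_of_norm_hasDerivWithin_le (fun x _ => hd x)
    (C := 1) (fun x _ => by
      rw [Real.norm_eq_abs, abs_div, abs_neg, abs_of_pos (by positivity : 0 < cosh x ^ 2),
        div_le_one (by positivity)]
      refine abs_le_of_sq_le_sq ?_ (by positivity)
      nlinarith [one_le_cosh x, cosh_sq x, mul_le_mul (one_le_cosh x) (one_le_cosh x) zero_le_one (by linarith [one_le_cosh x])])
    (Set.mem_univ b) (Set.mem_univ a)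

theorem sqrt_rate_mul {s : ℝ} (hs : s ^ 2 = 1) (h : ℝ) :
    √((1 - s * tanh h) / 2) * √((1 + s * tanh h) / 2) = 1 / cosh h / 2 := by
  obtain ⟨b1, b2⟩ := abs_lt.1 (abs_tanh_lt_one h)
  have hc := cosh_pos h
  rw [← sqrt_mul (by rcases sq_eq_one_iff.1 hs with rfl | rfl <;> linarith)]
  have e : (1 - s * tanh h) / 2 * ((1 + s * tanh h) / 2) = (1 / cosh h / 2) ^ 2 := by
    have h1 : tanh h * cosh h = sinh h := by rw [tanh_eq_sinh_div_cosh, div_mul_cancel₀ _ hc.ne']
    field_simp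
    linear_combination (-(tanh h ^ 2) * cosh h ^ 2) * hs - (tanh h * cosh h + sinh h) * h1 + cosh_sq h
  rw [e, sqrt_sq (by positivity)]

/-- One term of the Dirichlet form, as a function of the local field. -/
noncomputable def edgeTerm (p q s h : ℝ) : ℝ :=
  (√(p * ((1 - s * tanh h) / 2)) - √(q * ((1 + s * tanh h) / 2))) ^ 2 / 2

theorem edgeTerm_sub_le {p q s : ℝ} (hp : 0 ≤ p) (hq : 0 ≤ q) (hs : s ^ 2 = 1) (a b : ℝ) :
    |edgeTerm p q s a - edgeTerm p q s b| ≤ (p + q) / 2 * |a - b| := by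
  have e : ∀ h, edgeTerm p q s h
      = (p + q) / 4 - s * tanh h * (p - q) / 4 - √p * √q * (1 / cosh h) / 2 := fun h => by
    obtain ⟨b1, b2⟩ := abs_lt.1 (abs_tanh_lt_one h)
    have hu : 0 ≤ (1 - s * tanh h) / 2 ∧ 0 ≤ (1 + s * tanh h) / 2 := by
      rcases sq_eq_one_iff.1 hs with rfl | rfl <;> constructor <;> linarith
    rw [edgeTerm, sub_sq, sq_sqrt (mul_nonneg hp hu.1), sq_sqrt (mul_nonneg hq hu.2), sqrt_mul hp,
      sqrt_mul hq]
    linear_combination (-(√p * √q)) * sqrt_rate_mul hs h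
  rw [e, e]
  have hpq : √p * √q ≤ (p + q) / 2 := by
    nlinarith [sq_nonneg (√p - √q), sq_sqrt hp, sq_sqrt hq]
  have h1 : |s * (tanh a - tanh b) * (p - q) / 4| ≤ (p + q) / 4 * |a - b| := by
    have hsa : |s| = 1 := by rcases sq_eq_one_iff.1 hs with rfl | rfl <;> simp
    rw [abs_div, abs_mul, abs_mul, hsa, one_mul, abs_of_pos (by norm_num : (0 : ℝ) < 4)]
    have h := mul_le_mul (abs_tanh_sub_le a b) (show |p - q| ≤ p + q from abs_le.2 ⟨by linarith, by linarith⟩)
      (abs_nonneg _) (abs_nonneg _)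
    linarith
  have h2 : |√p * √q * (1 / cosh a - 1 / cosh b) / 2| ≤ (p + q) / 4 * |a - b| := by
    rw [abs_div, abs_mul, abs_of_nonneg (by positivity : 0 ≤ √p * √q), abs_of_pos (by norm_num : (0 : ℝ) < 2)]
    have h := mul_le_mul hpq (abs_inv_cosh_sub_le a b) (abs_nonneg _) (by linarith)
    linarith
  rw [abs_le] at h1 h2 ⊢
  constructor <;> linarith [h1.1, h1.2, h2.1, h2.2]

theorem fisher_eq (θ : ℝ) (g : Edge n → ℝ) (y : Fin n → ℝ) (ν : (Fin n → Bool) → ℝ) :
    fisher θ g y ν = ∑ i, ∑ x, edgeTerm (ν x) (ν (flip i x)) (spin (x i)) (field (skMat n θ g) y i x) := by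
  refine Finset.sum_congr rfl fun i _ => Finset.sum_congr rfl fun x _ => ?_
  simp only [edgeTerm, flipRate, field_flip]
  have : spin (flip i x i) = -spin (x i) := by cases h : x i <;> simp [flip, spin, h]
  rw [this, neg_mul, sub_neg_eq_add]

theorem sum_sq_lin_eq {ν : (Fin n → Bool) → ℝ} (hν : IsLaw ν) (a : Fin n → ℝ) :
    ∑ x, ν x * (∑ j, a j * xi (bary ν) x j) ^ 2 = ∑ p : Fin n × Fin n, a p.1 * a p.2 * cov ν p.1 p.2 := by
  have hx : ∀ j k, ∑ x, ν x * (xi (bary ν) x j * xi (bary ν) x k) = cov ν j k := fun j k => by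
    simp only [xi, cov, sub_mul, mul_sub, Finset.sum_sub_distrib]
    have e1 : ∑ x, ν x * (bary ν j * spin (x k)) = bary ν j * bary ν k := by
      simp only [bary, Finset.mul_sum]; exact Finset.sum_congr rfl fun x _ => by ring
    have e2 : ∑ x, ν x * (spin (x j) * bary ν k) = bary ν j * bary ν k := by
      simp only [bary, Finset.sum_mul]; exact Finset.sum_congr rfl fun x _ => by ring
    rw [e1, e2, ← Finset.sum_mul, hν.2]
    ring
  rw [Fintype.sum_prod_type]
  have e : ∀ x, ν x * (∑ j, a j * xi (bary ν) x j) ^ 2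
      = ∑ j, ∑ k, ν x * (a j * xi (bary ν) x j * (a k * xi (bary ν) x k)) := fun x => by
    rw [sq, Finset.sum_mul_sum, Finset.mul_sum]
    exact Finset.sum_congr rfl fun j _ => Finset.mul_sum _ _ _
  simp only [e, ← hx, Finset.mul_sum]
  rw [Finset.sum_comm]
  refine Finset.sum_congr rfl fun j _ => ?_
  rw [Finset.sum_comm]
  exact Finset.sum_congr rfl fun k _ => Finset.sum_congr rfl fun x _ => by ring

theorem fisher_sub_le {g g' : Edge n → ℝ} {τ σ θ : ℝ} (hθ : 0 ≤ θ) (hτ : 0 < τ) (hσ : 0 < σ)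
    (h : ∑ e, (g e - g' e) ^ 2 ≤ τ ^ 2 * n) {ν : (Fin n → Bool) → ℝ} (hν : IsLaw ν)
    (hC : covSq ν ≤ σ ^ 4 * (n : ℝ) ^ 2) (y : Fin n → ℝ) :
    |fisher θ g y ν - fisher θ g' (recentre θ g g' (bary ν) y) ν| ≤ θ * (2 * τ * σ) * n := by
  set m := bary ν with hm
  set z : Fin n → (Fin n → Bool) → ℝ := fun i x => ∑ j, dMat g g' i j * xi m x j with hz
  have hh : ∀ i x, field (skMat n θ g) y i x - field (skMat n θ g') (recentre θ g g' m y) i x = θ * z i x :=
    fun i x => by
    simp only [field, recentre, couple, hz, dMat, xi, skMat_scale θ, mul_sub, sub_mul, Finset.sum_sub_distrib,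
      Finset.mul_sum, mul_assoc]
    ring
  have hzf : ∀ i x, z i (flip i x) = z i x := fun i x => Finset.sum_congr rfl fun j _ => by
    by_cases h : j = i
    · subst h; simp [dMat_self]
    · rw [xi, xi, spin_flip_ne h]
  have hterm : ∀ i, |∑ x, (edgeTerm (ν x) (ν (flip i x)) (spin (x i)) (field (skMat n θ g) y i x)
      - edgeTerm (ν x) (ν (flip i x)) (spin (x i)) (field (skMat n θ g') (recentre θ g g' m y) i x))|
      ≤ θ * ∑ x, ν x * |z i x| := fun i => by
    refine (Finset.abs_sum_le_sum_abs _ _).trans ((Finset.sum_le_sum fun x _ =>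
      edgeTerm_sub_le (hν.1 x) (hν.1 _) (Vale.Agent.P150.Fast.Ent.spin_sq_eq _) _ _).trans (le_of_eq ?_))
    simp only [hh, abs_mul, abs_of_nonneg hθ]
    have e := sum_flip i fun x => ν x * |z i x|
    simp only [hzf] at e
    calc ∑ x, (ν x + ν (flip i x)) / 2 * (θ * |z i x|)
        = θ / 2 * (∑ x, ν x * |z i x| + ∑ x, ν (flip i x) * |z i x|) := by
          rw [← Finset.sum_add_distrib, Finset.mul_sum]; exact Finset.sum_congr rfl fun x _ => by ring
      _ = _ := by rw [e]; ring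
  have hsq : ∀ i, ∑ x, ν x * z i x ^ 2 ≤ (∑ j, dMat g g' i j ^ 2) * (σ ^ 2 * n) := fun i => by
    simp only [hz, hm, sum_sq_lin_eq hν]
    refine le_of_abs_le (abs_le_of_sq_le_sq ((Finset.sum_mul_sq_le_sq_mul_sq univ
      (fun p : Fin n × Fin n => dMat g g' i p.1 * dMat g g' i p.2) fun p => cov ν p.1 p.2).trans ?_) (by positivity))
    rw [Fintype.sum_prod_type, Fintype.sum_prod_type]
    simp only [mul_pow, ← Finset.sum_mul_sum]
    calc (∑ j, dMat g g' i j ^ 2) * (∑ j, dMat g g' i j ^ 2) * (∑ j, ∑ k, cov ν j k ^ 2)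
        ≤ (∑ j, dMat g g' i j ^ 2) * (∑ j, dMat g g' i j ^ 2) * (σ ^ 4 * (n : ℝ) ^ 2) :=
          mul_le_mul_of_nonneg_left hC (mul_self_nonneg _)
      _ = _ := by ring
  set lam := 1 / (2 * τ * σ) with hlam
  have habs : ∀ i, ∑ x, ν x * |z i x| ≤ (lam * ∑ x, ν x * z i x ^ 2 + 1 / lam) / 2 := fun i => by
    have hl : 0 < lam := by positivity
    have hone : (1 : ℝ) / lam = ∑ x, ν x * (1 / lam) := by rw [← Finset.sum_mul, hν.2, one_mul]
    rw [hone, Finset.mul_sum, ← Finset.sum_add_distrib, Finset.sum_div]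
    refine Finset.sum_le_sum fun x _ => ?_
    have : |z i x| ≤ (lam * z i x ^ 2 + 1 / lam) / 2 := by
      rw [← sq_abs (z i x)]
      have h0 : 0 ≤ (lam * |z i x| - 1) ^ 2 / lam := by positivity
      have e : (lam * |z i x| - 1) ^ 2 / lam = lam * |z i x| ^ 2 + 1 / lam - 2 * |z i x| := by
        field_simp; ring
      linarith
    calc ν x * |z i x| ≤ ν x * ((lam * z i x ^ 2 + 1 / lam) / 2) := mul_le_mul_of_nonneg_left this (hν.1 x)
      _ = _ := by ring
  rw [fisher_eq, fisher_eq, ← Finset.sum_sub_distrib]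
  simp only [← Finset.sum_sub_distrib]
  refine (Finset.abs_sum_le_sum_abs _ _).trans ((Finset.sum_le_sum fun i _ => hterm i).trans ?_)
  rw [← Finset.mul_sum, mul_assoc θ]
  refine mul_le_mul_of_nonneg_left ?_ hθ
  refine (Finset.sum_le_sum fun i _ => habs i).trans ?_
  rw [← Finset.sum_div, Finset.sum_add_distrib, ← Finset.mul_sum]
  have hA : ∑ i, ∑ x, ν x * z i x ^ 2 ≤ 2 * τ ^ 2 * (σ ^ 2 * n) := by
    refine (Finset.sum_le_sum fun i _ => hsq i).trans ?_
    rw [← Finset.sum_mul]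
    exact mul_le_mul_of_nonneg_right (sum_dMat_sq_le h) (by positivity)
  have hB := mul_le_mul_of_nonneg_left hA (by positivity : 0 ≤ lam)
  have e : lam * (2 * τ ^ 2 * (σ ^ 2 * n)) = τ * σ * n := by rw [hlam]; field_simp
  have e' : ∑ _i : Fin n, 1 / lam = 2 * τ * σ * n := by rw [hlam]; simp; ring
  have hpos : 0 ≤ τ * σ * (n : ℝ) := by positivity
  rw [e']
  linarith

end Vale.Agent.P150.Full.Amp
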