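import Vale.Agent.P150.Full.T.Pins
import Vale.Agent.P150.Full.T.AmplifyBlowup
import Vale.Agent.P150.Full.T.AmplifyLip

/-!
# P150, no traps for every `β < 1`: amplification (module N2)

Gaussian blow-up of the good set. The combination moves by at most `δ n` when the couplings move by
`τ √n`, as soon as the covariances are small enough.
-/

open Finset MeasureTheory Real
open Vale.Agent.P150.Fast
open Vale.Agent.P150.Beyond Vale.Agent.P150.Beyond.Stability
open Vale.Agent.P150.Full.Amp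

namespace Vale.Agent.P150.Full.T

theorem recentre_fisherW {n : ℕ} (θ : ℝ) (g g' : Edge n → ℝ) (w m : Fin n → ℝ) :
    recentre θ g g' m (fun i => w i - θ * couple g m i) = fun i => w i - θ * couple g' m i :=
  funext fun i => by simp only [recentre]; ring

/-- Amplification: N2 of the no-trap proof. -/
theorem amplify : Amplify := by
  intro Λ K δ hδ
  set τ : ℝ := π * √((|K| + 1) / 2) with hτdef
  have hτ : 0 < τ := by positivity
  set σ : ℝ := min 1 (δ / (3 * (|Λ| + 1) * τ)) with hσdef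
  have hσ : 0 < σ := lt_min one_pos (by positivity)
  have hσ1 : σ ≤ 1 := min_le_left _ _
  have hσδ : 3 * (|Λ| + 1) * τ * σ ≤ δ := by
    have h := min_le_right 1 (δ / (3 * (|Λ| + 1) * τ))
    rw [← hσdef, le_div_iff₀ (by positivity)] at h
    linarith
  refine ⟨σ ^ 4, by positivity, 1, fun n hn S hS a b c ha hb hhalf => ?_⟩
  have hN : (1 : ℝ) ≤ n := by exact_mod_cast hn
  set F := {g | ∃ p ∈ S, c < a * excess p.1 g p.2.2 + b * fisherW p.1 g p.2.1 p.2.2} with hF
  set A : Set (Edge n → ℝ) := Fᶜ with hAdef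
  have hA : 1 / 2 ≤ (stdPi (Edge n)).real A := by
    have h1 : (1 : ℝ) ≤ (stdPi (Edge n)).real A + (stdPi (Edge n)).real F := by
      refine le_trans (le_of_eq ?_) (measureReal_union_le A F)
      rw [hAdef, Set.compl_union_self, measureReal_def, measure_univ, ENNReal.toReal_one]
    have h2 : (stdPi (Edge n)).real F ≤ 1 / 2 := by
      rw [measureReal_def, ← ENNReal.toReal_ofReal (by norm_num : (0 : ℝ) ≤ 1 / 2)]
      exact ENNReal.toReal_mono ENNReal.ofReal_ne_top hhalf
    linarith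
  have ht : 0 < τ * √(n : ℝ) := by positivity
  have hsub : {g | ∃ p ∈ S, c + δ * n < a * excess p.1 g p.2.2 + b * fisherW p.1 g p.2.1 p.2.2}
      ⊆ (near A (τ * √(n : ℝ)))ᶜ := by
    rintro g ⟨⟨θ, w, ν⟩, hp, hlt⟩ ⟨g', hg', hd⟩
    obtain ⟨h0, h1, hν, hC⟩ := hS _ hp
    simp only at h0 h1 hν hC hlt
    have hd' : ∑ e, (g e - g' e) ^ 2 ≤ τ ^ 2 * n := by
      have h := (Real.sqrt_le_left ht.le).1 hd
      rwa [mul_pow, sq_sqrt (Nat.cast_nonneg n)] at h
    have hle : a * excess θ g' ν + b * fisherW θ g' w ν ≤ c := by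
      by_contra hc
      exact hg' ⟨(θ, w, ν), hp, not_le.1 hc⟩
    have he := excess_sub_le h0 hτ.le hd' hC
    have hf := fisher_sub_le h0 hτ hσ hd' hν hC (fun i => w i - θ * couple g (bary ν) i)
    rw [recentre_fisherW] at hf
    have ha' : |a| ≤ |Λ| + 1 := by linarith [le_abs_self Λ]
    have hb' : |b| ≤ |Λ| + 1 := by linarith [le_abs_self Λ]
    have e1 : a * (excess θ g ν - excess θ g' ν) ≤ (|Λ| + 1) * (θ * τ * σ ^ 2 * n) :=
      (le_abs_self _).trans (by rw [abs_mul]; exact mul_le_mul ha' he (abs_nonneg _) (by positivity))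
    have e2 : b * (fisherW θ g w ν - fisherW θ g' w ν) ≤ (|Λ| + 1) * (θ * (2 * τ * σ) * n) :=
      (le_abs_self _).trans (by rw [abs_mul]; exact mul_le_mul hb' hf (abs_nonneg _) (by positivity))
    have hσ2 : θ * (σ ^ 2 + 2 * σ) ≤ 3 * σ := by
      nlinarith [mul_le_mul_of_nonneg_right hσ1 hσ.le]
    have e3 := mul_le_mul_of_nonneg_left hσ2 (by positivity : 0 ≤ (|Λ| + 1) * τ * n)
    have e4 := mul_le_mul_of_nonneg_right hσδ (Nat.cast_nonneg (α := ℝ) n)
    linarith
  refine (measure_mono hsub).trans ?_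
  show stdPi (Edge n) _ ≤ _
  rw [← ofReal_measureReal (μ := stdPi (Edge n))]
  refine ENNReal.ofReal_le_ofReal ((gauss_blowup hA ht).trans ?_)
  have e : -2 * (τ * √(n : ℝ)) ^ 2 / π ^ 2 = -((|K| + 1) * n) := by
    rw [mul_pow, sq_sqrt (Nat.cast_nonneg n), hτdef, mul_pow, sq_sqrt (by positivity)]
    field_simp
  rw [e]
  calc 2 * exp (-((|K| + 1) * n)) ≤ exp n * exp (-((|K| + 1) * n)) :=
        mul_le_mul_of_nonneg_right (by linarith [add_one_le_exp (n : ℝ)]) (exp_pos _).le
    _ ≤ exp (-(K * n)) := by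
        rw [← exp_add]
        refine exp_le_exp.2 ?_
        nlinarith [le_abs_self K]

end Vale.Agent.P150.Full.T
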