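import Vale.Agent.P150.Full.T.AmplifyBlowup

/-!
# P150, every inverse temperature below one: tails of Lipschitz functions of Gaussian variables
-/

open MeasureTheory ProbabilityTheory Real
open scoped ENNReal

namespace Vale.Agent.P150.Full.Amp

variable {κ : Type*} [Fintype κ]

theorem continuous_of_euclLip {f : (κ → ℝ) → ℝ} {L : ℝ}
    (hf : ∀ g g', |f g - f g'| ≤ L * √(∑ e, (g e - g' e) ^ 2)) : Continuous f := by
  refine continuous_iff_continuousAt.2 fun g => ?_
  refine tendsto_iff_dist_tendsto_zero.2 (squeeze_zero (fun _ => dist_nonneg) (fun g' => hf g' g) ?_)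
  refine Continuous.tendsto' (by fun_prop) g 0 ?_
  simp

theorem integrable_euclLip {f : (κ → ℝ) → ℝ} {L : ℝ} (hL : 0 ≤ L)
    (hf : ∀ g g', |f g - f g'| ≤ L * √(∑ e, (g e - g' e) ^ 2)) : Integrable f (stdPi κ) := by
  have h1 : Integrable (fun g : κ → ℝ => ∑ e, g e ^ 2) (stdPi κ) :=
    integrable_finsetSum _ fun e _ => (measurePreserving_coord e).integrable_comp_of_integrable
      (memLp_id_gaussianReal' 2 (by norm_num)).integrable_sq
  refine Integrable.mono' ((integrable_const |f 0|).add (((integrable_const (1 : ℝ)).add h1).const_mul L))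
    (continuous_of_euclLip hf).aestronglyMeasurable (Filter.Eventually.of_forall fun g => ?_)
  have h := hf g 0
  simp only [Pi.zero_apply, sub_zero] at h
  have hs : √(∑ e, g e ^ 2) ≤ 1 + ∑ e, g e ^ 2 := by
    have h0 : 0 ≤ ∑ e, g e ^ 2 := Finset.sum_nonneg fun e _ => sq_nonneg _
    exact (Real.sqrt_le_left (by linarith)).2 (by nlinarith)
  have := mul_le_mul_of_nonneg_left hs hL
  simp only [Pi.add_apply, Real.norm_eq_abs]
  linarith [abs_sub_abs_le_abs_sub (f g) (f 0)]

/-- The upper tail of a Lipschitz function around its mean. -/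
theorem gauss_tail {f : (κ → ℝ) → ℝ} {L : ℝ} (hL : 0 < L)
    (hf : ∀ g g', |f g - f g'| ≤ L * √(∑ e, (g e - g' e) ^ 2)) {t : ℝ} (ht : 0 ≤ t) :
    (stdPi κ).real {g | (∫ g', f g' ∂stdPi κ) + t ≤ f g} ≤ exp (-2 * t ^ 2 / (π ^ 2 * L ^ 2)) := by
  set T : (κ → ℝ) → EuclideanSpace ℝ κ := WithLp.toLp 2 with hT
  have hTm : Measurable T := by simp only [hT]; fun_prop
  set m := ∫ g', f g' ∂stdPi κ
  set l := 4 * t / (π ^ 2 * L ^ 2) with hl
  have hl0 : 0 ≤ l := by positivity
  have hfc := continuous_of_euclLip hf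
  set F : EuclideanSpace ℝ κ → ℝ := fun X => l * f (WithLp.ofLp X) with hF
  have hlip : LipschitzWith (l * L).toNNReal F := LipschitzWith.of_dist_le' fun X Y => by
    rw [Real.dist_eq, hF, ← mul_sub, abs_mul, abs_of_nonneg hl0, mul_assoc]
    refine mul_le_mul_of_nonneg_left ((hf _ _).trans (le_of_eq ?_)) hl0
    simp [EuclideanSpace.dist_eq, Real.dist_eq, sq_abs]
  have hmap : (stdPi κ).map T = stdGaussian (EuclideanSpace ℝ κ) := map_pi_eq_stdGaussian
  have h := lintegral_exp_sub_le_lipschitz hlip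
  rw [Real.coe_toNNReal _ (by positivity), ← hmap, Measure.map_prod_map _ _ hTm hTm,
    lintegral_map (by fun_prop) (hTm.prodMap hTm)] at h
  simp only [Prod.map, hF, hT, sub_eq_add_neg, exp_add, ENNReal.ofReal_mul (exp_pos _).le] at h
  rw [lintegral_prod_mul (μ := stdPi κ) (ν := stdPi κ) (f := fun g => ENNReal.ofReal (exp (l * f g)))
    (g := fun g => ENNReal.ofReal (exp (-(l * f g)))) (by fun_prop) (by fun_prop)] at h
  have hlow : ENNReal.ofReal (exp (-(l * m))) ≤ ∫⁻ g, ENNReal.ofReal (exp (-(l * f g))) ∂stdPi κ := by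
    rcases eq_top_or_lt_top (∫⁻ g, ENNReal.ofReal (exp (-(l * f g))) ∂stdPi κ) with hi | hi
    · rw [hi]; exact le_top
    have hint : Integrable (fun g => exp (-(l * f g))) (stdPi κ) :=
      ⟨(by fun_prop : Continuous fun g => exp (-(l * f g))).aestronglyMeasurable,
        (hasFiniteIntegral_iff_ofReal (Filter.Eventually.of_forall fun g => (exp_pos _).le)).2 hi⟩
    rw [← ofReal_integral_eq_lintegral_ofReal hint (Filter.Eventually.of_forall fun g => (exp_pos _).le)]
    refine ENNReal.ofReal_le_ofReal ?_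
    have hfi := integrable_euclLip hL.le hf
    have hi2 : Integrable (fun g => exp (-(l * m)) * (1 + (l * m - l * f g))) (stdPi κ) :=
      ((integrable_const 1).add ((integrable_const _).sub (hfi.const_mul l))).const_mul _
    refine le_trans (le_of_eq ?_) (integral_mono hi2 hint fun g => ?_)
    · have h3 : Integrable (fun g => l * m - l * f g) (stdPi κ) := (integrable_const _).sub (hfi.const_mul l)
      rw [integral_const_mul, integral_add (integrable_const _) h3,
        integral_sub (integrable_const _) (hfi.const_mul l), integral_const_mul]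
      simp [m, integral_const_mul]
    · have := mul_le_mul_of_nonneg_left (add_one_le_exp (l * m - l * f g)) (exp_pos (-(l * m))).le
      rw [← exp_add, show -(l * m) + (l * m - l * f g) = -(l * f g) by ring] at this
      linarith
  have hup := mul_meas_ge_le_lintegral₀ (μ := stdPi κ)
    (f := fun g => ENNReal.ofReal (exp (l * f g))) (by fun_prop) (ENNReal.ofReal (exp (l * (m + t))))
  have hsub : {g | m + t ≤ f g} ⊆ {g | ENNReal.ofReal (exp (l * (m + t))) ≤ ENNReal.ofReal (exp (l * f g))} :=
    fun g hg => ENNReal.ofReal_le_ofReal (exp_le_exp.2 (mul_le_mul_of_nonneg_left hg hl0))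
  have hall : ENNReal.ofReal (exp (l * (m + t))) * stdPi κ {g | m + t ≤ f g} * ENNReal.ofReal (exp (-(l * m)))
      ≤ ENNReal.ofReal (exp (π ^ 2 / 8 * (l * L) ^ 2)) :=
    (mul_le_mul' ((mul_le_mul' le_rfl (measure_mono hsub)).trans hup) hlow).trans h
  have h3 := ENNReal.toReal_mono ENNReal.ofReal_ne_top hall
  rw [ENNReal.toReal_mul, ENNReal.toReal_mul, ENNReal.toReal_ofReal (exp_pos _).le,
    ENNReal.toReal_ofReal (exp_pos _).le, ENNReal.toReal_ofReal (exp_pos _).le, mul_comm (exp (l * (m + t))),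
    mul_assoc, ← exp_add, ← le_div_iff₀ (exp_pos _), ← exp_sub] at h3
  refine h3.trans (exp_le_exp.2 (le_of_eq ?_))
  rw [hl]
  field_simp
  ring

end Vale.Agent.P150.Full.Amp
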