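import Vale.Agent.P150.Full.Defs
import Vale.Agent.P150.Beyond.Channel.Step

/-!
# P150 no traps, module N1: the channel started from an arbitrary law

Observing `Aᵀσ` through white noise for time `t` turns a law `ν` into the random posterior
`post ν A t W`; averages over the observation `W` are taken with `chE`. The couplings drop from `θ`
to `θ - t` and the field moves to `chField A y W`.
-/

open Finset MeasureTheory Real
open Vale.Agent.P150.Fast
open Vale.Agent.P150.Beyond Vale.Agent.P150.Beyond.Stability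

namespace Vale.Agent.P150.Full

variable {n : ℕ}

/-- The likelihood of the observation, averaged over the law. -/
noncomputable def chZ (ν : (Fin n → Bool) → ℝ) (A : Fin n → Fin n → ℝ) (t : ℝ) (W : Fin n → ℝ) : ℝ :=
  ∑ x, ν x * chTilt A t W x

/-- The posterior law given the observation. -/
noncomputable def post (ν : (Fin n → Bool) → ℝ) (A : Fin n → Fin n → ℝ) (t : ℝ) (W : Fin n → ℝ)
    (x : Fin n → Bool) : ℝ :=
  ν x * chTilt A t W x / chZ ν A t W

/-- The observation without signal. -/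
noncomputable def obs (t : ℝ) (z : Fin n → ℝ) (k : Fin n) : ℝ := √t * z k

/-- The mean over the observation up to time `t`. -/
noncomputable def chE (ν : (Fin n → Bool) → ℝ) (A : Fin n → Fin n → ℝ) (t : ℝ)
    (F : (Fin n → ℝ) → ℝ) : ℝ :=
  ∫ z, chZ ν A t (obs t z) * F (obs t z) ∂stdPi (Fin n)

/-- A function of the observation that can be averaged. -/
def ChInt (ν : (Fin n → Bool) → ℝ) (A : Fin n → Fin n → ℝ) (t : ℝ) (F : (Fin n → ℝ) → ℝ) : Prop :=
  Integrable (fun z => chZ ν A t (obs t z) * F (obs t z)) (stdPi (Fin n))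

variable {ν : (Fin n → Bool) → ℝ} {A : Fin n → Fin n → ℝ} {s t : ℝ}

theorem chZ_pos (hν : IsLaw ν) (t : ℝ) (W : Fin n → ℝ) : 0 < chZ ν A t W := by
  obtain ⟨x, -, hx⟩ := Finset.exists_ne_zero_of_sum_ne_zero (hν.2.trans_ne one_ne_zero)
  exact Finset.sum_pos' (fun y _ => mul_nonneg (hν.1 y) (chTilt_pos t W y).le)
    ⟨x, Finset.mem_univ x, mul_pos (lt_of_le_of_ne (hν.1 x) (Ne.symm hx)) (chTilt_pos t W x)⟩

theorem chZ_mul_post (hν : IsLaw ν) (t : ℝ) (W : Fin n → ℝ) (x : Fin n → Bool) :
    chZ ν A t W * post ν A t W x = ν x * chTilt A t W x :=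
  mul_div_cancel₀ _ (chZ_pos hν t W).ne'

theorem isLaw_post (hν : IsLaw ν) (t : ℝ) (W : Fin n → ℝ) : IsLaw (post ν A t W) := by
  refine ⟨fun x => div_nonneg (mul_nonneg (hν.1 x) (chTilt_pos t W x).le) (chZ_pos hν t W).le, ?_⟩
  simp only [post, ← Finset.sum_div]
  exact div_self (chZ_pos hν t W).ne'

theorem chTilt_add (A : Fin n → Fin n → ℝ) (s t : ℝ) (W W' : Fin n → ℝ) (x : Fin n → Bool) :
    chTilt A (s + t) (W + W') x = chTilt A s W x * chTilt A t W' x := by
  simp only [chTilt, ← Real.exp_add, Pi.add_apply, add_mul, Finset.sum_add_distrib]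
  congr 1
  ring

theorem chZ_add (hν : IsLaw ν) (s t : ℝ) (W W' : Fin n → ℝ) :
    chZ ν A (s + t) (W + W') = chZ ν A s W * chZ (post ν A s W) A t W' := by
  simp only [chZ, Finset.mul_sum]
  refine Finset.sum_congr rfl fun x _ => ?_
  rw [← mul_assoc, ← chZ, chZ_mul_post hν, chTilt_add, mul_assoc]

/-- Observing twice is observing once. -/
theorem post_post (hν : IsLaw ν) (s t : ℝ) (W W' : Fin n → ℝ) :
    post (post ν A s W) A t W' = post ν A (s + t) (W + W') := by
  funext x
  have h := (chZ_pos (A := A) hν s W).ne'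
  rw [post, post, post, chTilt_add, chZ_add hν]
  field_simp

theorem chField_add (A : Fin n → Fin n → ℝ) (y W W' : Fin n → ℝ) :
    chField A (chField A y W) W' = chField A y (W + W') :=
  funext fun i => by simp only [chField, Pi.add_apply, mul_add, Finset.sum_add_distrib]; ring

theorem continuous_chZ (ν : (Fin n → Bool) → ℝ) (A : Fin n → Fin n → ℝ) (t : ℝ) :
    Continuous (chZ ν A t) := by
  unfold chZ chTilt
  fun_prop

theorem continuous_post (hν : IsLaw ν) (A : Fin n → Fin n → ℝ) (t : ℝ) (x : Fin n → Bool) :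
    Continuous fun W => post ν A t W x := by
  unfold post
  exact Continuous.div (by unfold chTilt; fun_prop) (continuous_chZ ν A t) fun W => (chZ_pos hν t W).ne'

theorem continuous_obs (t : ℝ) : Continuous (obs (n := n) t) := by
  unfold obs
  fun_prop

theorem integrable_tilt_sum (ht : 0 ≤ t) (a : (Fin n → Bool) → ℝ) :
    Integrable (fun z => ∑ x, a x * chTilt A t (obs t z) x) (stdPi (Fin n)) :=
  integrable_finsetSum _ fun x _ => (integral_chTilt ht x).2.const_mul _

theorem integral_tilt_sum (ht : 0 ≤ t) (a : (Fin n → Bool) → ℝ) :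
    ∫ z, ∑ x, a x * chTilt A t (obs t z) x ∂stdPi (Fin n) = ∑ x, a x := by
  unfold obs
  rw [integral_finsetSum _ fun x _ => (integral_chTilt ht x).2.const_mul _]
  refine Finset.sum_congr rfl fun x _ => ?_
  rw [integral_const_mul, (integral_chTilt ht x).1, mul_one]

/-- Averages of posterior expectations are expectations. -/
theorem chE_sum (hν : IsLaw ν) (A : Fin n → Fin n → ℝ) (ht : 0 ≤ t) (G : (Fin n → Bool) → ℝ) :
    chE ν A t (fun W => ∑ x, post ν A t W x * G x) = ∑ x, ν x * G x ∧
      ChInt ν A t fun W => ∑ x, post ν A t W x * G x := by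
  have e : (fun z => chZ ν A t (obs t z) * ∑ x, post ν A t (obs t z) x * G x) =
      fun z => ∑ x, ν x * G x * chTilt A t (obs t z) x := funext fun z => by
    rw [Finset.mul_sum]
    refine Finset.sum_congr rfl fun x _ => ?_
    rw [← mul_assoc, chZ_mul_post hν]
    ring
  refine ⟨?_, ?_⟩
  · rw [chE, e, integral_tilt_sum ht]
  · rw [ChInt, e]
    exact integrable_tilt_sum ht _

/-- The means form a martingale. -/
theorem chE_bary (hν : IsLaw ν) (A : Fin n → Fin n → ℝ) (ht : 0 ≤ t) (i : Fin n) :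
    chE ν A t (fun W => bary (post ν A t W) i) = bary ν i :=
  (chE_sum hν A ht fun x => spin (x i)).1

theorem chE_const (hν : IsLaw ν) (A : Fin n → Fin n → ℝ) (ht : 0 ≤ t) (c : ℝ) :
    chE ν A t (fun _ => c) = c ∧ ChInt ν A t fun _ => c := by
  have h := chE_sum hν A ht fun _ => c
  simp only [← Finset.sum_mul, hν.2, (isLaw_post hν _ _).2, one_mul] at h
  exact h

theorem chInt_of_bound (hν : IsLaw ν) (ht : 0 ≤ t) {F : (Fin n → ℝ) → ℝ} (hF : Measurable F) {B : ℝ}
    (hB : ∀ W, |F W| ≤ B) : ChInt ν A t F := by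
  refine Integrable.mono' (chE_const hν A ht B).2
    (((continuous_chZ ν A t).measurable.comp (continuous_obs t).measurable).mul
      (hF.comp (continuous_obs t).measurable)).aestronglyMeasurable
    (Filter.Eventually.of_forall fun z => ?_)
  rw [Real.norm_eq_abs, abs_mul, abs_of_pos (chZ_pos hν _ _)]
  exact mul_le_mul_of_nonneg_left (hB _) (chZ_pos hν _ _).le

theorem chE_mono (hν : IsLaw ν) {F G : (Fin n → ℝ) → ℝ} (hF : ChInt ν A t F) (hG : ChInt ν A t G)
    (h : ∀ W, F W ≤ G W) : chE ν A t F ≤ chE ν A t G :=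
  integral_mono hF hG fun _ => mul_le_mul_of_nonneg_left (h _) (chZ_pos hν _ _).le

theorem chE_add {F G : (Fin n → ℝ) → ℝ} (hF : ChInt ν A t F) (hG : ChInt ν A t G) :
    chE ν A t (fun W => F W + G W) = chE ν A t F + chE ν A t G ∧ ChInt ν A t fun W => F W + G W := by
  simp only [chE, ChInt, mul_add] at *
  exact ⟨integral_add hF hG, hF.add hG⟩

theorem chE_const_mul (c : ℝ) {F : (Fin n → ℝ) → ℝ} (hF : ChInt ν A t F) :
    chE ν A t (fun W => c * F W) = c * chE ν A t F ∧ ChInt ν A t fun W => c * F W := by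
  simp only [chE, ChInt, mul_left_comm _ c] at *
  exact ⟨integral_const_mul c _, hF.const_mul c⟩

/-- The tower rule. -/
theorem chE_chE (hν : IsLaw ν) (hs : 0 ≤ s) (ht : 0 ≤ t) {F : (Fin n → ℝ) → ℝ} (hF : Measurable F)
    (hi : ChInt ν A (s + t) F) :
    chE ν A s (fun W => chE (post ν A s W) A t fun W' => F (W + W')) = chE ν A (s + t) F ∧
      ChInt ν A s (fun W => chE (post ν A s W) A t fun W' => F (W + W')) := by
  have hsq : √s ^ 2 + √t ^ 2 = √(s + t) ^ 2 := by
    rw [Real.sq_sqrt hs, Real.sq_sqrt ht, Real.sq_sqrt (add_nonneg hs ht)]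
  obtain ⟨p1, p2⟩ := integral_pair hsq (F := fun W => chZ ν A (s + t) W * F W)
    ((continuous_chZ ν A (s + t)).measurable.mul hF) hi
  have e : (fun z => chZ ν A s (obs s z) *
      chE (post ν A s (obs s z)) A t fun W' => F (obs s z + W')) =
      fun z => ∫ z', chZ ν A (s + t) (fun k => √s * z k + √t * z' k) *
        F (fun k => √s * z k + √t * z' k) ∂stdPi (Fin n) := funext fun z => by
    rw [chE, ← integral_const_mul]
    refine integral_congr_ae (Filter.Eventually.of_forall fun z' => ?_)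
    simp only [← mul_assoc, ← chZ_add hν]
    rfl
  refine ⟨?_, ?_⟩
  · rw [chE, e, p1]
    rfl
  · rw [ChInt, e]
    exact p2

/-- Squares of posterior expectations grow in mean. -/
theorem sq_chE_le (hν : IsLaw ν) (G : (Fin n → Bool) → ℝ) :
    (∑ x, ν x * G x) ^ 2 ≤ ∑ x, ν x * G x ^ 2 := by
  have h := Finset.sum_sq_le_sum_mul_sum_of_sq_le_mul (R := ℝ) univ (fun x _ => hν.1 x)
    (fun x _ => mul_nonneg (hν.1 x) (sq_nonneg (G x))) (r := fun x => ν x * G x)
    fun x _ => le_of_eq (by ring)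
  rwa [hν.2, one_mul] at h

/-- The second moment of a linear statistic about any point is a martingale and dominates the
squared distance of its posterior mean: the maximal inequality follows by optional stopping. -/
theorem linear_martingale (hν : IsLaw ν) (A : Fin n → Fin n → ℝ) (ht : 0 ≤ t) (v : Fin n → ℝ) (a : ℝ) :
    chE ν A t (fun W => ∑ x, post ν A t W x * ((∑ i, v i * spin (x i)) - a) ^ 2) =
        ∑ x, ν x * ((∑ i, v i * spin (x i)) - a) ^ 2 ∧
      ∀ W, ((∑ i, v i * bary (post ν A t W) i) - a) ^ 2 ≤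
        ∑ x, post ν A t W x * ((∑ i, v i * spin (x i)) - a) ^ 2 := by
  refine ⟨(chE_sum hν A ht _).1, fun W => le_trans (le_of_eq ?_) (sq_chE_le (isLaw_post hν t W) _)⟩
  congr 1
  simp only [bary, Finset.mul_sum, mul_sub, Finset.sum_sub_distrib]
  rw [← Finset.sum_mul, (isLaw_post hν t W).2, one_mul, Finset.sum_comm]
  exact congrArg (· - a) (Finset.sum_congr rfl fun x _ => Finset.sum_congr rfl fun i _ => by ring)

/-- The variance of a linear statistic is small for a pure law. -/
theorem linear_var_le (hν : IsLaw ν) {ρ : ℝ} (hρ : covSq ν ≤ ρ * (n : ℝ) ^ 2) (v : Fin n → ℝ) :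
    ∑ x, ν x * ((∑ i, v i * spin (x i)) - ∑ i, v i * bary ν i) ^ 2 ≤
      √ρ * n * ∑ i, v i ^ 2 := by
  have hA : ∑ x, ν x * (∑ i, v i * spin (x i)) ^ 2 =
      ∑ i, ∑ j, v i * v j * ∑ x, ν x * (spin (x i) * spin (x j)) := by
    simp only [sq, Finset.sum_mul_sum]
    simp only [Finset.mul_sum]
    rw [Finset.sum_comm]
    refine Finset.sum_congr rfl fun i _ => ?_
    rw [Finset.sum_comm]
    exact Finset.sum_congr rfl fun j _ => Finset.sum_congr rfl fun x _ => by ring
  have hm : ∑ x, ν x * (∑ i, v i * spin (x i)) = ∑ i, v i * bary ν i := by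
    simp only [bary, Finset.mul_sum]
    rw [Finset.sum_comm]
    exact Finset.sum_congr rfl fun i _ => Finset.sum_congr rfl fun x _ => by ring
  have e : ∑ x, ν x * ((∑ i, v i * spin (x i)) - ∑ i, v i * bary ν i) ^ 2 =
      ∑ i, ∑ j, v i * v j * cov ν i j := by
    set c := ∑ i, v i * bary ν i with hc
    have e1 : ∑ x, ν x * ((∑ i, v i * spin (x i)) - c) ^ 2 =
        ∑ x, ν x * (∑ i, v i * spin (x i)) ^ 2 - 2 * c * ∑ x, ν x * (∑ i, v i * spin (x i)) +
          c ^ 2 * ∑ x, ν x := by
      simp only [Finset.mul_sum (a := c ^ 2), Finset.mul_sum (a := 2 * c), ← Finset.sum_sub_distrib,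
        ← Finset.sum_add_distrib]
      exact Finset.sum_congr rfl fun x _ => by ring
    have e2 : c ^ 2 = ∑ i, ∑ j, v i * v j * (bary ν i * bary ν j) := by
      rw [hc, sq, Finset.sum_mul_sum]
      exact Finset.sum_congr rfl fun i _ => Finset.sum_congr rfl fun j _ => by ring
    rw [e1, hm, hν.2, hA]
    simp only [cov, mul_sub, Finset.sum_sub_distrib]
    linarith
  rw [e]
  rcases le_or_gt n 0 with hn | hn
  · obtain rfl : n = 0 := by omega
    simp
  have hn' : (0 : ℝ) < n := by exact_mod_cast hn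
  have hρ0 : 0 ≤ ρ := le_of_mul_le_mul_right (by
    linarith [show 0 ≤ covSq ν from Finset.sum_nonneg fun i _ => Finset.sum_nonneg fun j _ => sq_nonneg _])
    (pow_pos hn' 2)
  have h := Finset.sum_mul_sq_le_sq_mul_sq (univ : Finset (Fin n × Fin n))
    (fun p => v p.1 * v p.2) (fun p => cov ν p.1 p.2)
  simp only [Fintype.sum_prod_type, mul_pow, ← Finset.mul_sum, ← Finset.sum_mul] at h
  refine le_of_sq_le_sq (h.trans ?_) (mul_nonneg (mul_nonneg (Real.sqrt_nonneg ρ) hn'.le)
    (Finset.sum_nonneg fun i _ => sq_nonneg _))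
  refine (mul_le_mul_of_nonneg_left hρ (mul_self_nonneg _)).trans (le_of_eq ?_)
  rw [mul_pow, mul_pow, Real.sq_sqrt hρ0]
  ring

end Vale.Agent.P150.Full
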