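import Vale.Agent.P150.Full.T.Pins
import Vale.Agent.P150.Full.T.ChannelFisher

/-!
# P150 no traps, module N1: the end of the channel (`ProductEnd`)

Without couplings the conditional means of a nearly stationary law are nearly constant, so by the
chain rule its entropy is nearly that of the product of its marginals.
-/

open Finset MeasureTheory Real
open Vale.Agent.P150.Fast
open Vale.Agent.P150.Beyond Vale.Agent.P150.Beyond.Stability

namespace Vale.Agent.P150.Full.T

variable {n : ℕ} {ν : (Fin n → Bool) → ℝ}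

/-- The mass of the configurations agreeing with `x` on the first `k` sites. -/
noncomputable def pmass (ν : (Fin n → Bool) → ℝ) (k : ℕ) (x : Fin n → Bool) : ℝ :=
  ∑ z, if ∀ i : Fin n, (i : ℕ) < k → z i = x i then ν z else 0

theorem pmass_zero (hν : IsLaw ν) (x : Fin n → Bool) : pmass ν 0 x = 1 := by
  rw [pmass, ← hν.2]
  exact Finset.sum_congr rfl fun z _ => if_pos fun i hi => absurd hi (Nat.not_lt_zero _)

theorem pmass_top (x : Fin n → Bool) : pmass ν n x = ν x := by
  rw [pmass, Finset.sum_eq_single x]
  · simp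
  · intro z _ hz
    exact if_neg fun h => hz (funext fun i => h i i.2)
  · simp

theorem pmass_split (i : Fin n) (x : Fin n → Bool) :
    pmass ν (i + 1) x + pmass ν (i + 1) (flip i x) = pmass ν i x := by
  simp only [pmass, ← Finset.sum_add_distrib]
  refine Finset.sum_congr rfl fun z _ => ?_
  by_cases h : ∀ j : Fin n, (j : ℕ) < i → z j = x j
  · rw [if_pos h]
    have hx : ∀ w : Fin n → Bool, (∀ j : Fin n, (j : ℕ) < i → w j = x j) →
        ((∀ j : Fin n, (j : ℕ) < i + 1 → z j = w j) ↔ z i = w i) := fun w hw =>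
      ⟨fun h' => h' i (Nat.lt_succ_self _), fun h' j hj => by
        rcases Nat.lt_succ_iff_lt_or_eq.1 hj with hj | hj
        · rw [h j hj, hw j hj]
        · rw [Fin.ext hj, h']⟩
    have e1 := hx x fun _ _ => rfl
    have e2 := hx (flip i x) fun j hj => Function.update_of_ne (fun e => by simp [e] at hj) _ _
    have e3 : flip i x i = !x i := by simp [flip]
    simp only [e1, e2, e3]
    cases z i <;> cases x i <;> simp
  · rw [if_neg h]
    have h1 : ¬∀ j : Fin n, (j : ℕ) < i + 1 → z j = x j := fun h' => h fun j hj => h' j (by omega)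
    have h2 : ¬∀ j : Fin n, (j : ℕ) < i + 1 → z j = flip i x j := fun h' => h fun j hj => by
      rw [h' j (by omega)]
      exact Function.update_of_ne (fun e => by simp [e] at hj) _ _
    rw [if_neg h1, if_neg h2, add_zero]

theorem pmass_nonneg (hν : IsLaw ν) (k : ℕ) (x : Fin n → Bool) : 0 ≤ pmass ν k x :=
  Finset.sum_nonneg fun z _ => by split_ifs <;> [exact hν.1 z; exact le_rfl]

theorem le_pmass (hν : IsLaw ν) (k : ℕ) (x : Fin n → Bool) : ν x ≤ pmass ν k x := by
  refine le_trans (le_of_eq ?_) (Finset.single_le_sum (f := fun z =>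
    if ∀ i : Fin n, (i : ℕ) < k → z i = x i then ν z else 0)
    (fun z _ => by split_ifs <;> [exact hν.1 z; exact le_rfl]) (Finset.mem_univ x))
  exact (if_pos fun _ _ => rfl).symm

theorem sum_flip (i : Fin n) (F : (Fin n → Bool) → ℝ) : ∑ x, F (flip i x) = ∑ x, F x :=
  Equiv.sum_comp (Function.Involutive.toPerm (flip i) (flip_flip i)) F

/-- Conditioning on more spins cannot raise the conditional entropy. -/
theorem cond_step (hν : IsLaw ν) (i : Fin n) :
    ∑ x, ν x * (Real.log (pmass ν (i + 1) x) - Real.log (pmass ν i x)) ≤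
      ∑ x, ν x * Real.log (ν x / (ν x + ν (flip i x))) := by
  set u := fun x => ν x + ν (flip i x) with hu
  set W := fun x => if pmass ν i x = 0 then 0 else u x * pmass ν (i + 1) x / pmass ν i x with hW
  have hW0 : ∀ x, 0 ≤ W x := fun x => by
    simp only [hW]
    split_ifs
    · exact le_rfl
    · exact div_nonneg (mul_nonneg (add_nonneg (hν.1 _) (hν.1 _)) (pmass_nonneg hν _ _))
        (pmass_nonneg hν _ _)
  have hpt : ∀ x, ν x * (Real.log (pmass ν (i + 1) x) - Real.log (pmass ν i x)) ≤
      ν x * Real.log (ν x / u x) + (W x - ν x) := fun x => by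
    rcases (hν.1 x).eq_or_lt with h | h
    · rw [← h, zero_mul, zero_mul, zero_add, sub_zero]
      exact hW0 x
    · have p1 := h.trans_le (le_pmass hν (i + 1) x)
      have p0 := h.trans_le (le_pmass hν i x)
      have hu0 : 0 < u x := add_pos_of_pos_of_nonneg h (hν.1 _)
      have hl := mul_le_mul_of_nonneg_left (Real.log_le_sub_one_of_pos
        (div_pos (div_pos (mul_pos hu0 p1) p0) h)) h.le
      rw [Real.log_div (div_pos (mul_pos hu0 p1) p0).ne' h.ne', Real.log_div (mul_pos hu0 p1).ne' p0.ne',
        Real.log_mul hu0.ne' p1.ne', mul_sub_one, mul_div_cancel₀ _ h.ne'] at hl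
      simp only [hW, if_neg p0.ne']
      rw [Real.log_div h.ne' hu0.ne']
      linarith
  have hs : ∑ x, W x = ∑ x, ν x := by
    have hp : ∀ x, W x + W (flip i x) = u x := fun x => by
      have e1 : u (flip i x) = u x := by simp only [hu, flip_flip]; ring
      have e2 : pmass ν i (flip i x) = pmass ν i x := by
        rw [← pmass_split i x, ← pmass_split i (flip i x), flip_flip, add_comm]
      simp only [hW, e1, e2]
      split_ifs with h0
      · have := le_pmass hν i x
        have := le_pmass hν i (flip i x)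
        simp only [hu]
        linarith [hν.1 x, hν.1 (flip i x)]
      · rw [← add_div, ← mul_add, pmass_split, mul_div_assoc, div_self h0, mul_one]
    have h1 := Finset.sum_congr (s₁ := univ) rfl fun x _ => hp x
    simp only [hu, Finset.sum_add_distrib, sum_flip] at h1
    linarith
  refine (Finset.sum_le_sum fun x _ => hpt x).trans (le_of_eq ?_)
  rw [Finset.sum_add_distrib, Finset.sum_sub_distrib, hs, sub_self, add_zero]

theorem log_pair (hν : IsLaw ν) (i : Fin n) :
    ∑ x, ν x * Real.log (ν x / (ν x + ν (flip i x))) =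
      ∑ x, ν x * (binEnt (condMean ν i x) - Real.log 2) := by
  set F := fun x => ν x * Real.log (ν x / (ν x + ν (flip i x))) with hF
  set G := fun x => ν x * (binEnt (condMean ν i x) - Real.log 2) with hG
  have hp : ∀ x, F x + F (flip i x) = G x + G (flip i x) := fun x => by
    have hu : 0 ≤ ν x := hν.1 x
    have hv : 0 ≤ ν (flip i x) := hν.1 _
    rcases (add_nonneg hu hv).eq_or_lt with h0 | h0
    · have h1 : ν x = 0 := by linarith
      have h2 : ν (flip i x) = 0 := by linarith
      simp [hF, hG, h1, h2, flip_flip]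
    have ec : condMean ν i (flip i x) = condMean ν i x := by
      simp only [condMean, flip_flip]
      rw [add_comm (ν (flip i x) * _), add_comm (ν (flip i x))]
    have es : spin (flip i x i) = -spin (x i) := by simp [flip, spin_not]
    simp only [hF, hG, flip_flip, ec, add_comm (ν (flip i x)) (ν x)]
    set u := ν x + ν (flip i x) with hudef
    set c := condMean ν i x with hc
    have hne : u ≠ 0 := h0.ne'
    have hne' : ν x + ν (flip i x) ≠ 0 := h0.ne'
    have hp1 : (1 + c * spin (x i)) / 2 = ν x / u := by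
      rw [hc, condMean, es, hudef]
      field_simp
      linear_combination (ν x - ν (flip i x)) * spin_mul_spin (x i)
    have hp2 : (1 + c * spin (flip i x i)) / 2 = ν (flip i x) / u := by
      rw [hc, condMean, es, hudef]
      field_simp
      linear_combination (ν (flip i x) - ν x) * spin_mul_spin (x i)
    have key : ∀ (b : Bool) (w : ℝ), (1 + c * spin b) / 2 = w / u →
        w * Real.log (w / u) = w * (binEnt c + slope c * (spin b - c) - Real.log 2) := fun b w hb => by
      rcases eq_or_ne w 0 with hw | hw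
      · rw [hw, zero_mul, zero_mul]
      · have h1 : 1 + c * spin b ≠ 0 := fun h => by
          rw [h, zero_div, eq_comm, div_eq_zero_iff] at hb
          exact hb.elim hw hne
        rw [← hb, Real.log_div h1 two_ne_zero, log_site]
    rw [key (x i) _ hp1, key (flip i x i) _ hp2]
    have hcu : c * u = ν x * spin (x i) + ν (flip i x) * spin (flip i x i) := by
      rw [hc, condMean, div_mul_cancel₀ _ hne]
    linear_combination (-slope c) * hcu
  have h1 := Finset.sum_congr (s₁ := univ) rfl fun x _ => hp x
  simp only [Finset.sum_add_distrib, sum_flip] at h1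
  linarith

/-- The chain rule. -/
theorem nent_le_cond (hν : IsLaw ν) :
    nent ν + n * Real.log 2 ≤ ∑ i, ∑ x, ν x * binEnt (condMean ν i x) := by
  have e : nent ν = ∑ i : Fin n, ∑ x,
      ν x * (Real.log (pmass ν (i + 1) x) - Real.log (pmass ν i x)) := by
    rw [Finset.sum_comm, nent]
    refine Finset.sum_congr rfl fun x _ => ?_
    rw [← Finset.mul_sum, Fin.sum_univ_eq_sum_range
      (fun k => Real.log (pmass ν (k + 1) x) - Real.log (pmass ν k x)) n,
      Finset.sum_range_sub (fun k => Real.log (pmass ν k x)), pmass_top, pmass_zero hν, Real.log_one,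
      sub_zero]
  have h := Finset.sum_le_sum (s := univ) fun i _ => (cond_step hν i).trans_eq (log_pair hν i)
  simp only [mul_sub, Finset.sum_sub_distrib, ← Finset.sum_mul, hν.2, one_mul, Finset.sum_const,
    Finset.card_univ, Fintype.card_fin, nsmul_eq_mul] at h e
  linarith

/-- The binary entropy `log 2 - binEnt` is nonnegative and at most `2 √(1 - m²)`. -/
theorem binEnt_bounds {m : ℝ} (hm : |m| ≤ 1) :
    binEnt m ≤ Real.log 2 ∧ Real.log 2 - binEnt m ≤ 2 * √(1 - m ^ 2) := by
  obtain ⟨m1, m2⟩ := abs_le.1 hm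
  set p := (1 + m) / 2 with hp
  set q := (1 - m) / 2 with hq
  have hp0 : 0 ≤ p := by linarith
  have hq0 : 0 ≤ q := by linarith
  have hp1 : p ≤ 1 := by linarith
  have hq1 : q ≤ 1 := by linarith
  have e : ∀ r : ℝ, (2 * r) * Real.log (2 * r) = 2 * (r * Real.log 2 + r * Real.log r) := fun r => by
    rcases eq_or_ne r 0 with h | h
    · simp [h]
    · rw [Real.log_mul two_ne_zero h]; ring
  have eb : binEnt m = Real.log 2 + (p * Real.log p + q * Real.log q) := by
    rw [binEnt, show 1 + m = 2 * p by rw [hp]; ring, show 1 - m = 2 * q by rw [hq]; ring, e, e]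
    have hpq : p + q = 1 := by rw [hp, hq]; ring
    linear_combination Real.log 2 * hpq
  have key : ∀ r : ℝ, 0 ≤ r → r ≤ 1 →
      r * Real.log r ≤ 0 ∧ -(r * Real.log r) ≤ 2 * √r * (1 - r) := fun r h0 h1 => by
    refine ⟨mul_nonpos_of_nonneg_of_nonpos h0 (Real.log_nonpos h0 h1), ?_⟩
    rcases h0.eq_or_lt with h | h
    · simp [← h]
    · have hs := Real.sqrt_pos.2 h
      have hl := Real.log_le_sub_one_of_pos (inv_pos.2 hs)
      rw [Real.log_inv, Real.log_sqrt h0] at hl
      have hl2 := mul_le_mul_of_nonneg_left hl (show 0 ≤ 2 * r by linarith)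
      have e' : r * (√r)⁻¹ = √r := by
        rw [← div_eq_mul_inv, Real.div_sqrt]
      have hsr : √r ≤ 1 := Real.sqrt_le_one.2 h1
      have hrs : r * √r ≤ r := mul_le_of_le_one_right h0 hsr
      calc -(r * Real.log r) ≤ 2 * (r * (√r)⁻¹) - 2 * r := by linarith
        _ = 2 * √r - 2 * r := by rw [e']
        _ ≤ _ := by linarith
  obtain ⟨a1, a2⟩ := key p hp0 hp1
  obtain ⟨b1, b2⟩ := key q hq0 hq1
  refine ⟨by linarith, ?_⟩
  have eD : √(1 - m ^ 2) = 2 * (√p * √q) := by
    rw [← Real.sqrt_mul hp0, show 1 - m ^ 2 = 2 ^ 2 * (p * q) by rw [hp, hq]; ring,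
      Real.sqrt_mul (by norm_num), Real.sqrt_sq zero_le_two]
  have h1 : √p * q ≤ √p * √q := mul_le_mul_of_nonneg_left
    (Real.le_sqrt_of_sq_le (pow_le_of_le_one hq0 hq1 two_ne_zero)) (Real.sqrt_nonneg _)
  have h2 : √q * p ≤ √q * √p := mul_le_mul_of_nonneg_left
    (Real.le_sqrt_of_sq_le (pow_le_of_le_one hp0 hp1 two_ne_zero)) (Real.sqrt_nonneg _)
  rw [eD, eb, show q = 1 - p by rw [hp, hq]; ring] at *
  linarith

theorem site_le (hν : IsLaw ν) (i : Fin n) {τ : ℝ} (hτ : 0 < τ) :
    ∑ x, ν x * binEnt (condMean ν i x) - binEnt (bary ν i) ≤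
      (∑ x, ν x * (condMean ν i x - bary ν i) ^ 2) / τ + 2 * √τ := by
  have hc : ∀ x, |condMean ν i x| ≤ 1 := fun x => by
    rw [condMean, abs_div, abs_of_nonneg (add_nonneg (hν.1 x) (hν.1 _))]
    refine div_le_one_of_le₀ ((abs_add_le _ _).trans (le_of_eq ?_)) (add_nonneg (hν.1 x) (hν.1 _))
    rcases spin_cases (x i) with a | a <;> rcases spin_cases (flip i x i) with b | b <;>
      simp [a, b, abs_of_nonneg (hν.1 x), abs_of_nonneg (hν.1 (flip i x))]
  have hm := abs_bary_le hν i
  set e := ∑ x, ν x * (condMean ν i x - bary ν i) ^ 2 with he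
  have he0 : 0 ≤ e := Finset.sum_nonneg fun x _ => mul_nonneg (hν.1 x) (sq_nonneg _)
  have hbig : ∑ x, ν x * binEnt (condMean ν i x) ≤ Real.log 2 := by
    refine (Finset.sum_le_sum fun x _ =>
      mul_le_mul_of_nonneg_left (binEnt_bounds (hc x)).1 (hν.1 x)).trans_eq ?_
    rw [← Finset.sum_mul, hν.2, one_mul]
  rcases le_or_gt τ (1 - bary ν i ^ 2) with h | h
  · have hlt : |bary ν i| < 1 := by
      rw [← Real.sqrt_sq_eq_abs, Real.sqrt_lt' one_pos]; linarith
    have h1 := Finset.sum_le_sum (s := univ) fun x _ =>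
      mul_le_mul_of_nonneg_left (binEnt_ref (hc x) hlt) (hν.1 x)
    have hmean : ∑ x, ν x * condMean ν i x = bary ν i := by
      have hp : ∀ x, ν x * condMean ν i x + ν (flip i x) * condMean ν i (flip i x) =
          ν x * spin (x i) + ν (flip i x) * spin (flip i x i) := fun x => by
        have ec : condMean ν i (flip i x) = condMean ν i x := by
          simp only [condMean, flip_flip]
          rw [add_comm (ν (flip i x) * _), add_comm (ν (flip i x))]
        rw [ec, ← add_mul]
        rcases eq_or_ne (ν x + ν (flip i x)) 0 with h0 | h0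
        · have a := hν.1 x
          have b := hν.1 (flip i x)
          rw [show ν x = 0 by linarith, show ν (flip i x) = 0 by linarith]
          simp
        · rw [condMean, mul_div_cancel₀ _ h0]
      have h2 := Finset.sum_congr (s₁ := univ) rfl fun x _ => hp x
      rw [Finset.sum_add_distrib, Finset.sum_add_distrib,
        sum_flip i fun x => ν x * condMean ν i x, sum_flip i fun x => ν x * spin (x i)] at h2
      change _ = ∑ x, ν x * spin (x i)
      linarith
    simp only [mul_sub, mul_add, Finset.sum_sub_distrib, Finset.sum_add_distrib, ← Finset.sum_mul, hν.2,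
      one_mul] at h1
    have e1 : ∑ x, ν x * (slope (bary ν i) * condMean ν i x) = slope (bary ν i) * bary ν i := by
      rw [← hmean, Finset.mul_sum]; exact Finset.sum_congr rfl fun x _ => by ring
    have e2 : ∑ x, ν x * ((condMean ν i x - bary ν i) ^ 2 / (1 - bary ν i ^ 2)) =
        e / (1 - bary ν i ^ 2) := by
      rw [he, Finset.sum_div]; exact Finset.sum_congr rfl fun x _ => by ring
    rw [e1, e2] at h1
    have h3 : e / (1 - bary ν i ^ 2) ≤ e / τ := div_le_div_of_nonneg_left he0 hτ h
    linarith [Real.sqrt_nonneg τ]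
  · linarith [(binEnt_bounds hm).2, Real.sqrt_le_sqrt h.le, div_nonneg he0 hτ.le]

theorem productEnd : ProductEnd := by
  intro ε hε
  set τ := min 1 ((ε / 4) ^ 2) with hτ
  have hτ0 : 0 < τ := lt_min one_pos (by positivity)
  refine ⟨min (ε / 4) (ε * τ / 8), lt_min (by linarith) (by positivity), fun n g y ν hν hf => ?_⟩
  set a := min (ε / 4) (ε * τ / 8)
  have ha1 : a ≤ ε / 4 := min_le_left _ _
  have ha2 : a ≤ ε * τ / 8 := min_le_right _ _
  have hfield : ∀ i x, field (skMat n 0 g) y i x = y i := fun i x => by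
    simp [field, skMat_smul 0 g]
  have hcf := condMean_fisher hν 0 g y
  simp only [hfield] at hcf
  -- the mean is the best constant
  have hbest : ∀ i, ∑ x, ν x * (condMean ν i x - bary ν i) ^ 2 + (Real.tanh (y i) - bary ν i) ^ 2 =
      ∑ x, ν x * (condMean ν i x - Real.tanh (y i)) ^ 2 := fun i => by
    have hmean : ∑ x, ν x * condMean ν i x = bary ν i := by
      have h2 := Finset.sum_congr (s₁ := univ) rfl fun x _ =>
        show ν x * condMean ν i x + ν (flip i x) * condMean ν i (flip i x) =
          ν x * spin (x i) + ν (flip i x) * spin (flip i x i) from by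
        have ec : condMean ν i (flip i x) = condMean ν i x := by
          simp only [condMean, flip_flip]
          rw [add_comm (ν (flip i x) * _), add_comm (ν (flip i x))]
        rw [ec, ← add_mul]
        rcases eq_or_ne (ν x + ν (flip i x)) 0 with h0 | h0
        · have a := hν.1 x
          have b := hν.1 (flip i x)
          rw [show ν x = 0 by linarith, show ν (flip i x) = 0 by linarith]
          simp
        · rw [condMean, mul_div_cancel₀ _ h0]
      rw [Finset.sum_add_distrib, Finset.sum_add_distrib,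
        sum_flip i fun x => ν x * condMean ν i x, sum_flip i fun x => ν x * spin (x i)] at h2
      change _ = ∑ x, ν x * spin (x i)
      linarith
    have h : ∀ b, ∑ x, ν x * (condMean ν i x - b) ^ 2 =
        ∑ x, ν x * condMean ν i x ^ 2 - 2 * b * bary ν i + b ^ 2 := fun b => by
      rw [← hmean, ← mul_one (b ^ 2), ← hν.2, Finset.mul_sum, Finset.mul_sum, ← Finset.sum_sub_distrib,
        ← Finset.sum_add_distrib]
      exact Finset.sum_congr rfl fun x _ => by ring
    rw [h, h]
    ring
  have hsum : (∑ i, ∑ x, ν x * (condMean ν i x - bary ν i) ^ 2) +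
      ∑ i, (Real.tanh (y i) - bary ν i) ^ 2 ≤ 4 * (a * n) := by
    rw [← Finset.sum_add_distrib, Finset.sum_congr rfl fun i _ => hbest i]
    exact hcf.trans (by linarith)
  have hn : (0 : ℝ) ≤ n := Nat.cast_nonneg _
  have hE0 : 0 ≤ ∑ i, ∑ x, ν x * (condMean ν i x - bary ν i) ^ 2 :=
    Finset.sum_nonneg fun i _ => Finset.sum_nonneg fun x _ => mul_nonneg (hν.1 x) (sq_nonneg _)
  have hY0 : 0 ≤ ∑ i, (Real.tanh (y i) - bary ν i) ^ 2 := Finset.sum_nonneg fun i _ => sq_nonneg _
  refine ⟨?_, by linarith [mul_le_mul_of_nonneg_right ha1 hn]⟩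
  have hsites := Finset.sum_le_sum (s := univ) fun i _ => site_le hν i hτ0
  rw [Finset.sum_sub_distrib, Finset.sum_add_distrib, ← Finset.sum_div, Finset.sum_const, Finset.card_univ,
    Fintype.card_fin, nsmul_eq_mul] at hsites
  have he : excess 0 g ν = nent ν + n * Real.log 2 - ∑ i, binEnt (bary ν i) := by
    simp only [excess, freeE, tap]
    ring
  have hd : (∑ i, ∑ x, ν x * (condMean ν i x - bary ν i) ^ 2) / τ ≤ ε / 2 * n := by
    rw [div_le_iff₀ hτ0]
    linarith [mul_le_mul_of_nonneg_right ha2 hn]
  have hs : 2 * √τ ≤ ε / 2 := by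
    have := Real.sqrt_le_sqrt (min_le_right 1 ((ε / 4) ^ 2))
    rw [Real.sqrt_sq (by linarith), ← hτ] at this
    linarith
  have hs' := mul_le_mul_of_nonneg_left hs hn
  linarith [nent_le_cond hν]

end Vale.Agent.P150.Full.T
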