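import Vale.Agent.P150.Full.T.ChannelPins

/-!
# P150 no traps, module N1: one step of the drift of the free energy (`PhiStep`)

The free energy of the posterior is an expectation under the posterior minus the logarithm of the
likelihood; the latter is compared with the Gaussian likelihood at the mean signal, with a second
order error and no stochastic calculus.
-/

open Finset MeasureTheory Real
open Vale.Agent.P150.Fast
open Vale.Agent.P150.Beyond Vale.Agent.P150.Beyond.Stability

namespace Vale.Agent.P150.Full.T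

variable {n : ℕ} {g : Edge n → ℝ} {A : Fin n → Fin n → ℝ} {θ t : ℝ} {y : Fin n → ℝ}
  {ν : (Fin n → Bool) → ℝ}

theorem phiF_eq (hν : IsLaw ν) (θ : ℝ) (g : Edge n → ℝ) (y : Fin n → ℝ) :
    phiF θ g y ν =
      (∑ x, ν x * (Real.log (ν x) - ham (skMat n θ g) y x)) + n * Real.log 2 := by
  have e : ∀ x, ham (skMat n θ g) y x = (∑ i, y i * spin (x i)) + θ / 2 * bil g (spinv x) (spinv x) :=
    fun x => by
    have : ∑ i, ∑ j, skMat n θ g i j * spin (x i) * spin (x j) = θ * bil g (spinv x) (spinv x) := by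
      simp only [bil, spinv, Finset.mul_sum]
      exact Finset.sum_congr rfl fun i _ => Finset.sum_congr rfl fun j _ => by rw [skMat_smul]; ring
    rw [ham, this]
    ring
  have e1 : ∑ i, y i * bary ν i = ∑ x, ν x * ∑ i, y i * spin (x i) := by
    simp only [bary, Finset.mul_sum]
    rw [Finset.sum_comm]
    exact Finset.sum_congr rfl fun x _ => Finset.sum_congr rfl fun i _ => by ring
  simp only [phiF, freeE, nent, e, e1, mul_sub, mul_add, Finset.sum_sub_distrib, Finset.sum_add_distrib]
  rw [show ∑ x, ν x * (θ / 2 * bil g (spinv x) (spinv x)) =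
    θ / 2 * ∑ x, ν x * bil g (spinv x) (spinv x) by
      rw [Finset.mul_sum]; exact Finset.sum_congr rfl fun x _ => by ring]
  ring

theorem phiF_post (hA : IsRoot (skMat n 1 g) 5 3 A) (hν : IsLaw ν) (θ t : ℝ) (y W : Fin n → ℝ) :
    phiF (θ - t) g (chField A y W) (post ν A t W) =
      (∑ x, post ν A t W x * (Real.log (ν x) - ham (skMat n θ g) y x)) + n * Real.log 2 -
        Real.log (chZ ν A t W) - t * 5 * n / 2 := by
  have hl := isLaw_post (A := A) hν t W
  rw [phiF_eq hl]
  have e : ∀ x, post ν A t W x *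
      (Real.log (post ν A t W x) - ham (skMat n (θ - t) g) (chField A y W) x) =
      post ν A t W x * (Real.log (ν x) - ham (skMat n θ g) y x) -
        post ν A t W x * (Real.log (chZ ν A t W) + t * 5 * n / 2) := fun x => by
    rcases eq_or_ne (ν x) 0 with h | h
    · simp [post, h]
    · have h1 := (mul_pos (lt_of_le_of_ne (hν.1 x) (Ne.symm h)) (chTilt_pos (A := A) t W x)).ne'
      rw [post, Real.log_div h1 (chZ_pos hν t W).ne', Real.log_mul h (chTilt_pos (A := A) t W x).ne',
        ham_channel hA, chTilt, Real.log_exp]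
      ring
  simp only [e, Finset.sum_sub_distrib]
  rw [← Finset.sum_mul, hl.2]
  ring

theorem exp_le_quad {u K : ℝ} (hu : |u| ≤ K) : Real.exp u ≤ 1 + u + 3 * Real.exp K * u ^ 2 := by
  have hK : 1 ≤ Real.exp K := Real.one_le_exp ((abs_nonneg u).trans hu)
  rcases le_or_gt |u| 1 with h | h
  · have h1 := (abs_le.1 (Real.abs_exp_sub_one_sub_id_le h)).2
    linarith [le_mul_of_one_le_left (sq_nonneg u) (show 1 ≤ 3 * Real.exp K by linarith)]
  · have h1 : 1 ≤ u ^ 2 := by rw [← sq_abs]; exact one_le_pow₀ h.le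
    have h2 : -u ≤ u ^ 2 := by
      rw [← sq_abs u]; exact (neg_le_abs u).trans (le_self_pow₀ h.le two_ne_zero)
    have h3 := Real.exp_le_exp.2 ((le_abs_self u).trans hu)
    have h4 := mul_le_mul_of_nonneg_left h1 (Real.exp_pos K).le
    have h5 := mul_le_mul_of_nonneg_right hK (sq_nonneg u)
    linarith

/-- The expected log-likelihood, to first order. -/
theorem chE_log_le (hν : IsLaw ν) (ht : 0 ≤ t) {B : ℝ}
    (hB : ∀ x, ∑ k, chDir A x k ^ 2 ≤ B) :
    chE ν A t (fun W => Real.log (chZ ν A t W)) ≤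
        t / 2 * ∑ k, (∑ x, ν x * chDir A x k) ^ 2 + 3 * Real.exp (4 * t * B) * (4 * t * B) ^ 2 ∧
      ChInt ν A t fun W => Real.log (chZ ν A t W) := by
  set d := chDir A with hd
  set e : Fin n → ℝ := fun k => ∑ x, ν x * d x k with he
  set F := fun W => Real.log (chZ ν A t W) with hF
  have hFc : Continuous F :=
    (continuous_chZ ν A t).log fun W => (chZ_pos hν t W).ne'
  set ℓ : (Fin n → Bool) → (Fin n → ℝ) → ℝ := fun x W =>
    ∑ k, W k * d x k - t / 2 * ∑ k, d x k ^ 2 with hℓ
  have hZb : ∀ W, |F W| ≤ ∑ x, |ℓ x W| := fun W => by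
    have hb : ∀ x, |ℓ x W| ≤ ∑ y, |ℓ y W| := fun x =>
      Finset.single_le_sum (f := fun y => |ℓ y W|) (fun y _ => abs_nonneg _) (Finset.mem_univ x)
    have hZ := chZ_pos (A := A) hν t W
    rw [abs_le, hF, Real.le_log_iff_exp_le hZ, Real.log_le_iff_le_exp hZ]
    have hℓe : ∀ x, ℓ x W = ∑ k, W k * chDir A x k - t / 2 * ∑ k, chDir A x k ^ 2 := fun x => rfl
    refine ⟨?_, ?_⟩
    · calc Real.exp (-∑ y, |ℓ y W|) = ∑ x, ν x * Real.exp (-∑ y, |ℓ y W|) := by
            rw [← Finset.sum_mul, hν.2, one_mul]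
        _ ≤ _ := Finset.sum_le_sum fun x _ => mul_le_mul_of_nonneg_left
            (Real.exp_le_exp.2 (by linarith [hb x, neg_abs_le (ℓ x W), hℓe x])) (hν.1 x)
    · calc chZ ν A t W ≤ ∑ x, ν x * Real.exp (∑ y, |ℓ y W|) :=
            Finset.sum_le_sum fun x _ => mul_le_mul_of_nonneg_left
              (Real.exp_le_exp.2 (by linarith [hb x, le_abs_self (ℓ x W), hℓe x])) (hν.1 x)
        _ = _ := by rw [← Finset.sum_mul, hν.2, one_mul]
  have hlin : ∀ (x : Fin n → Bool) (b : Fin n → ℝ) (c : ℝ) (z : Fin n → ℝ),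
      ∑ k, (t * d x k + √t * z k) * b k - c =
        (t * ∑ k, d x k * b k - c) + ∑ k, (√t * b k) * z k := fun x b c z => by
    simp only [Finset.mul_sum, add_mul, Finset.sum_add_distrib]
    have : ∑ k, √t * z k * b k = ∑ k, √t * b k * z k := Finset.sum_congr rfl fun k _ => by ring
    rw [this]
    have : ∑ k, t * d x k * b k = ∑ k, t * (d x k * b k) := Finset.sum_congr rfl fun k _ => by ring
    rw [this]
    ring
  have hi : ∀ x, Integrable (fun z => F fun k => t * d x k + √t * z k) (stdPi (Fin n)) := fun x => by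
    have hl : ∀ y, Integrable (fun z => |ℓ y fun k => t * d x k + √t * z k|) (stdPi (Fin n)) := fun y => by
      simp only [hℓ, hlin]
      exact (stdPi_linear _ _).1.abs
    refine (integrable_finsetSum univ fun y _ => hl y).mono'
      (hFc.comp (by fun_prop)).aestronglyMeasurable
      (Filter.Eventually.of_forall fun z => (Real.norm_eq_abs _).trans_le (hZb _))
  obtain ⟨hI, hE⟩ := channelShift n A t ht ν hν F hFc.measurable hi
  refine ⟨?_, hI⟩
  rw [hE]
  -- one configuration
  have hone : ∀ x, ∫ z, F (fun k => t * d x k + √t * z k) ∂stdPi (Fin n) ≤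
      (t * ∑ k, d x k * e k - t / 2 * ∑ k, e k ^ 2) +
        ((∑ y, ν y * Real.exp (t * ∑ k, (d x k - e k) * (d y k - e k))) - 1) := fun x => by
    set R : (Fin n → Bool) → (Fin n → ℝ) → ℝ := fun y z => ν y *
      (Real.exp (t * ∑ k, d x k * (d y k - e k) - t / 2 * (∑ k, d y k ^ 2 - ∑ k, e k ^ 2)) *
        Real.exp (∑ k, (√t * (d y k - e k)) * z k)) with hR
    have hRi : ∀ y, Integrable (R y) (stdPi (Fin n)) := fun y =>
      ((integrable_exp_dot _).const_mul _).const_mul _
    have hpt : ∀ z, F (fun k => t * d x k + √t * z k) ≤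
        ((t * ∑ k, d x k * e k - t / 2 * ∑ k, e k ^ 2) + ∑ k, (√t * e k) * z k) +
          ((∑ y, R y z) - 1) := fun z => by
      set W : Fin n → ℝ := fun k => t * d x k + √t * z k with hW
      set r := ∑ k, W k * e k - t / 2 * ∑ k, e k ^ 2 with hr
      have hZ := chZ_pos (A := A) hν t W
      have hle : F W ≤ r + (chZ ν A t W * Real.exp (-r) - 1) := by
        have h := Real.log_le_sub_one_of_pos (mul_pos hZ (Real.exp_pos (-r)))
        rw [Real.log_mul hZ.ne' (Real.exp_pos _).ne', Real.log_exp] at h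
        simp only [hF]
        linarith
      refine hle.trans (le_of_eq ?_)
      rw [← hlin]
      congr 2
      simp only [chZ, hR, Finset.sum_mul]
      refine Finset.sum_congr rfl fun y _ => ?_
      rw [mul_assoc, ← Real.exp_add]
      congr 1
      simp only [chTilt, ← Real.exp_add]
      congr 1
      rw [hr, ← hd, show ∑ k, W k * d y k = ∑ k, W k * (d y k - e k) + ∑ k, W k * e k by
        rw [← Finset.sum_add_distrib]; exact Finset.sum_congr rfl fun k _ => by ring]
      have := hlin x (fun k => d y k - e k) 0 z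
      simp only [sub_zero] at this
      linear_combination this
    have i1 : Integrable (fun z => (t * ∑ k, d x k * e k - t / 2 * ∑ k, e k ^ 2) +
        ∑ k, (√t * e k) * z k) (stdPi (Fin n)) := (stdPi_linear _ _).1
    have i2 : Integrable (fun z => (∑ y, R y z) - 1) (stdPi (Fin n)) :=
      (integrable_finsetSum univ fun y _ => hRi y).sub (integrable_const 1)
    refine (integral_mono (hi x) (i1.fun_add i2) hpt).trans (le_of_eq ?_)
    rw [integral_add i1 i2, (stdPi_linear _ _).2.1, integral_sub (integrable_finsetSum univ fun y _ => hRi y)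
      (integrable_const 1), integral_const, probReal_univ, one_smul, integral_finsetSum _ fun y _ => hRi y]
    congr 2
    refine Finset.sum_congr rfl fun y _ => ?_
    simp only [hR]
    rw [integral_const_mul, integral_const_mul, integral_exp_dot, ← Real.exp_add]
    congr 2
    simp only [mul_pow, Real.sq_sqrt ht, ← Finset.mul_sum]
    simp only [Finset.mul_sum, ← Finset.sum_sub_distrib, Finset.sum_div, ← Finset.sum_add_distrib]
    exact Finset.sum_congr rfl fun k _ => by ring
  refine (Finset.sum_le_sum fun x _ => mul_le_mul_of_nonneg_left (hone x) (hν.1 x)).trans ?_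
  -- the second order
  have he2 : ∑ k, e k ^ 2 ≤ B := by
    refine (Finset.sum_le_sum fun k _ => sq_chE_le hν fun x => d x k).trans ?_
    rw [Finset.sum_comm]
    simp only [← Finset.mul_sum]
    refine (Finset.sum_le_sum fun x _ => mul_le_mul_of_nonneg_left (hB x) (hν.1 x)).trans_eq ?_
    rw [← Finset.sum_mul, hν.2, one_mul]
  set U := fun x y => t * ∑ k, (d x k - e k) * (d y k - e k) with hU
  have hK : ∀ x y, |U x y| ≤ 4 * t * B := fun x y => by
    rw [hU, abs_mul, abs_of_nonneg ht, show 4 * t * B = t * (4 * B) by ring]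
    refine mul_le_mul_of_nonneg_left ?_ ht
    have hw : ∀ x, ∑ k, (d x k - e k) ^ 2 ≤ 4 * B := fun x => by
      refine (Finset.sum_le_sum fun k _ => (show (d x k - e k) ^ 2 ≤ 2 * d x k ^ 2 + 2 * e k ^ 2 by
        linarith [sq_nonneg (d x k + e k), sub_sq (d x k) (e k), add_sq (d x k) (e k)])).trans ?_
      rw [Finset.sum_add_distrib, ← Finset.mul_sum, ← Finset.mul_sum]
      linarith [hB x]
    have h1 : |∑ k, (d x k - e k) * (d y k - e k)| ≤
        ∑ k, ((d x k - e k) ^ 2 + (d y k - e k) ^ 2) / 2 := by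
      refine (Finset.abs_sum_le_sum_abs _ _).trans (Finset.sum_le_sum fun k _ => ?_)
      rw [abs_mul]
      linarith [two_mul_le_add_sq |d x k - e k| |d y k - e k|, sq_abs (d x k - e k), sq_abs (d y k - e k)]
    rw [← Finset.sum_div, Finset.sum_add_distrib] at h1
    linarith [hw x, hw y]
  have hsum : ∑ x, ν x * ((∑ y, ν y * Real.exp (U x y)) - 1) ≤
      3 * Real.exp (4 * t * B) * (4 * t * B) ^ 2 := by
    have h1 : ∀ x, ν x * ((∑ y, ν y * Real.exp (U x y)) - 1) ≤
        ν x * ∑ y, ν y * (U x y + 3 * Real.exp (4 * t * B) * (4 * t * B) ^ 2) := fun x => by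
      refine mul_le_mul_of_nonneg_left ?_ (hν.1 x)
      rw [sub_le_iff_le_add, ← hν.2, ← Finset.sum_add_distrib]
      refine Finset.sum_le_sum fun y _ => ?_
      rw [← mul_add_one]
      refine mul_le_mul_of_nonneg_left ?_ (hν.1 y)
      have hsq : U x y ^ 2 ≤ (4 * t * B) ^ 2 := by
        rw [← sq_abs]; exact pow_le_pow_left₀ (abs_nonneg _) (hK x y) 2
      linarith [exp_le_quad (hK x y),
        mul_le_mul_of_nonneg_left hsq (show 0 ≤ 3 * Real.exp (4 * t * B) by positivity)]
    refine (Finset.sum_le_sum fun x _ => h1 x).trans (le_of_eq ?_)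
    simp only [mul_add, Finset.sum_add_distrib, ← Finset.sum_mul, hν.2, one_mul]
    rw [add_eq_right]
    have z0 : ∀ k, ∑ x, ν x * (d x k - e k) = 0 := fun k => by
      simp only [mul_sub, Finset.sum_sub_distrib, ← Finset.sum_mul, hν.2, one_mul, he, sub_self]
    simp only [hU, Finset.mul_sum]
    refine Finset.sum_eq_zero fun x _ => ?_
    rw [Finset.sum_comm]
    refine Finset.sum_eq_zero fun k _ => ?_
    have : ∀ y, ν x * (ν y * (t * ((d x k - e k) * (d y k - e k)))) =
        (ν x * t * (d x k - e k)) * (ν y * (d y k - e k)) := fun y => by ring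
    simp only [this, ← Finset.mul_sum, z0, mul_zero]
  have hfirst : ∑ x, ν x * (t * ∑ k, d x k * e k - t / 2 * ∑ k, e k ^ 2) = t / 2 * ∑ k, e k ^ 2 := by
    simp only [mul_sub, Finset.sum_sub_distrib, ← Finset.sum_mul, hν.2, one_mul]
    have : ∑ x, ν x * (t * ∑ k, d x k * e k) = t * ∑ k, e k ^ 2 := by
      simp only [Finset.mul_sum]
      rw [Finset.sum_comm]
      refine Finset.sum_congr rfl fun k _ => ?_
      have : ∀ x, ν x * (t * (d x k * e k)) = t * e k * (ν x * d x k) := fun x => by ring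
      rw [Finset.sum_congr rfl fun x _ => this x, ← Finset.mul_sum]
      simp only [he]
      ring
    rw [this]
    ring
  simp only [mul_add, Finset.sum_add_distrib, hfirst]
  linarith [hsum]

theorem phiStep : PhiStep := by
  refine ⟨3 * 1024 * Real.exp 32, 2, fun n hn g A hA hop t θ ht htθ hθ hp y ν hν => ?_⟩
  have hn' : (1 : ℝ) ≤ n := by exact_mod_cast hn
  have hB : ∀ x, ∑ k, chDir A x k ^ 2 ≤ 8 * n := fun x => by
    rw [chDir_sq hA]
    have h := (abs_le.1 (hop fun i => spin (x i))).2
    simp only [bil, sq, spin_mul_spin, Finset.sum_const, Finset.card_univ, Fintype.card_fin,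
      nsmul_eq_mul, mul_one] at h
    linarith
  obtain ⟨h1, h2⟩ := chE_log_le hν ht hB
  obtain ⟨k1, k2⟩ := chE_sum hν A ht fun x => Real.log (ν x) - ham (skMat n θ g) y x
  obtain ⟨c1, c2⟩ := chE_const hν A ht (n * Real.log 2 - t * 5 * n / 2)
  obtain ⟨m1, m2⟩ := chE_const_mul (-1) h2
  obtain ⟨a1, a2⟩ := chE_add c2 m2
  obtain ⟨b1, -⟩ := chE_add k2 a2
  have e : (fun W => phiF (θ - t) g (chField A y W) (post ν A t W)) = fun W =>
      (∑ x, post ν A t W x * (Real.log (ν x) - ham (skMat n θ g) y x)) +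
        ((n * Real.log 2 - t * 5 * n / 2) + -1 * Real.log (chZ ν A t W)) := funext fun W => by
    rw [phiF_post hA hν]; ring
  have hq : ∑ k, (∑ x, ν x * chDir A x k) ^ 2 =
      bil g (bary ν) (bary ν) + 5 * n * qOf (bary ν) := by
    have e1 : ∀ k, ∑ x, ν x * chDir A x k = ∑ i, A i k * bary ν i := fun k => by
      simp only [chDir, bary, Finset.mul_sum]
      rw [Finset.sum_comm]
      exact Finset.sum_congr rfl fun i _ => Finset.sum_congr rfl fun x _ => by ring
    simp only [e1, sq, Finset.sum_mul_sum]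
    rw [Finset.sum_comm]
    have e' : ∀ a b, ∑ k, A a k * bary ν a * (A b k * bary ν b) =
        skMat n 1 g a b * bary ν a * bary ν b + if a = b then 5 * bary ν a ^ 2 else 0 := fun a b => by
      rw [Finset.sum_congr rfl fun k _ => mul_mul_mul_comm (A a k) (bary ν a) (A b k) (bary ν b),
        ← Finset.sum_mul, hA.gram]
      split_ifs with hab
      · subst hab; ring
      · ring
    have : ∀ a, ∑ k, A a k * bary ν a * ∑ b, A b k * bary ν b =
        ∑ b, skMat n 1 g a b * bary ν a * bary ν b + 5 * bary ν a ^ 2 := fun a => by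
      simp only [Finset.mul_sum]
      rw [Finset.sum_comm]
      simp only [e', Finset.sum_add_distrib, Finset.sum_ite_eq, Finset.mem_univ, if_true]
    simp only [this, Finset.sum_add_distrib, ← Finset.mul_sum, qOf, bil]
    field_simp
  rw [e, b1, k1, a1, c1, m1, phiF_eq hν]
  rw [hq] at h1
  have ht1 : t ≤ 1 := htθ.trans hθ
  have htn : t * n ≤ 1 := by
    refine le_trans ?_ hp
    rw [mul_comm]
    exact mul_le_mul_of_nonneg_right (le_self_pow₀ hn' two_ne_zero) ht
  have hsqrt : t ≤ √t := Real.le_sqrt_of_sq_le (pow_le_of_le_one ht ht1 two_ne_zero)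
  have hexp : Real.exp (4 * t * (8 * n)) ≤ Real.exp 32 := Real.exp_le_exp.2 (by linarith)
  have herr : 3 * Real.exp (4 * t * (8 * n)) * (4 * t * (8 * n)) ^ 2 ≤
      3 * 1024 * Real.exp 32 * (n : ℝ) ^ 2 * (t * √t) := by
    have h3 : (4 * t * (8 * (n : ℝ))) ^ 2 ≤ 1024 * (n : ℝ) ^ 2 * (t * √t) := by
      linarith [mul_le_mul_of_nonneg_left hsqrt (mul_nonneg ht (sq_nonneg (n : ℝ)))]
    exact (mul_le_mul (mul_le_mul_of_nonneg_left hexp zero_le_three) h3 (sq_nonneg _)
      (by positivity)).trans_eq (by ring)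
  linarith

end Vale.Agent.P150.Full.T
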