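import Vale.Agent.P150.Full.T.Channel
import Vale.Agent.P150.Beyond.Transfer
import Mathlib.Probability.Moments.Variance

/-!
# P150 no traps, module N1: one step of the channel pays for the squared covariances

No derivative is used: the gain of the squared means is bounded below by the regression of the
posterior means on linear statistics of the observation. Summed over a fine grid this bounds the
covariances along it.
-/

open Finset MeasureTheory ProbabilityTheory Real
open Vale.Agent.P150.Fast
open Vale.Agent.P150.Beyond Vale.Agent.P150.Beyond.Stability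

namespace Vale.Agent.P150.Full

variable {n : ℕ} {g : Edge n → ℝ} {c L Λ h B : ℝ} {A : Fin n → Fin n → ℝ}
  {ν : (Fin n → Bool) → ℝ}

/-- Linear statistics of white noise. -/
theorem stdPi_linear {κ : Type*} [Fintype κ] (v : κ → ℝ) (a : ℝ) :
    Integrable (fun z => a + ∑ k, v k * z k) (stdPi κ) ∧
      ∫ z, a + ∑ k, v k * z k ∂stdPi κ = a ∧
      Integrable (fun z => (a + ∑ k, v k * z k) ^ 2) (stdPi κ) ∧
      ∫ z, (a + ∑ k, v k * z k) ^ 2 ∂stdPi κ = a ^ 2 + ∑ k, v k ^ 2 := by
  have hid : MemLp (fun x : ℝ => x) 2 (gaussianReal 0 1) := memLp_id_gaussianReal' 2 (by norm_num)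
  have hm : ∀ k, MemLp (fun z : κ → ℝ => v k * z k) 2 (stdPi κ) := fun k =>
    (hid.comp_measurePreserving (measurePreserving_coord k)).const_mul (v k)
  have hs : MemLp (fun z : κ → ℝ => ∑ k, v k * z k) 2 (stdPi κ) :=
    memLp_finsetSum _ fun k _ => hm k
  have hsum : MemLp (fun z : κ → ℝ => a + ∑ k, v k * z k) 2 (stdPi κ) := (memLp_const a).add hs
  have h0 : ∫ z, ∑ k, v k * z k ∂stdPi κ = 0 := by
    rw [integral_finsetSum _ fun k _ => (hm k).integrable one_le_two]
    refine Finset.sum_eq_zero fun k _ => ?_
    rw [integral_const_mul, ← integral_map (measurePreserving_coord k).measurable.aemeasurable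
      (f := fun x : ℝ => x) (by fun_prop), (measurePreserving_coord k).map_eq, std]
    simp
  have h2 : ∫ z, (∑ k, v k * z k) ^ 2 ∂stdPi κ = ∑ k, v k ^ 2 := by
    have hv := variance_sum_pi (μ := fun _ : κ => gaussianReal 0 1) (X := fun k x => v k * x)
      fun k => hid.const_mul (v k)
    have e : (∑ k, fun ω : κ → ℝ => v k * ω k) = fun ω => ∑ k, v k * ω k :=
      funext fun ω => by simp [Finset.sum_apply]
    rw [e] at hv
    have hz : Var[fun ω => ∑ k, v k * ω k; stdPi κ] = ∫ z, (∑ k, v k * z k) ^ 2 ∂stdPi κ := by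
      rw [variance_eq_integral hs.aemeasurable, h0]
      simp
    rw [← hz]
    refine hv.trans (Finset.sum_congr rfl fun k _ => ?_)
    rw [variance_const_mul, variance_fun_id_gaussianReal]
    simp
  refine ⟨hsum.integrable one_le_two, ?_, hsum.integrable_sq, ?_⟩
  · rw [integral_add (integrable_const a) (hs.integrable one_le_two), h0, integral_const]
    simp
  · have e : (fun z : κ → ℝ => (a + ∑ k, v k * z k) ^ 2) =
        fun z => (a ^ 2 + 2 * a * ∑ k, v k * z k) + (∑ k, v k * z k) ^ 2 := funext fun z => by ring
    have i1 : Integrable (fun z : κ → ℝ => 2 * a * ∑ k, v k * z k) (stdPi κ) :=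
      (hs.integrable one_le_two).const_mul _
    rw [e, integral_add ((integrable_const _).fun_add i1) hs.integrable_sq,
      integral_add (integrable_const _) i1, integral_const_mul, h0, h2, integral_const]
    simp

/-- Shifting out the likelihood of a configuration. -/
theorem integral_tilt_fun (h0 : 0 ≤ h) (x : Fin n → Bool) {F : (Fin n → ℝ) → ℝ} (hF : Measurable F) :
    ∫ z, chTilt A h (obs h z) x * F (obs h z) ∂stdPi (Fin n) =
      ∫ z, F (fun k => h * chDir A x k + √h * z k) ∂stdPi (Fin n) := by
  set b := fun k => √h * chDir A x k with hb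
  have e : (fun z => chTilt A h (obs h z) x * F (obs h z)) =
      fun z => Real.exp (-(∑ k, b k ^ 2) / 2) * (Real.exp (∑ k, b k * z k) * F (obs h z)) :=
    funext fun z => by
      rw [← mul_assoc, ← Real.exp_add, chTilt]
      congr 2
      simp only [hb, obs, mul_pow, Real.sq_sqrt h0, ← Finset.mul_sum]
      have : ∑ k, √h * z k * chDir A x k = ∑ k, √h * chDir A x k * z k :=
        Finset.sum_congr rfl fun k _ => by ring
      rw [this]
      ring
  rw [e, integral_const_mul, integral_exp_dot_mul b (F := fun z => F (obs h z))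
    (hF.comp (continuous_obs h).measurable), ← mul_assoc,
    ← Real.exp_add, show -(∑ k, b k ^ 2) / 2 + (∑ k, b k ^ 2) / 2 = 0 by ring, Real.exp_zero, one_mul]
  refine integral_congr_ae (Filter.Eventually.of_forall fun z => ?_)
  simp only
  congr 1
  funext k
  simp only [obs, hb, mul_add, ← mul_assoc, Real.mul_self_sqrt h0]

theorem cov_comm (ν : (Fin n → Bool) → ℝ) (i j : Fin n) : cov ν i j = cov ν j i := by
  simp only [cov, mul_comm (spin _) (spin _), mul_comm (bary ν i)]

/-- P2, one step. -/
theorem sq_bary_gain (hA : IsRoot (skMat n 1 g) c L A) (hop : OpBound g Λ) (hν : IsLaw ν)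
    (hB : ∀ x, ∑ k, chDir A x k ^ 2 ≤ B) (h0 : 0 ≤ h) :
    h / (1 + h * B) * ((c - Λ) * covSq ν) ≤
      chE ν A h (fun W => ∑ i, bary (post ν A h W) i ^ 2) - ∑ i, bary ν i ^ 2 := by
  have hB0 : 0 ≤ B := le_trans (Finset.sum_nonneg fun k _ => sq_nonneg _) (hB fun _ => true)
  have hpos : 0 < 1 + h * B := by positivity
  set m := bary ν with hm
  set v : Fin n → Fin n → ℝ := fun i k => ∑ j, cov ν i j * A j k with hv
  -- the quadratic form
  have hquad : ∀ i, (c - Λ) * ∑ j, cov ν i j ^ 2 ≤ ∑ k, v i k ^ 2 := fun i => by
    have e : ∑ k, v i k ^ 2 = bil g (cov ν i) (cov ν i) + c * ∑ j, cov ν i j ^ 2 := by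
      simp only [hv, sq, Finset.sum_mul_sum]
      rw [Finset.sum_comm]
      simp only [bil, Finset.mul_sum, ← Finset.sum_add_distrib]
      refine Finset.sum_congr rfl fun a _ => ?_
      rw [Finset.sum_comm]
      have e' : ∀ b, ∑ k, cov ν i a * A a k * (cov ν i b * A b k) =
          skMat n 1 g a b * cov ν i a * cov ν i b +
            (if a = b then c * (cov ν i a * cov ν i a) else 0) := fun b => by
        have hg := hA.gram a b
        rw [Finset.sum_congr rfl fun k _ => mul_mul_mul_comm (cov ν i a) (A a k) (cov ν i b) (A b k),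
          ← Finset.mul_sum, hg]
        split_ifs with hab
        · subst hab; ring
        · ring
      simp only [e', Finset.sum_add_distrib, Finset.sum_ite_eq, Finset.mem_univ, if_true]
    rw [e, sub_mul]
    linarith [(abs_le.1 (hop (cov ν i))).1]
  -- one site
  have hsite : ∀ i, h / (1 + h * B) * ∑ k, v i k ^ 2 ≤
      chE ν A h (fun W => bary (post ν A h W) i ^ 2) - m i ^ 2 := fun i => by
    set S := ∑ k, v i k ^ 2 with hS
    set d : (Fin n → Bool) → ℝ := fun x => ∑ k, v i k * chDir A x k with hd
    set e := ∑ x, ν x * d x with he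
    set G : (Fin n → ℝ) → ℝ := fun W => ∑ k, v i k * W k - h * e with hG
    have hGm : Measurable G := by rw [hG]; fun_prop
    have hcov : ∑ x, ν x * spin (x i) * (d x - e) = S := by
      have e1 : ∑ x, ν x * spin (x i) * d x =
          ∑ k, v i k * ∑ j, A j k * (cov ν i j + m i * m j) := by
        simp only [hd, chDir, cov, hm, sub_add_cancel, Finset.mul_sum]
        rw [Finset.sum_comm]
        refine Finset.sum_congr rfl fun k _ => ?_
        rw [Finset.sum_comm]
        exact Finset.sum_congr rfl fun j _ => Finset.sum_congr rfl fun x _ => by ring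
      have e2 : e = ∑ k, v i k * ∑ j, A j k * m j := by
        simp only [he, hd, chDir, hm, bary, Finset.mul_sum]
        rw [Finset.sum_comm]
        refine Finset.sum_congr rfl fun k _ => ?_
        rw [Finset.sum_comm]
        exact Finset.sum_congr rfl fun j _ => Finset.sum_congr rfl fun x _ => by ring
      simp only [mul_sub, Finset.sum_sub_distrib, e1, ← Finset.sum_mul]
      rw [show ∑ x, ν x * spin (x i) = m i from rfl, e2, Finset.mul_sum, hS, ← Finset.sum_sub_distrib]
      refine Finset.sum_congr rfl fun k _ => ?_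
      have : ∑ j, A j k * (cov ν i j + m i * m j) = v i k + m i * ∑ j, A j k * m j := by
        simp only [hv, Finset.mul_sum, ← Finset.sum_add_distrib]
        exact Finset.sum_congr rfl fun j _ => by ring
      rw [this]
      ring
    have hshift : ∀ (x : Fin n → Bool) (z : Fin n → ℝ), G (fun k => h * chDir A x k + √h * z k) =
        h * (d x - e) + ∑ k, (√h * v i k) * z k := fun x z => by
      simp only [hG, hd, mul_add, Finset.sum_add_distrib, mul_sub, Finset.mul_sum]
      rw [show ∑ k, v i k * (h * chDir A x k) = ∑ k, h * (v i k * chDir A x k) from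
        Finset.sum_congr rfl fun k _ => by ring,
        show ∑ k, v i k * (√h * z k) = ∑ k, √h * v i k * z k from
        Finset.sum_congr rfl fun k _ => by ring]
      ring
    have hi1 : ∀ x, Integrable (fun z => chTilt A h (obs h z) x * G (obs h z)) (stdPi (Fin n)) ∧
        Integrable (fun z => chTilt A h (obs h z) x * G (obs h z) ^ 2) (stdPi (Fin n)) := fun x => by
      have hb : ∀ z, |G (obs h z)| ≤ 1 + G (obs h z) ^ 2 := fun z => by
        rw [abs_le]; constructor <;> nlinarith [sq_nonneg (G (obs h z) - 1), sq_nonneg (G (obs h z) + 1)]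
      have i2 : Integrable (fun z => chTilt A h (obs h z) x * G (obs h z) ^ 2) (stdPi (Fin n)) := by
        set b := fun k => √h * chDir A x k
        have hpoly : ∀ z, G (obs h z) = (-(h * e)) + ∑ k, (√h * v i k) * z k := fun z => by
          simp only [hG, obs, neg_add_eq_sub]
          congr 1
          exact Finset.sum_congr rfl fun k _ => by ring
        have hexp : ∀ z, G (obs h z) ^ 2 ≤ 2 * (Real.exp (G (obs h z)) + Real.exp (-G (obs h z))) :=
          fun z => by
          rcases le_total 0 (G (obs h z)) with hs | hs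
          · linarith [Real.quadratic_le_exp_of_nonneg hs, Real.add_one_le_exp (-G (obs h z))]
          · have h1 := Real.quadratic_le_exp_of_nonneg (neg_nonneg.2 hs)
            rw [neg_sq] at h1
            linarith [Real.add_one_le_exp (G (obs h z))]
        have hie : ∀ s : ℝ, Integrable (fun z => chTilt A h (obs h z) x * Real.exp (s * G (obs h z)))
            (stdPi (Fin n)) := fun s => by
          refine ((integrable_exp_dot fun k => b k + s * (√h * v i k)).const_mul
            (Real.exp (-(h / 2 * ∑ k, chDir A x k ^ 2) - s * (h * e)))).congr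
            (Filter.Eventually.of_forall fun z => ?_)
          simp only [chTilt, hpoly, ← Real.exp_add]
          congr 1
          simp only [add_mul, Finset.sum_add_distrib, Finset.mul_sum, mul_add, b, obs]
          rw [show ∑ k, √h * z k * chDir A x k = ∑ k, √h * chDir A x k * z k from
            Finset.sum_congr rfl fun k _ => by ring,
            show ∑ k, s * (√h * v i k) * z k = ∑ k, s * (√h * v i k * z k) from
            Finset.sum_congr rfl fun k _ => by ring]
          ring
        refine (((hie 1).add (hie (-1))).const_mul 2).mono' ?_ (Filter.Eventually.of_forall fun z => ?_)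
        · have hc : Continuous fun z => chTilt A h (obs h z) x := by
            unfold chTilt obs; fun_prop
          exact (hc.measurable.mul ((hGm.comp (continuous_obs h).measurable).pow_const 2)).aestronglyMeasurable
        · rw [Real.norm_of_nonneg (mul_nonneg (chTilt_pos _ _ _).le (sq_nonneg _))]
          simp only [Pi.add_apply, one_mul, neg_one_mul, ← mul_add, mul_left_comm (2 : ℝ)]
          exact mul_le_mul_of_nonneg_left (hexp z) (chTilt_pos _ _ _).le
      refine ⟨(((integral_chTilt (A := A) h0 x).2).add i2).mono' ?_ (Filter.Eventually.of_forall fun z => ?_), i2⟩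
      · have hc : Continuous fun z => chTilt A h (obs h z) x := by
          unfold chTilt obs; fun_prop
        exact (hc.measurable.mul (hGm.comp (continuous_obs h).measurable)).aestronglyMeasurable
      · rw [Real.norm_eq_abs, abs_mul, abs_of_pos (chTilt_pos _ _ _)]
        refine (mul_le_mul_of_nonneg_left (hb z) (chTilt_pos _ _ _).le).trans (le_of_eq ?_)
        simp only [Pi.add_apply]
        unfold obs
        ring
    set Q : (Fin n → ℝ) → ℝ := fun W => bary (post ν A h W) i with hQ
    have hZG : ∀ (a : (Fin n → Bool) → ℝ) (p : ℕ) (z : Fin n → ℝ),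
        chZ ν A h (obs h z) * ((∑ x, post ν A h (obs h z) x * a x) * G (obs h z) ^ p) =
          ∑ x, ν x * a x * (chTilt A h (obs h z) x * G (obs h z) ^ p) := fun a p z => by
      rw [← mul_assoc, Finset.mul_sum, Finset.sum_mul]
      refine Finset.sum_congr rfl fun x _ => ?_
      rw [← mul_assoc, chZ_mul_post hν]
      ring
    have hQG : chE ν A h (fun W => Q W * G W) = h * S ∧ ChInt ν A h fun W => Q W * G W := by
      have hp := hZG (fun x => spin (x i)) 1
      simp only [pow_one] at hp
      have hI := fun x : Fin n → Bool => (hi1 x).1.const_mul (ν x * spin (x i))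
      refine ⟨?_, (integrable_finsetSum univ fun x _ => hI x).congr
        (Filter.Eventually.of_forall fun z => (hp z).symm)⟩
      rw [chE]
      simp only [hQ, bary, hp]
      rw [integral_finsetSum _ fun x _ => hI x, ← hcov, Finset.mul_sum]
      refine Finset.sum_congr rfl fun x _ => ?_
      rw [integral_const_mul, integral_tilt_fun h0 x hGm]
      simp only [hshift, (stdPi_linear _ _).2.1]
      ring
    have hpG := fun (p : ℕ) (hp : ∀ x, Integrable (fun z => chTilt A h (obs h z) x * G (obs h z) ^ p)
        (stdPi (Fin n))) => (show chE ν A h (fun W => G W ^ p) =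
          ∑ x, ν x * ∫ z, chTilt A h (obs h z) x * G (obs h z) ^ p ∂stdPi (Fin n) ∧
          ChInt ν A h (fun W => G W ^ p) from by
      have e : (fun z => chZ ν A h (obs h z) * G (obs h z) ^ p) =
          fun z => ∑ x, ν x * (chTilt A h (obs h z) x * G (obs h z) ^ p) := funext fun z => by
        simp only [chZ, Finset.sum_mul, mul_assoc]
      refine ⟨?_, ?_⟩
      · rw [chE, e, integral_finsetSum _ fun x _ => (hp x).const_mul _]
        exact Finset.sum_congr rfl fun x _ => integral_const_mul _ _
      · rw [ChInt, e]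
        exact integrable_finsetSum _ fun x _ => (hp x).const_mul _)
    have hGG := hpG 2 fun x => (hi1 x).2
    have hG1 := hpG 1 fun x => by simpa using (hi1 x).1
    simp only [pow_one] at hG1
    have eG : chE ν A h G = 0 := by
      rw [hG1.1]
      simp only [integral_tilt_fun h0 _ hGm, hshift, (stdPi_linear _ _).2.1, mul_left_comm (ν _) h]
      rw [← Finset.mul_sum]
      simp only [mul_sub, Finset.sum_sub_distrib, ← Finset.sum_mul, hν.2, one_mul, ← he, sub_self,
        mul_zero]
    have eGG : chE ν A h (fun W => G W ^ 2) ≤ h * S * (1 + h * B) := by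
      rw [hGG.1]
      simp only [integral_tilt_fun h0 _ (hGm.pow_const 2), hshift, (stdPi_linear _ _).2.2.2, mul_pow,
        Real.sq_sqrt h0, ← Finset.mul_sum, ← hS, mul_add, Finset.sum_add_distrib, ← Finset.sum_mul,
        hν.2, one_mul]
      have hd2 : ∀ x, d x ^ 2 ≤ S * B := fun x =>
        (Finset.sum_mul_sq_le_sq_mul_sq univ _ _).trans
          (mul_le_mul_of_nonneg_left (hB x) (Finset.sum_nonneg fun k _ => sq_nonneg _))
      have hvar : ∑ x, ν x * (d x - e) ^ 2 ≤ S * B := by
        have e1 : ∑ x, ν x * (d x - e) ^ 2 = (∑ x, ν x * d x ^ 2) - e ^ 2 := by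
          have : ∀ x, ν x * (d x - e) ^ 2 = ν x * d x ^ 2 - 2 * e * (ν x * d x) + e ^ 2 * ν x :=
            fun x => by ring
          simp only [this, Finset.sum_add_distrib, Finset.sum_sub_distrib, ← Finset.mul_sum, ← he, hν.2]
          ring
        have e2 := Finset.sum_le_sum (s := univ) fun x _ => mul_le_mul_of_nonneg_left (hd2 x) (hν.1 x)
        rw [← Finset.sum_mul, hν.2, one_mul] at e2
        rw [e1]; linarith [sq_nonneg e]
      have e3 : ∑ x, ν x * (h ^ 2 * (d x - e) ^ 2) = h ^ 2 * ∑ x, ν x * (d x - e) ^ 2 := by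
        rw [Finset.mul_sum]; exact Finset.sum_congr rfl fun x _ => by ring
      linarith [mul_le_mul_of_nonneg_left hvar (sq_nonneg h)]
    set l := 1 / (1 + h * B) with hl
    have hQ2 : ChInt ν A h fun W => Q W ^ 2 :=
      chInt_of_bound hν h0 (((continuous_finsetSum univ fun x _ =>
        (continuous_post hν A h x).mul continuous_const).measurable).pow_const 2) (B := 1) fun W => by
        rw [abs_of_nonneg (sq_nonneg _)]
        exact (sq_le_one_iff_abs_le_one _).2 (abs_bary_le (isLaw_post hν h W) i)
    have hQ1 : ChInt ν A h Q := (chE_sum hν A h0 fun x => spin (x i)).2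
    have p1 : ChInt ν A h (fun W => 2 * m i * Q W) := (chE_const_mul (2 * m i) hQ1).2
    have p2 : ChInt ν A h (fun W => 2 * l * (Q W * G W)) := (chE_const_mul (2 * l) hQG.2).2
    have p3 : ChInt ν A h (fun W => -(2 * l * m i) * G W) := (chE_const_mul _ hG1.2).2
    have p4 : ChInt ν A h (fun W => -(l ^ 2) * G W ^ 2) := (chE_const_mul _ hGG.2).2
    have q1 := chE_add p1 (chE_add p2 (chE_add p3 p4).2).2
    have q2 := chE_add (chE_const hν A h0 (-(m i ^ 2))).2 q1.2
    have key := chE_mono hν q2.2 hQ2 fun W => by
      nlinarith [sq_nonneg (Q W - m i - l * G W)]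
    rw [q2.1, q1.1, (chE_add p2 (chE_add p3 p4).2).1, (chE_add p3 p4).1, (chE_const hν A h0 _).1,
      (chE_const_mul (2 * m i) hQ1).1, (chE_const_mul (2 * l) hQG.2).1, (chE_const_mul _ hG1.2).1,
      (chE_const_mul _ hGG.2).1, show chE ν A h Q = m i from chE_bary hν A h0 i, hQG.1, eG] at key
    have k1 := mul_le_mul_of_nonneg_left eGG (sq_nonneg l)
    rw [show l ^ 2 * (h * S * (1 + h * B)) = h / (1 + h * B) * S by rw [hl]; field_simp] at k1
    rw [show 2 * l * (h * S) = 2 * (h / (1 + h * B) * S) by rw [hl]; field_simp] at key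
    linarith
  have hsum := Finset.sum_le_sum (s := univ) fun i _ =>
    (mul_le_mul_of_nonneg_left (hquad i) (div_nonneg h0 hpos.le)).trans (hsite i)
  rw [← Finset.mul_sum, ← Finset.mul_sum, Finset.sum_sub_distrib] at hsum
  refine hsum.trans (le_of_eq ?_)
  have hint : ∀ i, ChInt ν A h fun W => bary (post ν A h W) i ^ 2 := fun i =>
    chInt_of_bound hν h0 (((continuous_finsetSum univ fun x _ =>
      (continuous_post hν A h x).mul continuous_const).measurable).pow_const 2) (B := 1) fun W => by
      rw [abs_of_nonneg (sq_nonneg _)]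
      exact (sq_le_one_iff_abs_le_one _).2 (abs_bary_le (isLaw_post hν h W) i)
  congr 1
  simp only [chE, Finset.mul_sum]
  rw [integral_finsetSum _ fun i _ => hint i]

theorem chE_zero (hν : IsLaw ν) (A : Fin n → Fin n → ℝ) (F : (Fin n → ℝ) → ℝ) :
    chE ν A 0 F = F 0 := by
  have h1 : ∀ x, chTilt A 0 (0 : Fin n → ℝ) x = 1 := fun x => by simp [chTilt]
  have h2 : ∀ z : Fin n → ℝ, obs 0 z = 0 := fun z => funext fun k => by simp [obs]
  simp only [chE, h2, chZ, h1, mul_one, hν.2, one_mul, integral_const, probReal_univ, smul_eq_mul]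

theorem continuous_bary_post (hν : IsLaw ν) (A : Fin n → Fin n → ℝ) (t : ℝ) (i : Fin n) :
    Continuous fun W => bary (post ν A t W) i :=
  continuous_finsetSum univ fun x _ => (continuous_post hν A t x).mul continuous_const

theorem continuous_covSq_post (hν : IsLaw ν) (A : Fin n → Fin n → ℝ) (t : ℝ) :
    Continuous fun W => covSq (post ν A t W) := by
  have hb := continuous_bary_post hν A t
  refine continuous_finsetSum univ fun i _ => continuous_finsetSum univ fun j _ => ?_
  exact ((continuous_finsetSum univ fun x _ => (continuous_post hν A t x).mul continuous_const).sub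
    ((hb i).mul (hb j))).pow 2

/-- P2: along a grid of step `h` the covariances cost at most `n`. -/
theorem grid_pure (hA : IsRoot (skMat n 1 g) c L A) (hop : OpBound g Λ) (hν : IsLaw ν)
    (hB : ∀ x, ∑ k, chDir A x k ^ 2 ≤ B) (h0 : 0 ≤ h) (K : ℕ) :
    h / (1 + h * B) * (c - Λ) * ∑ j ∈ Finset.range K,
      chE ν A (j * h) (fun W => covSq (post ν A (j * h) W)) ≤ n := by
  set Q : ℕ → ℝ := fun j => chE ν A (j * h) fun W => ∑ i, bary (post ν A (j * h) W) i ^ 2 with hQ
  have hsq : ∀ (μ : (Fin n → Bool) → ℝ), IsLaw μ → |∑ i, bary μ i ^ 2| ≤ n := fun μ hμ => by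
    rw [abs_of_nonneg (Finset.sum_nonneg fun i _ => sq_nonneg _)]
    refine (Finset.sum_le_sum fun i _ => (sq_le_one_iff_abs_le_one _).2 (abs_bary_le hμ i)).trans ?_
    simp
  have hint : ∀ t, 0 ≤ t → ChInt ν A t fun W => ∑ i, bary (post ν A t W) i ^ 2 := fun t ht =>
    chInt_of_bound hν ht (continuous_finsetSum univ fun i _ =>
      (continuous_bary_post hν A t i).pow 2).measurable fun W => hsq _ (isLaw_post hν t W)
  have step : ∀ j : ℕ, h / (1 + h * B) * (c - Λ) *
      chE ν A (j * h) (fun W => covSq (post ν A (j * h) W)) ≤ Q (j + 1) - Q j := fun j => by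
    set t := (j : ℝ) * h
    have ht : 0 ≤ t := by positivity
    have ht' : ((j + 1 : ℕ) : ℝ) * h = t + h := by push_cast; ring
    have e : ∀ W W' : Fin n → ℝ, post (post ν A t W) A h W' = post ν A (t + h) (W + W') :=
      fun W W' => post_post hν t h W W'
    obtain ⟨k1, k2⟩ := chE_chE (F := fun W => ∑ i, bary (post ν A (t + h) W) i ^ 2) hν ht h0
      (continuous_finsetSum univ fun i _ => (continuous_bary_post hν A _ i).pow 2).measurable
      (hint _ (add_nonneg ht h0))
    obtain ⟨B', hB'⟩ : ∃ B', ∀ W, |covSq (post ν A t W)| ≤ B' := by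
      refine ⟨∑ i : Fin n, ∑ _j : Fin n, (4 : ℝ), fun W => ?_⟩
      have hl := isLaw_post (A := A) hν t W
      rw [abs_of_nonneg (Finset.sum_nonneg fun i _ => Finset.sum_nonneg fun j _ => sq_nonneg _)]
      refine Finset.sum_le_sum fun i _ => Finset.sum_le_sum fun j _ => ?_
      have h1 : |∑ x, post ν A t W x * (spin (x i) * spin (x j))| ≤ 1 := by
        refine (Finset.abs_sum_le_sum_abs _ _).trans (le_of_eq ?_)
        rw [← hl.2]
        exact Finset.sum_congr rfl fun x _ => by
          rcases spin_cases (x i) with a | a <;> rcases spin_cases (x j) with b | b <;>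
            simp [a, b, abs_of_nonneg (hl.1 x)]
      have h2 : |bary (post ν A t W) i * bary (post ν A t W) j| ≤ 1 := by
        rw [abs_mul]; exact mul_le_one₀ (abs_bary_le hl i) (abs_nonneg _) (abs_bary_le hl j)
      calc cov (post ν A t W) i j ^ 2 = |cov (post ν A t W) i j| ^ 2 := (sq_abs _).symm
        _ ≤ (2 : ℝ) ^ 2 := pow_le_pow_left₀ (abs_nonneg _) ((abs_sub _ _).trans (by linarith)) 2
        _ = 4 := by norm_num
    have i1 := chE_const_mul (A := A) (h / (1 + h * B) * (c - Λ))
      (chInt_of_bound hν ht (continuous_covSq_post hν A t).measurable hB')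
    have key := chE_mono hν (chE_add i1.2 (hint t ht)).2 k2 fun W => by
      have hs := sq_bary_gain hA hop (isLaw_post (A := A) hν t W) hB h0
      simp only [e] at hs
      linarith
    rw [(chE_add i1.2 (hint t ht)).1, i1.1, k1] at key
    simp only [hQ, ht']
    linarith
  rw [Finset.mul_sum]
  refine (Finset.sum_le_sum fun j _ => step j).trans ?_
  rw [Finset.sum_range_sub]
  have h0' : 0 ≤ Q 0 := by
    simp only [hQ, Nat.cast_zero, zero_mul, chE_zero hν]
    exact Finset.sum_nonneg fun i _ => sq_nonneg _
  have hK : Q K ≤ n := (chE_mono hν (hint _ (by positivity)) (chE_const hν A (by positivity) (n : ℝ)).2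
    fun W => (abs_le.1 (hsq _ (isLaw_post hν _ W))).2).trans_eq
    (chE_const hν A (by positivity) (n : ℝ)).1
  linarith

end Vale.Agent.P150.Full
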