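import Vale.Agent.P150.Full.T.Pins
import Vale.Agent.P150.Full.T.ChannelPure

/-!
# P150 no traps, module N1: the pins `ChannelShift`, `ChannelPair` and `PurityChannel`
-/

open Finset MeasureTheory Real
open Vale.Agent.P150.Fast
open Vale.Agent.P150.Beyond Vale.Agent.P150.Beyond.Stability

namespace Vale.Agent.P150.Full.T

variable {n : ℕ} {A : Fin n → Fin n → ℝ} {t : ℝ}

theorem abs_sum_law {ν : (Fin n → Bool) → ℝ} (hν : IsLaw ν) {φ : (Fin n → Bool) → ℝ} {B : ℝ}
    (hB : ∀ x, |φ x| ≤ B) : |∑ x, ν x * φ x| ≤ B := by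
  refine (Finset.abs_sum_le_sum_abs _ _).trans ((Finset.sum_le_sum fun x _ => ?_).trans_eq
    (by rw [← Finset.sum_mul, hν.2, one_mul]))
  rw [abs_mul, abs_of_nonneg (hν.1 x)]
  exact mul_le_mul_of_nonneg_left (hB x) (hν.1 x)

theorem integrable_tilt_fun (ht : 0 ≤ t) (x : Fin n → Bool) {F : (Fin n → ℝ) → ℝ} (hF : Measurable F)
    (hi : Integrable (fun z => F (fun k => t * chDir A x k + √t * z k)) (stdPi (Fin n))) :
    Integrable (fun z => chTilt A t (obs t z) x * F (obs t z)) (stdPi (Fin n)) := by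
  have hm : Measurable fun Y => |F Y| + 1 :=
    (show Measurable fun Y => |F Y| by fun_prop).add_const 1
  have hc : Continuous fun z => chTilt A t (obs t z) x := by
    unfold chTilt obs; fun_prop
  have hpos : (1 : ℝ) ≤ ∫ z, |F (fun k => t * chDir A x k + √t * z k)| + 1 ∂stdPi (Fin n) := by
    refine le_trans (le_of_eq ?_) (integral_mono (integrable_const (1 : ℝ))
      (hi.abs.fun_add (integrable_const 1)) fun z => le_add_of_nonneg_left (abs_nonneg _))
    simp
  have key : Integrable (fun z => chTilt A t (obs t z) x * (|F (obs t z)| + 1))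
      (stdPi (Fin n)) := by
    by_contra h
    have h0 := integral_undef h
    rw [integral_tilt_fun (A := A) ht x hm] at h0
    have h1 : ∫ z, |F (fun k => t * chDir A x k + √t * z k)| + 1 ∂stdPi (Fin n) = 0 := h0
    have h2 : (1 : ℝ) ≤ ∫ z, |F (fun k => t * chDir A x k + √t * z k)| + 1 ∂stdPi (Fin n) := hpos
    linarith
  refine key.mono' (hc.measurable.mul (hF.comp (continuous_obs t).measurable)).aestronglyMeasurable
    (Filter.Eventually.of_forall fun z => ?_)
  rw [Real.norm_eq_abs, abs_mul, abs_of_pos (chTilt_pos _ _ _)]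
  exact mul_le_mul_of_nonneg_left (le_add_of_nonneg_right zero_le_one) (chTilt_pos _ _ _).le

theorem var_eq {ν : (Fin n → Bool) → ℝ} (hν : IsLaw ν) (v : Fin n → ℝ) :
    ∑ x, ν x * ((∑ i, v i * spin (x i)) - ∑ i, v i * bary ν i) ^ 2 =
      ∑ i, ∑ j, cov ν i j * v i * v j := by
  set c := ∑ i, v i * bary ν i with hc
  have hA : ∑ x, ν x * (∑ i, v i * spin (x i)) ^ 2 =
      ∑ i, ∑ j, v i * v j * ∑ x, ν x * (spin (x i) * spin (x j)) := by
    simp only [sq, Finset.sum_mul_sum]
    simp only [Finset.mul_sum]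
    rw [Finset.sum_comm]
    refine Finset.sum_congr rfl fun i _ => ?_
    rw [Finset.sum_comm]
    exact Finset.sum_congr rfl fun j _ => Finset.sum_congr rfl fun x _ => by ring
  have hm : ∑ x, ν x * (∑ i, v i * spin (x i)) = c := by
    simp only [hc, bary, Finset.mul_sum]
    rw [Finset.sum_comm]
    exact Finset.sum_congr rfl fun i _ => Finset.sum_congr rfl fun x _ => by ring
  have e1 : ∑ x, ν x * ((∑ i, v i * spin (x i)) - c) ^ 2 =
      ∑ x, ν x * (∑ i, v i * spin (x i)) ^ 2 - 2 * c * ∑ x, ν x * (∑ i, v i * spin (x i)) +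
        c ^ 2 * ∑ x, ν x := by
    simp only [Finset.mul_sum (a := c ^ 2), Finset.mul_sum (a := 2 * c), ← Finset.sum_sub_distrib,
      ← Finset.sum_add_distrib]
    exact Finset.sum_congr rfl fun x _ => by ring
  have e3 : ∑ i, ∑ j, cov ν i j * v i * v j =
      (∑ i, ∑ j, v i * v j * ∑ x, ν x * (spin (x i) * spin (x j))) - c ^ 2 := by
    rw [hc, sq, Finset.sum_mul_sum, ← Finset.sum_sub_distrib]
    refine Finset.sum_congr rfl fun i _ => ?_
    rw [← Finset.sum_sub_distrib]
    exact Finset.sum_congr rfl fun j _ => by rw [cov]; ring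
  rw [e1, hm, hν.2, hA, e3]
  ring

theorem channelShift : ChannelShift := by
  intro n A t ht ν _ F hF hi
  have hI := fun x => integrable_tilt_fun ht x hF (hi x)
  have e : (fun z => chZ ν A t (obs t z) * F (obs t z)) =
      fun z => ∑ x, ν x * (chTilt A t (obs t z) x * F (obs t z)) := funext fun z => by
    simp only [chZ, Finset.sum_mul, mul_assoc]
  refine ⟨?_, ?_⟩
  · rw [ChInt, e]
    exact integrable_finsetSum _ fun x _ => (hI x).const_mul _
  · rw [chE, e, integral_finsetSum _ fun x _ => (hI x).const_mul _]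
    exact Finset.sum_congr rfl fun x _ => by rw [integral_const_mul, integral_tilt_fun ht x hF]

theorem chE_sum_fun {ι : Type*} [Fintype ι] {ν : (Fin n → Bool) → ℝ} (F : ι → (Fin n → ℝ) → ℝ)
    (hF : ∀ i, ChInt ν A t (F i)) :
    chE ν A t (fun W => ∑ i, F i W) = ∑ i, chE ν A t (F i) ∧ ChInt ν A t fun W => ∑ i, F i W := by
  simp only [chE, ChInt, Finset.mul_sum] at *
  exact ⟨integral_finsetSum _ fun i _ => hF i, integrable_finsetSum _ fun i _ => hF i⟩

theorem channelPair : ChannelPair := by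
  intro n A t ht ν hν
  set D := fun Y i => bary (post ν A t Y) i - bary ν i with hD
  have hDc : ∀ i, Continuous fun Y => D Y i := fun i =>
    (continuous_bary_post hν A t i).sub continuous_const
  have hDb : ∀ Y i, |D Y i| ≤ 2 := fun Y i => (abs_sub _ _).trans
    (by linarith [abs_bary_le (isLaw_post (A := A) hν t Y) i, abs_bary_le hν i])
  have hI : ∀ i j, ChInt ν A t fun Y => D Y i * D Y j := fun i j =>
    chInt_of_bound hν ht ((hDc i).mul (hDc j)).measurable (B := 2 * 2) fun Y => by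
      rw [abs_mul]; exact mul_le_mul (hDb Y i) (hDb Y j) (abs_nonneg _) zero_le_two
  set V := fun i j => chE ν A t fun Y => D Y i * D Y j with hV
  have hlin : ∀ W : Fin n → Fin n → ℝ, chE ν A t (fun Y => ∑ i, ∑ j, W i j * (D Y i * D Y j)) =
      ∑ i, ∑ j, W i j * V i j ∧ ChInt ν A t fun Y => ∑ i, ∑ j, W i j * (D Y i * D Y j) := fun W => by
    have h2 := fun i => chE_sum_fun (A := A) (ν := ν) (t := t)
      (fun j Y => W i j * (D Y i * D Y j)) fun j => (chE_const_mul (W i j) (hI i j)).2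
    obtain ⟨k1, k2⟩ := chE_sum_fun (A := A) (ν := ν) (t := t) _ fun i => (h2 i).2
    refine ⟨k1.trans (Finset.sum_congr rfl fun i _ => (h2 i).1.trans
      (Finset.sum_congr rfl fun j _ => (chE_const_mul (W i j) (hI i j)).1)), k2⟩
  have hsq : ∀ a : Fin n → ℝ, (fun Y' => (∑ i, a i * D Y' i) ^ 2) =
      fun Y' => ∑ i, ∑ j, a i * a j * (D Y' i * D Y' j) := fun a => funext fun Y' => by
    rw [sq, Finset.sum_mul_sum]
    exact Finset.sum_congr rfl fun i _ => Finset.sum_congr rfl fun j _ => by ring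
  have hv : ∀ a : Fin n → ℝ, ∑ i, ∑ j, a i * a j * V i j ≤ ∑ i, ∑ j, a i * a j * cov ν i j := fun a => by
    obtain ⟨h1, h2⟩ := linear_martingale hν A ht a (∑ i, a i * bary ν i)
    have k := chE_mono hν (hlin fun i j => a i * a j).2 (chE_sum hν A ht _).2 fun Y => by
      refine le_trans (le_of_eq ?_) (h2 Y)
      rw [← congrFun (hsq a) Y]
      simp only [hD, mul_sub, Finset.sum_sub_distrib]
    rw [(hlin fun i j => a i * a j).1, h1, var_eq hν a] at k
    exact k.trans (le_of_eq (Finset.sum_congr rfl fun i _ => Finset.sum_congr rfl fun j _ => by ring))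
  have e0 : ∀ Y, chE ν A t (fun Y' => (∑ i, D Y i * D Y' i) ^ 2) =
      ∑ i, ∑ j, V i j * (D Y i * D Y j) := fun Y => by
    rw [hsq (D Y), (hlin fun i j => D Y i * D Y j).1]
    exact Finset.sum_congr rfl fun i _ => Finset.sum_congr rfl fun j _ => mul_comm _ _
  change chE ν A t (fun Y => chE ν A t fun Y' => (∑ i, D Y i * D Y' i) ^ 2) ≤ _
  simp only [e0]
  have e1 := chE_mono hν (hlin V).2 (hlin (cov ν)).2 fun Y => by
    have := hv (D Y)
    simp only [mul_comm (D Y _ * D Y _)] at this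
    exact this
  rw [(hlin (cov ν)).1] at e1
  have h3 : 2 * ∑ i, ∑ j, cov ν i j * V i j ≤ (∑ i, ∑ j, V i j * V i j) + covSq ν := by
    simp only [covSq, Finset.mul_sum, ← Finset.sum_add_distrib]
    exact Finset.sum_le_sum fun i _ => Finset.sum_le_sum fun j _ => by
      linarith [two_mul_le_add_sq (V i j) (cov ν i j), sq (V i j)]
  rw [(hlin V).1] at e1 ⊢
  linarith

theorem purityChannel : PurityChannel := by
  refine ⟨8, 2, fun n hn g A hA hop N δ hδ hp _ ν hν => ?_⟩
  have hn' : (1 : ℝ) ≤ n := by exact_mod_cast hn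
  have hB : ∀ x, ∑ k, chDir A x k ^ 2 ≤ 8 * n := fun x => by
    rw [chDir_sq hA]
    have h := (abs_le.1 (hop fun i => spin (x i))).2
    simp only [bil, sq, spin_mul_spin, Finset.sum_const, Finset.card_univ, Fintype.card_fin,
      nsmul_eq_mul, mul_one] at h
    linarith
  have key := grid_pure hA hop hν hB hδ N
  set S := ∑ k ∈ Finset.range N, chE ν A (k * δ) fun W => covSq (post ν A (k * δ) W)
  have hpos : 0 < 1 + δ * (8 * n) := by positivity
  have h1 : δ * S ≤ n * ((1 + δ * (8 * n)) / 2) := by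
    have := mul_le_mul_of_nonneg_right key (div_nonneg hpos.le zero_le_two)
    calc δ * S = δ / (1 + δ * (8 * n)) * (5 - 3) * S * ((1 + δ * (8 * n)) / 2) := by field_simp; norm_num
      _ ≤ _ := this
  refine h1.trans ?_
  have hd1 : δ ≤ √δ := Real.le_sqrt_of_sq_le (pow_le_of_le_one hδ
    ((le_mul_of_one_le_left hδ (one_le_pow₀ hn')).trans hp) two_ne_zero)
  linarith [mul_le_mul_of_nonneg_left hd1 (sq_nonneg (n : ℝ)), mul_nonneg (sq_nonneg (n : ℝ)) hδ]

end Vale.Agent.P150.Full.T
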