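import Vale.Agent.P150.Full.T.Pins
import Vale.Agent.P150.Beyond.Stability.Main
import Vale.Agent.P150.Beyond.Transfer

/-!
# P150 below one, module N7: from the fixed cell to all cells by amplification
-/

open Finset MeasureTheory Real
open Vale.Agent.P150.Fast
open Vale.Agent.P150.Beyond Vale.Agent.P150.Beyond.Stability

namespace Vale.Agent.P150.Full.T

variable {n : ℕ}

theorem sum_couple_sq_le {g : Edge n → ℝ} (hop : OpBound g 3) (v : Fin n → ℝ) :
    ∑ i, couple g v i ^ 2 ≤ 9 * ∑ i, v i ^ 2 := by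
  have e : bil g (couple g v) v = ∑ i, couple g v i ^ 2 := Finset.sum_congr rfl fun i _ => by
    simp only [couple, sq, Finset.sum_mul, Finset.mul_sum]
    exact Finset.sum_congr rfl fun j _ => Finset.sum_congr rfl fun k _ => by ring
  have h := bil_abs_le hop (couple g v) v (t := 1 / 3) (by norm_num)
  rw [e, abs_of_nonneg (Finset.sum_nonneg fun i _ => sq_nonneg _)] at h
  linarith

theorem couple_sub (g : Edge n → ℝ) (u v : Fin n → ℝ) (i : Fin n) :
    couple g (fun j => u j - v j) i = couple g u i - couple g v i := by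
  simp only [couple, mul_sub, Finset.sum_sub_distrib]

/-- Critical points in the field and in the mean field agree up to a constant factor. -/
theorem nearCrit_iffW {θ : ℝ} (hθ0 : 0 ≤ θ) (hθ1 : θ ≤ 1) {g : Edge n → ℝ} (hop : OpBound g 3)
    (y m : Fin n → ℝ) (ε : ℝ) :
    (NearCrit θ g y m ε → NearCritW θ (fun i => y i + θ * couple g m i) m (20 * ε)) ∧
      (NearCritW θ (fun i => y i + θ * couple g m i) m ε → NearCrit θ g y m (20 * ε)) := by
  have hθ2 : θ ^ 2 ≤ 1 := by nlinarith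
  have key : ∀ h : Fin n → ℝ, ∑ i, (θ * couple g (fun j => tanhVec h j - m j) i) ^ 2
      ≤ 9 * ∑ i, (Real.tanh (h i) - m i) ^ 2 := fun h => by
    simp only [mul_pow, ← Finset.mul_sum]
    exact (mul_le_of_le_one_left (Finset.sum_nonneg fun i _ => sq_nonneg _) hθ2).trans
      (sum_couple_sq_le hop _)
  constructor
  all_goals
    rintro ⟨h, h1, h2⟩
    have h0 : 0 ≤ ε * n := le_trans (Finset.sum_nonneg fun i _ => sq_nonneg _) h1
    refine ⟨h, h1.trans (by linarith), ?_⟩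
  · refine (Finset.sum_le_sum (g := fun i => 2 * critRes θ g y h i ^ 2
      + 2 * (θ * couple g (fun j => tanhVec h j - m j) i) ^ 2) fun i _ => ?_).trans ?_
    · simp only [critRes, couple_sub]
      nlinarith [sq_nonneg (h i + θ ^ 2 * (1 - qOf (tanhVec h)) * Real.tanh (h i)
        - θ * couple g (tanhVec h) i - y i - θ * (couple g (tanhVec h) i - couple g m i))]
    · rw [Finset.sum_add_distrib, ← Finset.mul_sum, ← Finset.mul_sum]
      linarith [key h]
  · refine (Finset.sum_le_sum (g := fun i => 2 * (h i + θ ^ 2 * (1 - qOf (tanhVec h)) * Real.tanh (h i)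
      - (y i + θ * couple g m i)) ^ 2
      + 2 * (θ * couple g (fun j => tanhVec h j - m j) i) ^ 2) fun i _ => ?_).trans ?_
    · simp only [critRes, couple_sub]
      nlinarith [sq_nonneg (h i + θ ^ 2 * (1 - qOf (tanhVec h)) * Real.tanh (h i) - y i
        - θ * couple g m i + θ * (couple g (tanhVec h) i - couple g m i))]
    · rw [Finset.sum_add_distrib, ← Finset.mul_sum, ← Finset.mul_sum]
      linarith [key h]

/-- Crude bound on the excess. -/
theorem excess_le {θ : ℝ} (hθ0 : 0 ≤ θ) (hθ1 : θ ≤ 1) {g : Edge n → ℝ} (hop : OpBound g 3)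
    {ν : (Fin n → Bool) → ℝ} (hν : IsLaw ν) : excess θ g ν ≤ 5 * n := by
  have hn : (0 : ℝ) ≤ n := Nat.cast_nonneg' n
  have h1 : nent ν ≤ 0 := Finset.sum_nonpos fun x _ => mul_nonpos_of_nonneg_of_nonpos (hν.1 x)
    (Real.log_nonpos (hν.1 x) (hν.2 ▸ Finset.single_le_sum (fun z _ => hν.1 z) (Finset.mem_univ x)))
  have h2 : ∀ i, 0 ≤ binEnt (bary ν i) := fun i => by
    have hb := abs_le.1 (abs_bary_le hν i)
    have k : ∀ u : ℝ, 0 ≤ u → u - 1 ≤ u * Real.log u := fun u hu => by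
      rcases hu.eq_or_lt with rfl | hu
      · simp
      · have := mul_le_mul_of_nonneg_left (Real.log_le_sub_one_of_pos (inv_pos.2 hu)) hu.le
        rw [Real.log_inv, mul_sub, mul_inv_cancel₀ hu.ne'] at this
        linarith
    simp only [binEnt]
    linarith [k (1 + bary ν i) (by linarith), k (1 - bary ν i) (by linarith)]
  have hb : ∀ v : Fin n → ℝ, (∀ i, |v i| ≤ 1) → |bil g v v| ≤ 3 * n := fun v hv => by
    refine (hop v).trans (mul_le_mul_of_nonneg_left ?_ (by norm_num))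
    refine (Finset.sum_le_sum (g := fun _ => (1 : ℝ)) fun i _ => ?_).trans (le_of_eq (by simp))
    exact (sq_le_one_iff_abs_le_one _).2 (hv i)
  have h3 : -(3 * (n : ℝ)) ≤ ∑ x, ν x * bil g (spinv x) (spinv x) := by
    have e : -(3 * (n : ℝ)) = ∑ x, ν x * -(3 * (n : ℝ)) := by rw [← Finset.sum_mul, hν.2, one_mul]
    rw [e]
    exact Finset.sum_le_sum fun x _ => mul_le_mul_of_nonneg_left
      (abs_le.1 (hb _ fun i => (abs_spin _).le)).1 (hν.1 x)
  have h4 := (abs_le.1 (hb _ (abs_bary_le hν))).2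
  have hq0 : 0 ≤ qOf (bary ν) := div_nonneg (Finset.sum_nonneg fun i _ => sq_nonneg _) hn
  have hq1 : (1 - qOf (bary ν)) ^ 2 ≤ 1 := by
    have : qOf (bary ν) ≤ 1 := by
      rcases Nat.eq_zero_or_pos n with rfl | hn'
      · simp [qOf]
      rw [qOf, div_le_one (by exact_mod_cast hn')]
      refine (Finset.sum_le_sum (g := fun _ => (1 : ℝ)) fun i _ => ?_).trans (le_of_eq (by simp))
      exact (sq_le_one_iff_abs_le_one _).2 (abs_bary_le hν i)
    nlinarith
  have hθ2 : θ ^ 2 ≤ 1 := by nlinarith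
  have h5 : (n : ℝ) * θ ^ 2 / 4 * (1 - qOf (bary ν)) ^ 2 ≤ n / 4 := by
    nlinarith [mul_le_mul hθ2 hq1 (sq_nonneg _) zero_le_one]
  have hl : (n : ℝ) * log 2 ≤ n * 1 :=
    mul_le_mul_of_nonneg_left (by linarith [log_le_sub_one_of_pos (two_pos : (0 : ℝ) < 2)]) hn
  simp only [excess, freeE, tap]
  change _ - (_ - θ / 2 * bil g (bary ν) (bary ν) - _) ≤ _
  nlinarith [Finset.sum_nonneg fun i (_ : i ∈ Finset.univ) => h2 i,
    mul_le_mul_of_nonneg_left h3 (by linarith : 0 ≤ θ / 2),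
    mul_le_mul_of_nonneg_left h4 (by linarith : 0 ≤ θ / 2)]

/-- A grid of means. -/
noncomputable def gridPoint (N : ℕ) (k : Fin n → Fin (2 * N + 1)) (i : Fin n) : ℝ :=
  ((k i : ℕ) : ℝ) / N - 1

theorem abs_gridPoint_le {N : ℕ} (hN : 0 < N) (k : Fin n → Fin (2 * N + 1)) (i : Fin n) :
    |gridPoint N k i| ≤ 1 := by
  have h : ((k i : ℕ) : ℝ) ≤ 2 * N := by exact_mod_cast Nat.lt_succ_iff.1 (k i).2
  have hN' : (0 : ℝ) < N := by exact_mod_cast hN
  rw [gridPoint, abs_le]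
  constructor
  · linarith [show (0 : ℝ) ≤ ((k i : ℕ) : ℝ) / N by positivity]
  · have : ((k i : ℕ) : ℝ) / N ≤ 2 := by rw [div_le_iff₀ hN']; linarith
    linarith

theorem exists_gridPoint {N : ℕ} (hN : 0 < N) {m : Fin n → ℝ} (hm : ∀ i, |m i| ≤ 1) :
    ∃ k : Fin n → Fin (2 * N + 1), ∑ i, (m i - gridPoint N k i) ^ 2 ≤ n * (1 / (N : ℝ) ^ 2) := by
  have hN' : (0 : ℝ) < N := by exact_mod_cast hN
  have hb : ∀ i, ⌊(m i + 1) * N⌋₊ < 2 * N + 1 := fun i => by
    obtain ⟨h1, h2⟩ := abs_le.1 (hm i)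
    rw [Nat.lt_succ_iff]
    refine Nat.floor_le_of_le ?_
    push_cast
    nlinarith
  refine ⟨fun i => ⟨_, hb i⟩, (Finset.sum_le_sum (g := fun _ => 1 / (N : ℝ) ^ 2) fun i _ => ?_).trans
    (le_of_eq (by simp))⟩
  obtain ⟨h1, h2⟩ := abs_le.1 (hm i)
  have u0 : (0 : ℝ) ≤ (m i + 1) * N := by nlinarith
  have f1 := Nat.floor_le u0
  have f2 := Nat.lt_floor_add_one ((m i + 1) * N)
  have e : m i - gridPoint N (fun i => ⟨_, hb i⟩) i
      = ((m i + 1) * N - (⌊(m i + 1) * N⌋₊ : ℝ)) / N := by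
    simp only [gridPoint]; field_simp; ring
  rw [e, div_pow]
  exact div_le_div_of_nonneg_right (by nlinarith) (by positivity)

theorem descentFromCell : DescentFromCell := by
  intro hF hAmp β hβ0 hβ1
  obtain ⟨r, hr, hr1, hcell⟩ := hF β hβ0 hβ1
  refine ⟨r, hr, hr1, fun q₀ hq₀ hL ε hε => ?_⟩
  obtain ⟨a, ha, ρ₀, hρ₀, hc⟩ := hcell q₀ hq₀ hL (ε / 400) (by positivity)
  obtain ⟨N, hN⟩ := exists_nat_gt (10 / r)
  have hN' : (0 : ℝ) < N := lt_trans (by positivity) hN
  have hN0 : 0 < N := by exact_mod_cast hN'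
  set K := Real.log (2 * N + 1) + 1 with hKd
  set Λ := 5 / a + 1 with hΛd
  set δ := min (ε / 4) (a / 2) with hδd
  have hδ : 0 < δ := lt_min (by positivity) (by positivity)
  obtain ⟨ρ₁, hρ₁, n1, hamp⟩ := hAmp Λ K δ hδ
  have hΛ0 : 0 < Λ := by positivity
  set a' := min (a / 4) (ε / (4 * Λ)) with ha'd
  have ha' : 0 < a' := lt_min (by positivity) (by positivity)
  refine ⟨a', ha', min ρ₀ ρ₁, lt_min hρ₀ hρ₁, fun p hp => ?_⟩
  obtain ⟨n2, hn2⟩ := hc (1 / 4) (by norm_num)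
  obtain ⟨n3, hn3⟩ := opEvent (1 / 4) (by norm_num)
  obtain ⟨n4, hn4⟩ := opEvent (p / 2) (by positivity)
  obtain ⟨n5, hn5⟩ := exists_nat_gt (4 / p)
  refine ⟨max (max n1 n2) (max (max n3 n4) (n5 + 1)), fun n hn => ?_⟩
  simp only [ge_iff_le, max_le_iff] at hn
  obtain ⟨⟨k1, k2⟩, ⟨k3, k4⟩, k5⟩ := hn
  have hn' : (0 : ℝ) < n := by exact_mod_cast (by omega : 0 < n)
  let S : (Fin n → Fin (2 * N + 1)) → Set (ℝ × (Fin n → ℝ) × ((Fin n → Bool) → ℝ)) := fun k =>
    {q | 0 ≤ q.1 ∧ q.1 ≤ β ∧ IsLaw q.2.2 ∧ covSq q.2.2 ≤ min ρ₀ ρ₁ * (n : ℝ) ^ 2 ∧ q₀ ≤ qOf (bary q.2.2) ∧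
      ∑ i, (bary q.2.2 i - gridPoint N k i) ^ 2 ≤ (r / 10) ^ 2 * n}
  let S' : (Fin n → Fin (2 * N + 1)) → Set (ℝ × (Fin n → ℝ) × ((Fin n → Bool) → ℝ)) := fun k =>
    {q ∈ S k | ¬NearCritW q.1 q.2.1 (bary q.2.2) (ε / 20)}
  set B₁ := fun k => {g : Edge n → ℝ | ∃ q ∈ S k, ε / 400 * n + δ * n <
    1 * excess q.1 g q.2.2 + -(5 / a) * fisherW q.1 g q.2.1 q.2.2}
  set B₂ := fun k => {g : Edge n → ℝ | ∃ q ∈ S' k, -(a * n) + δ * n <
    0 * excess q.1 g q.2.2 + -1 * fisherW q.1 g q.2.1 q.2.2}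
  have hρsub : ∀ k, ∀ q ∈ S k, 0 ≤ q.1 ∧ q.1 ≤ 1 ∧ IsLaw q.2.2 ∧ covSq q.2.2 ≤ ρ₁ * (n : ℝ) ^ 2 :=
    fun k q hq => ⟨hq.1, hq.2.1.trans hβ1.le, hq.2.2.1,
      hq.2.2.2.1.trans (mul_le_mul_of_nonneg_right (min_le_right _ _) (sq_nonneg _))⟩
  -- in a cell the events fail with probability at most one half
  have hbase : ∀ (k : Fin n → Fin (2 * N + 1)) (g : Edge n → ℝ),
      CellGood β q₀ r (ε / 400) a ρ₀ (gridPoint N k) g → OpBound g 3 → ∀ q ∈ S k,
        1 * excess q.1 g q.2.2 + -(5 / a) * fisherW q.1 g q.2.1 q.2.2 ≤ ε / 400 * n ∧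
          (¬NearCritW q.1 q.2.1 (bary q.2.2) (ε / 20) →
            0 * excess q.1 g q.2.2 + -1 * fisherW q.1 g q.2.1 q.2.2 ≤ -(a * n)) := by
    intro k g hcg hop q hq
    obtain ⟨q1, q2, q3, q4, q5, q6⟩ := hq
    set y : Fin n → ℝ := fun i => q.2.1 i - q.1 * couple g (bary q.2.2) i with hy
    have hfw : fisherW q.1 g q.2.1 q.2.2 = fisher q.1 g y q.2.2 := rfl
    have hf0 : 0 ≤ fisher q.1 g y q.2.2 :=
      Finset.sum_nonneg fun i _ => Finset.sum_nonneg fun x _ => by positivity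
    by_cases hsm : fisher q.1 g y q.2.2 ≤ a * n
    · obtain ⟨e1, e2⟩ := hcg q.1 q1 q2 y q.2.2 ⟨q3, hsm,
        q4.trans (mul_le_mul_of_nonneg_right (min_le_left _ _) (sq_nonneg _))⟩ q5 q6
      refine ⟨?_, fun hno => absurd ?_ hno⟩
      · rw [hfw, one_mul, neg_mul]
        linarith [mul_nonneg (by positivity : 0 ≤ 5 / a) hf0]
      · have h := (nearCrit_iffW q1 (q2.trans hβ1.le) hop y (bary q.2.2) (ε / 400)).1 e2
        rw [show (fun i => y i + q.1 * couple g (bary q.2.2) i) = q.2.1 from funext fun i => by simp [hy],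
          show 20 * (ε / 400) = ε / 20 by ring] at h
        exact h
    · rw [not_le] at hsm
      refine ⟨?_, fun _ => ?_⟩
      · have hex := excess_le q1 (q2.trans hβ1.le) hop q3
        have h5 : 5 / a * (a * n) ≤ 5 / a * fisher q.1 g y q.2.2 :=
          mul_le_mul_of_nonneg_left hsm.le (by positivity)
        rw [show 5 / a * (a * n) = 5 * n by field_simp] at h5
        rw [hfw, one_mul, neg_mul]
        linarith [mul_nonneg (by positivity : 0 ≤ ε / 400) hn'.le]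
      · rw [hfw]
        linarith
  have hhalf : ∀ k : Fin n → Fin (2 * N + 1),
      disorder n ({g | ¬CellGood β q₀ r (ε / 400) a ρ₀ (gridPoint N k) g} ∪ {g | ¬OpBound g 3})
        ≤ ENNReal.ofReal (1 / 2) := fun k => by
    refine (measure_union_le _ _).trans ((add_le_add (hn2 n k2 _ (abs_gridPoint_le hN0 k))
      (show disorder n {g | ¬OpBound g 3} ≤ ENNReal.ofReal (1 / 4) from ?_)).trans (le_of_eq ?_))
    · rw [disorder_eq, ← ofReal_measureReal]
      exact ENNReal.ofReal_le_ofReal (hn3 n k3)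
    · rw [← ENNReal.ofReal_add (by norm_num) (by norm_num)]; norm_num
  have hB₁ : ∀ k, disorder n (B₁ k) ≤ ENNReal.ofReal (Real.exp (-(K * n))) := fun k => by
    refine hamp n k1 (S k) (hρsub k) 1 (-(5 / a)) (ε / 400 * n) ?_ ?_ (le_trans (measure_mono ?_) (hhalf k))
    · rw [abs_one, hΛd]; linarith [show (0 : ℝ) ≤ 5 / a by positivity]
    · rw [abs_neg, abs_of_pos (by positivity), hΛd]; linarith
    · rintro g ⟨q, hq, hlt⟩
      by_contra hcon
      simp only [Set.mem_union, Set.mem_ofPred_eq, not_or, not_not] at hcon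
      exact absurd hlt (not_lt.2 (hbase k g hcon.1 hcon.2 q hq).1)
  have hB₂ : ∀ k, disorder n (B₂ k) ≤ ENNReal.ofReal (Real.exp (-(K * n))) := fun k => by
    refine hamp n k1 (S' k) (fun q hq => hρsub k q hq.1) 0 (-1) (-(a * n)) ?_ ?_
      (le_trans (measure_mono ?_) (hhalf k))
    · rw [abs_zero]; exact hΛ0.le
    · rw [abs_neg, abs_one, hΛd]; linarith [show (0 : ℝ) ≤ 5 / a by positivity]
    · rintro g ⟨q, hq, hlt⟩
      by_contra hcon
      simp only [Set.mem_union, Set.mem_ofPred_eq, not_or, not_not] at hcon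
      exact absurd hlt (not_lt.2 ((hbase k g hcon.1 hcon.2 q hq.1).2 hq.2))
  have hsub : {g : Edge n → ℝ | ¬LevelAt β q₀ ε a' (min ρ₀ ρ₁) g} ⊆
      {g | ¬OpBound g 3} ∪ ⋃ k, B₁ k ∪ B₂ k := by
    intro g hg
    by_contra hcon
    simp only [Set.mem_union, Set.mem_iUnion, Set.mem_ofPred_eq, not_or, not_not, not_exists] at hcon
    obtain ⟨hop, hk⟩ := hcon
    refine hg fun θ hθ0 hθ1 y ν hν hq => ?_
    obtain ⟨k, hk'⟩ := exists_gridPoint hN0 (abs_bary_le hν.law)
    have hdist : ∑ i, (bary ν i - gridPoint N k i) ^ 2 ≤ (r / 10) ^ 2 * n := by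
      refine hk'.trans ?_
      rw [mul_comm]
      refine mul_le_mul_of_nonneg_right ?_ hn'.le
      rw [one_div, ← inv_pow]
      refine pow_le_pow_left₀ (by positivity) ?_ 2
      rw [inv_le_comm₀ hN' (by positivity), inv_div]
      exact hN.le
    set w : Fin n → ℝ := fun i => y i + θ * couple g (bary ν) i with hw
    have hmem : (θ, w, ν) ∈ S k := ⟨hθ0, hθ1, hν.law, hν.pure, hq, hdist⟩
    have hfw : fisherW θ g w ν = fisher θ g y ν := by
      simp only [fisherW, hw, add_sub_cancel_right]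
    have h1 : 1 * excess θ g ν + -(5 / a) * fisherW θ g w ν ≤ ε / 400 * n + δ * n :=
      not_lt.1 fun hlt => (hk k).1 ⟨(θ, w, ν), hmem, hlt⟩
    have hfi := hν.stationary
    refine ⟨?_, ?_⟩
    · have h5 : 5 / a * (a' * n) ≤ ε / 4 * n := by
        have : 5 / a * a' ≤ Λ * (ε / (4 * Λ)) :=
          mul_le_mul (by rw [hΛd]; linarith) (min_le_right _ _) ha'.le hΛ0.le
        rw [show Λ * (ε / (4 * Λ)) = ε / 4 by field_simp] at this
        rw [← mul_assoc]
        exact mul_le_mul_of_nonneg_right this hn'.le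
      rw [hfw, one_mul, neg_mul] at h1
      nlinarith [mul_le_mul_of_nonneg_left hfi (by positivity : 0 ≤ 5 / a),
        mul_le_mul_of_nonneg_right (min_le_left (ε / 4) (a / 2)) hn'.le, mul_pos hε hn']
    · by_contra hno
      have hno' : ¬NearCritW θ w (bary ν) (ε / 20) := fun h => hno (by
        have := (nearCrit_iffW hθ0 (hθ1.trans hβ1.le) hop y (bary ν) (ε / 20)).2 h
        rwa [show 20 * (ε / 20) = ε by ring] at this)
      have h2 : 0 * excess θ g ν + -1 * fisherW θ g w ν ≤ -(a * n) + δ * n :=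
        not_lt.1 fun hlt => (hk k).2 ⟨(θ, w, ν), ⟨hmem, hno'⟩, hlt⟩
      rw [hfw] at h2
      nlinarith [mul_le_mul_of_nonneg_right (min_le_right (ε / 4) (a / 2)) hn'.le,
        mul_le_mul_of_nonneg_right (min_le_left (a / 4) (ε / (4 * Λ))) hn'.le, mul_pos ha hn']
  refine (measure_mono hsub).trans ((measure_union_le _ _).trans ?_)
  have hop : disorder n {g | ¬OpBound g 3} ≤ ENNReal.ofReal (p / 2) := by
    rw [disorder_eq, ← ofReal_measureReal]
    exact ENNReal.ofReal_le_ofReal (hn4 n k4)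
  have hcells : disorder n (⋃ k, B₁ k ∪ B₂ k) ≤ ENNReal.ofReal (p / 2) := by
    refine (measure_iUnion_fintype_le _ _).trans ((Finset.sum_le_sum fun k _ =>
      (measure_union_le _ _).trans (add_le_add (hB₁ k) (hB₂ k))).trans ?_)
    rw [← ENNReal.ofReal_add (Real.exp_pos _).le (Real.exp_pos _).le,
      ← ENNReal.ofReal_sum_of_nonneg (fun _ _ => by positivity), Finset.sum_const, Finset.card_univ,
      Fintype.card_fun, Fintype.card_fin, Fintype.card_fin, nsmul_eq_mul]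
    refine ENNReal.ofReal_le_ofReal ?_
    have e : ((((2 * N + 1) ^ n : ℕ)) : ℝ) = Real.exp (n * Real.log (2 * N + 1)) := by
      rw [Real.exp_nat_mul, Real.exp_log (by positivity)]; push_cast; rfl
    rw [e, ← two_mul, mul_left_comm, ← Real.exp_add, hKd,
      show (n : ℝ) * Real.log (2 * N + 1) + -((Real.log (2 * N + 1) + 1) * n) = -(n : ℝ) by ring]
    rw [Real.exp_neg, ← div_eq_mul_inv, div_le_iff₀ (Real.exp_pos _)]
    have h4 : 4 < p * n := by
      rw [div_lt_iff₀ hp] at hn5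
      have : (n5 : ℝ) ≤ n := by exact_mod_cast (by omega : n5 ≤ n)
      nlinarith
    nlinarith [Real.add_one_le_exp (n : ℝ)]
  refine (add_le_add hop hcells).trans (le_of_eq ?_)
  rw [← ENNReal.ofReal_add (by positivity) (by positivity)]
  congr 1
  ring

end Vale.Agent.P150.Full.T
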