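import Vale.Agent.P150.Full.T.GaussSmooth
import Vale.Agent.P150.Full.Defs
import Vale.Agent.P150.Fast.Coupling

/-!
# P150: the Gaussian moment of the counting step

For vectors `μ a` that are nearly orthogonal, the smoothed probability that `θ J μ a` is within `σ`
of `r a` for all `a` at once is at most the product of the one-vector densities.
-/

open MeasureTheory ProbabilityTheory Real Matrix Finset
open Vale.Agent.P150.Fast
open scoped ENNReal

namespace Vale.Agent.P150.Full.T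

variable {n K : ℕ}

/-- The couplings acting on all vectors of a family at once. -/
noncomputable def linkMat (s : ℝ) (μ : Fin K → Fin n → ℝ) : Matrix (Fin K × Fin n) (Edge n) ℝ :=
  Matrix.of fun p e =>
    s * ((if p.2 = e.1.1 then μ p.1 e.1.2 else 0) + if p.2 = e.1.2 then μ p.1 e.1.1 else 0)

theorem gmat_mulVec (g : Edge n → ℝ) (v : Fin n → ℝ) (i : Fin n) :
    ∑ e : Edge n, g e * ((if i = e.1.1 then v e.1.2 else 0) + if i = e.1.2 then v e.1.1 else 0)
      = ∑ j, gmat n g i j * v j := by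
  have h := sum_edge (fun j l => gmat n g j l * ((if i = j then v l else 0) + if i = l then v j else 0))
    fun j l => by rw [gmat_symm g j l]; ring
  simp only [gmat_self, zero_mul, Finset.sum_const_zero, sub_zero] at h
  have e1 : ∑ j, ∑ l, gmat n g j l * ((if i = j then v l else 0) + if i = l then v j else 0)
      = 2 * ∑ j, gmat n g i j * v j := by
    simp only [mul_add, Finset.sum_add_distrib, mul_ite, mul_zero, Finset.sum_ite_eq,
      Finset.mem_univ, if_true]
    rw [Finset.sum_comm]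
    simp only [Finset.sum_ite_eq, Finset.mem_univ, if_true, gmat_symm g _ i]
    ring
  have e2 : ∀ e : Edge n, g e = gmat n g e.1.1 e.1.2 := fun e => by simp [gmat, e.2]
  simp only [e2]
  linarith

theorem linkMat_mulVec (θ σ : ℝ) (μ : Fin K → Fin n → ℝ) (g : Edge n → ℝ) (p : Fin K × Fin n) :
    (linkMat (θ / (σ * √(n : ℝ))) μ *ᵥ g) p = θ / σ * couple g (μ p.1) p.2 := by
  simp only [Matrix.mulVec, dotProduct, linkMat, Matrix.of_apply, couple, skMat_eq]
  calc _ = θ / (σ * √(n : ℝ)) * ∑ e : Edge n, g e * ((if p.2 = e.1.1 then μ p.1 e.1.2 else 0)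
        + if p.2 = e.1.2 then μ p.1 e.1.1 else 0) := by
        rw [Finset.mul_sum]
        exact Finset.sum_congr rfl fun e _ => by ring
    _ = _ := by
        rw [gmat_mulVec, Finset.mul_sum, Finset.mul_sum]
        exact Finset.sum_congr rfl fun j _ => by ring

/-- The form `∑ over edges (∑ a (z a i μ a j + z a j μ a i)) ^ 2`. -/
noncomputable def linkForm (μ : Fin K → Fin n → ℝ) (z : Fin K → Fin n → ℝ) : ℝ :=
  ∑ e : Edge n, (∑ a, (z a e.1.1 * μ a e.1.2 + z a e.1.2 * μ a e.1.1)) ^ 2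

theorem linkMat_transpose_sq (s : ℝ) (μ : Fin K → Fin n → ℝ) (z : Fin K × Fin n → ℝ) :
    ((linkMat s μ)ᵀ *ᵥ z) ⬝ᵥ ((linkMat s μ)ᵀ *ᵥ z)
      = s ^ 2 * linkForm μ fun a i => z (a, i) := by
  simp only [dotProduct, linkForm, Finset.mul_sum]
  refine Finset.sum_congr rfl fun e _ => ?_
  have : ((linkMat s μ)ᵀ *ᵥ z) e
      = s * ∑ a, (z (a, e.1.1) * μ a e.1.2 + z (a, e.1.2) * μ a e.1.1) := by
    simp only [Matrix.mulVec, dotProduct, Matrix.transpose_apply, linkMat, Matrix.of_apply,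
      Fintype.sum_prod_type, Finset.mul_sum]
    refine Finset.sum_congr rfl fun a _ => ?_
    simp only [mul_add, add_mul, Finset.sum_add_distrib, mul_ite, ite_mul, mul_zero, zero_mul,
      Finset.sum_ite_eq', Finset.mem_univ, if_true]
    ring
  rw [this]
  ring

theorem linkForm_eq (μ z : Fin K → Fin n → ℝ) :
    linkForm μ z = ∑ a, ∑ b, (∑ i, z a i * z b i) * (∑ i, μ a i * μ b i)
      + ∑ a, ∑ b, (∑ i, z a i * μ b i) * (∑ i, z b i * μ a i)
      - 2 * ∑ i, (∑ a, z a i * μ a i) ^ 2 := by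
  set P := fun i j => ∑ a, z a i * μ a j
  have h := sum_edge (fun i j => (P i j + P j i) ^ 2) fun i j => by ring
  have e1 : linkForm μ z = ∑ e : Edge n, (P e.1.1 e.1.2 + P e.1.2 e.1.1) ^ 2 :=
    Finset.sum_congr rfl fun e _ => by simp only [P, Finset.sum_add_distrib]
  have e2 : ∑ i, ∑ j, P i j ^ 2 = ∑ a, ∑ b, (∑ i, z a i * z b i) * (∑ i, μ a i * μ b i) := by
    simp only [P, sq, Finset.sum_mul_sum]
    calc _ = ∑ i, ∑ a, ∑ b, ∑ j, z a i * μ a j * (z b i * μ b j) :=
          Finset.sum_congr rfl fun i _ => by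
            rw [Finset.sum_comm]
            exact Finset.sum_congr rfl fun a _ => Finset.sum_comm
      _ = _ := by
          rw [Finset.sum_comm]
          refine Finset.sum_congr rfl fun a _ => ?_
          rw [Finset.sum_comm]
          exact Finset.sum_congr rfl fun b _ => Finset.sum_congr rfl fun i _ =>
            Finset.sum_congr rfl fun j _ => by ring
  have e3 : ∑ i, ∑ j, P i j * P j i = ∑ a, ∑ b, (∑ i, z a i * μ b i) * (∑ i, z b i * μ a i) := by
    simp only [P, Finset.sum_mul_sum]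
    calc _ = ∑ i, ∑ a, ∑ b, ∑ j, z a i * μ a j * (z b j * μ b i) :=
          Finset.sum_congr rfl fun i _ => by
            rw [Finset.sum_comm]
            exact Finset.sum_congr rfl fun a _ => Finset.sum_comm
      _ = _ := by
          rw [Finset.sum_comm]
          refine Finset.sum_congr rfl fun a _ => ?_
          rw [Finset.sum_comm]
          exact Finset.sum_congr rfl fun b _ => Finset.sum_congr rfl fun i _ =>
            Finset.sum_congr rfl fun j _ => by ring
  have e4 : ∑ i, ∑ j, (P i j + P j i) ^ 2 = 2 * ∑ i, ∑ j, P i j ^ 2 + 2 * ∑ i, ∑ j, P i j * P j i := by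
    have e5 : ∑ i, ∑ j, P j i ^ 2 = ∑ i, ∑ j, P i j ^ 2 := Finset.sum_comm
    simp only [add_sq, Finset.sum_add_distrib, mul_assoc, ← Finset.mul_sum, e5]
    ring
  have e6 : ∑ i, (P i i + P i i) ^ 2 = 4 * ∑ i, P i i ^ 2 := by
    rw [Finset.mul_sum]; exact Finset.sum_congr rfl fun i _ => by ring
  rw [e6, e4, e2, e3] at h
  rw [e1]
  simp only [P] at h ⊢
  linarith

/-- Nearly orthogonal vectors of squared norm in `[lo n, hi n]` with entries at most two. -/
structure NearFrame (μ : Fin K → Fin n → ℝ) (lo hi δ : ℝ) : Prop where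
  lower : ∀ a, lo * n ≤ ∑ i, μ a i ^ 2
  upper : ∀ a, ∑ i, μ a i ^ 2 ≤ hi * n
  off : ∀ a b, a ≠ b → |∑ i, μ a i * μ b i| ≤ δ * n
  entry : ∀ a i, |μ a i| ≤ 2

theorem off_gram {μ : Fin K → Fin n → ℝ} {lo hi δ : ℝ} (hμ : NearFrame μ lo hi δ) (hδ : 0 ≤ δ)
    (z : Fin K → Fin n → ℝ) :
    |∑ a, ∑ b, (if a = b then 0 else (∑ i, z a i * z b i) * ∑ i, μ a i * μ b i)|
      ≤ K * δ * n * ∑ a, ∑ i, z a i ^ 2 := by
  have hz : ∀ a b, |∑ i, z a i * z b i| ≤ (∑ i, z a i ^ 2 + ∑ i, z b i ^ 2) / 2 := fun a b => by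
    refine (Finset.abs_sum_le_sum_abs _ _).trans ?_
    rw [← Finset.sum_add_distrib, Finset.sum_div]
    refine Finset.sum_le_sum fun i _ => ?_
    rw [abs_mul, ← sq_abs (z a i), ← sq_abs (z b i)]
    nlinarith [sq_nonneg (|z a i| - |z b i|)]
  refine (Finset.abs_sum_le_sum_abs _ _).trans ?_
  calc ∑ a, |∑ b, (if a = b then 0 else (∑ i, z a i * z b i) * ∑ i, μ a i * μ b i)|
      ≤ ∑ a, ∑ b, δ * n * ((∑ i, z a i ^ 2 + ∑ i, z b i ^ 2) / 2) := by
        refine Finset.sum_le_sum fun a _ => (Finset.abs_sum_le_sum_abs _ _).trans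
          (Finset.sum_le_sum fun b _ => ?_)
        by_cases h : a = b
        · rw [if_pos h, abs_zero]
          exact mul_nonneg (by positivity) (div_nonneg (add_nonneg
            (Finset.sum_nonneg fun i _ => sq_nonneg _) (Finset.sum_nonneg fun i _ => sq_nonneg _))
            zero_le_two)
        · rw [if_neg h, abs_mul, mul_comm (δ * n : ℝ)]
          exact mul_le_mul (hz a b) (hμ.off a b h) (abs_nonneg _) ((abs_nonneg _).trans (hz a b))
    _ = _ := by
        simp only [← Finset.mul_sum, ← Finset.sum_div, Finset.sum_add_distrib, Finset.sum_const,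
          Finset.card_univ, Fintype.card_fin, nsmul_eq_mul]
        ring

theorem split_diag (f : Fin K → Fin K → ℝ) :
    ∑ a, ∑ b, f a b = ∑ a, f a a + ∑ a, ∑ b, if a = b then 0 else f a b := by
  rw [← Finset.sum_add_distrib]
  refine Finset.sum_congr rfl fun a _ => ?_
  have e1 : f a a = ∑ b, if a = b then f a b else 0 := by simp
  rw [e1, ← Finset.sum_add_distrib]
  exact Finset.sum_congr rfl fun b _ => by split_ifs <;> simp

theorem linkForm_lower {μ : Fin K → Fin n → ℝ} {lo hi δ : ℝ} (hμ : NearFrame μ lo hi δ) (hδ : 0 ≤ δ)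
    (z : Fin K → Fin n → ℝ) :
    ((lo - K * δ) * n - 8 * K) * (∑ a, ∑ i, z a i ^ 2) - ∑ a, ∑ b, (∑ i, z a i * μ b i) ^ 2
      ≤ linkForm μ z := by
  rw [linkForm_eq, split_diag fun a b => (∑ i, z a i * z b i) * ∑ i, μ a i * μ b i]
  have h1 : lo * n * (∑ a, ∑ i, z a i ^ 2)
      ≤ ∑ a, (∑ i, z a i * z a i) * ∑ i, μ a i * μ a i := by
    rw [Finset.mul_sum]
    refine Finset.sum_le_sum fun a _ => ?_
    simp only [← sq]
    rw [mul_comm]
    exact mul_le_mul_of_nonneg_left (hμ.lower a) (Finset.sum_nonneg fun i _ => sq_nonneg _)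
  have h2 := neg_le_of_abs_le (off_gram hμ hδ z)
  have h3 : -∑ a, ∑ b, (∑ i, z a i * μ b i) ^ 2
      ≤ ∑ a, ∑ b, (∑ i, z a i * μ b i) * (∑ i, z b i * μ a i) := by
    have e : ∑ a, ∑ b, (∑ i, z b i * μ a i) ^ 2 = ∑ a, ∑ b, (∑ i, z a i * μ b i) ^ 2 :=
      Finset.sum_comm
    have : 0 ≤ ∑ a, ∑ b, ((∑ i, z a i * μ b i) + ∑ i, z b i * μ a i) ^ 2 :=
      Finset.sum_nonneg fun a _ => Finset.sum_nonneg fun b _ => sq_nonneg _
    simp only [add_sq, Finset.sum_add_distrib, mul_assoc, ← Finset.mul_sum, e] at this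
    linarith
  have h4 : ∑ i, (∑ a, z a i * μ a i) ^ 2 ≤ 4 * K * ∑ a, ∑ i, z a i ^ 2 := by
    rw [Finset.sum_comm (f := fun a i => z a i ^ 2), Finset.mul_sum]
    refine Finset.sum_le_sum fun i _ => (Finset.sum_mul_sq_le_sq_mul_sq _ _ _).trans ?_
    rw [mul_comm]
    refine mul_le_mul_of_nonneg_right ?_ (Finset.sum_nonneg fun a _ => sq_nonneg _)
    calc ∑ a, μ a i ^ 2 ≤ ∑ _a : Fin K, (4 : ℝ) := Finset.sum_le_sum fun a _ => by
          rw [← sq_abs]; nlinarith [hμ.entry a i, abs_nonneg (μ a i)]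
      _ = 4 * K := by simp; ring
  linarith

theorem linkForm_upper {μ : Fin K → Fin n → ℝ} {lo hi δ C : ℝ} (hμ : NearFrame μ lo hi δ)
    (hδ : 0 ≤ δ) (z : Fin K → Fin n → ℝ) (hC : ∀ a b, a ≠ b → |∑ i, z a i * μ b i| ≤ C) :
    linkForm μ z ≤ ∑ a, ((∑ i, z a i ^ 2) * (∑ i, μ a i ^ 2) + (∑ i, z a i * μ a i) ^ 2)
      + K * δ * n * (∑ a, ∑ i, z a i ^ 2) + K * K * C ^ 2 := by
  rw [linkForm_eq, split_diag fun a b => (∑ i, z a i * z b i) * ∑ i, μ a i * μ b i,
    split_diag fun a b => (∑ i, z a i * μ b i) * ∑ i, z b i * μ a i, Finset.sum_add_distrib]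
  have h2 := (le_abs_self _).trans (off_gram hμ hδ z)
  have h3 : ∑ a, ∑ b, (if a = b then 0 else (∑ i, z a i * μ b i) * ∑ i, z b i * μ a i)
      ≤ K * K * C ^ 2 := by
    calc _ ≤ ∑ _a : Fin K, ∑ _b : Fin K, C ^ 2 := by
          refine Finset.sum_le_sum fun a _ => Finset.sum_le_sum fun b _ => ?_
          by_cases h : a = b
          · rw [if_pos h]; positivity
          · rw [if_neg h, sq]
            refine (le_abs_self _).trans ?_
            rw [abs_mul]
            exact mul_le_mul (hC a b h) (hC b a (Ne.symm h)) (abs_nonneg _)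
              ((abs_nonneg _).trans (hC a b h))
      _ = _ := by simp; ring
  have h4 : 0 ≤ ∑ i, (∑ a, z a i * μ a i) ^ 2 := Finset.sum_nonneg fun i _ => sq_nonneg _
  simp only [← sq] at h2 h3 ⊢
  linarith

/-- The squared norm of a tilt vector. -/
noncomputable def tiltSize (θ lo R : ℝ) : ℝ :=
  2 * (R / (θ ^ 2 * lo) ^ 2 + 4 * ((R + 4) / (4 * θ ^ 2 * lo ^ 2)) ^ 2)

/-- The error of `moment_le` per site. -/
noncomputable def momentErr (θ lo R σ δ : ℝ) (K : ℕ) : ℝ :=
  (K * δ * K * tiltSize θ lo R + σ * K * tiltSize θ lo R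
    + K * K * (δ * (1 / (θ ^ 2 * lo) + (R + 4) / (4 * θ ^ 2 * lo ^ 2))) ^ 2) / 2

/-- The projection on the span of the vectors `μ b`, before normalisation. -/
noncomputable def spanMat (μ : Fin K → Fin n → ℝ) : Matrix (Fin K × Fin K) (Fin K × Fin n) ℝ :=
  Matrix.of fun ab ci => if ci.1 = ab.1 then μ ab.2 ci.2 / √(n : ℝ) else 0

theorem spanMat_mulVec_sq (μ : Fin K → Fin n → ℝ) (z : Fin K × Fin n → ℝ) :
    (spanMat μ *ᵥ z) ⬝ᵥ (spanMat μ *ᵥ z) = (∑ a, ∑ b, (∑ i, z (a, i) * μ b i) ^ 2) / n := by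
  simp only [spanMat, dotProduct, Matrix.mulVec, Matrix.of_apply, Fintype.sum_prod_type,
    Finset.sum_div]
  refine Finset.sum_congr rfl fun a _ => Finset.sum_congr rfl fun b _ => ?_
  rw [Finset.sum_eq_single a (fun x _ hx => by simp [hx]) (by simp)]
  simp only [if_true]
  have : ∑ i, μ b i / √(n : ℝ) * z (a, i) = (∑ i, z (a, i) * μ b i) / √(n : ℝ) := by
    rw [Finset.sum_div]; exact Finset.sum_congr rfl fun i _ => by ring
  rw [this, div_mul_div_comm, mul_self_sqrt (Nat.cast_nonneg n)]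
  ring

theorem spanMat_transpose_sq (μ : Fin K → Fin n → ℝ) (w : Fin K × Fin K → ℝ) :
    ((spanMat μ)ᵀ *ᵥ w) ⬝ᵥ ((spanMat μ)ᵀ *ᵥ w)
      = (∑ c, ∑ i, (∑ b, w (c, b) * μ b i) ^ 2) / n := by
  simp only [spanMat, dotProduct, Matrix.mulVec, Matrix.transpose_apply, Matrix.of_apply,
    Fintype.sum_prod_type, Finset.sum_div]
  refine Finset.sum_congr rfl fun c _ => Finset.sum_congr rfl fun i _ => ?_
  rw [Finset.sum_eq_single c (fun x _ hx => by simp [Ne.symm hx]) (by simp)]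
  simp only [if_true]
  have : ∑ b, μ b i / √(n : ℝ) * w (c, b) = (∑ b, w (c, b) * μ b i) / √(n : ℝ) := by
    rw [Finset.sum_div]; exact Finset.sum_congr rfl fun b _ => by ring
  rw [this, div_mul_div_comm, mul_self_sqrt (Nat.cast_nonneg n)]
  ring

theorem frame_sq_le {μ : Fin K → Fin n → ℝ} {lo hi δ : ℝ} (hμ : NearFrame μ lo hi δ) (hδ : 0 ≤ δ)
    (v : Fin K → ℝ) : ∑ i, (∑ b, v b * μ b i) ^ 2 ≤ (hi + K * δ) * n * ∑ b, v b ^ 2 := by
  have hexp : ∑ i, (∑ b, v b * μ b i) ^ 2 = ∑ a, ∑ b, v a * v b * ∑ i, μ a i * μ b i := by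
    simp only [sq, Finset.sum_mul_sum]
    simp only [Finset.mul_sum]
    rw [Finset.sum_comm]
    refine Finset.sum_congr rfl fun a _ => ?_
    rw [Finset.sum_comm]
    exact Finset.sum_congr rfl fun b _ => Finset.sum_congr rfl fun i _ => by ring
  rw [hexp, split_diag fun a b => v a * v b * ∑ i, μ a i * μ b i]
  have h1 : ∑ a, v a * v a * ∑ i, μ a i * μ a i ≤ hi * n * ∑ b, v b ^ 2 := by
    rw [Finset.mul_sum]
    refine Finset.sum_le_sum fun a _ => ?_
    simp only [← sq]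
    rw [mul_comm (hi * (n : ℝ))]
    exact mul_le_mul_of_nonneg_left (hμ.upper a) (sq_nonneg _)
  have h2 : ∑ a, ∑ b, (if a = b then 0 else v a * v b * ∑ i, μ a i * μ b i)
      ≤ K * δ * n * ∑ b, v b ^ 2 := by
    calc _ ≤ ∑ a : Fin K, ∑ b : Fin K, δ * n * ((v a ^ 2 + v b ^ 2) / 2) := by
          refine Finset.sum_le_sum fun a _ => Finset.sum_le_sum fun b _ => ?_
          by_cases h : a = b
          · rw [if_pos h]; positivity
          · rw [if_neg h, mul_comm (δ * n : ℝ)]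
            refine (le_abs_self _).trans ?_
            rw [abs_mul]
            refine mul_le_mul ?_ (hμ.off a b h) (abs_nonneg _) (by positivity)
            rw [abs_le]
            constructor <;> nlinarith [sq_nonneg (v a - v b), sq_nonneg (v a + v b)]
      _ = _ := by
          simp only [← Finset.mul_sum, ← Finset.sum_div, Finset.sum_add_distrib,
            Finset.sum_const, Finset.card_univ, Fintype.card_fin, nsmul_eq_mul]
          ring
  linarith

theorem linkMat_ball_le (hn : 0 < n) {θ σ lo hi δ : ℝ} (hθ : 0 < θ) (hθ1 : θ ≤ 1) (hσ : 0 < σ)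
    (hσ1 : σ < 1) (hδ : 0 ≤ δ) (hlo : K * δ + 8 * K / n < lo) (hhi : hi ≤ 4)
    (hlohi : lo ≤ hi)
    (μ : Fin K → Fin n → ℝ) (hμ : NearFrame μ lo hi δ) :
    smoothBall (√(1 - σ) • linkMat (θ / (σ * √(n : ℝ))) μ) 0 ≤ ENNReal.ofReal
      ((σ / (√(1 - σ) * θ * √(lo - K * δ - 8 * K / n))) ^ (K * n) * (4 / σ) ^ (K * K)) := by
  have hn' : (0 : ℝ) < n := by exact_mod_cast hn
  set lo' := lo - K * δ - 8 * K / n with hlo'
  have hlo0 : 0 < lo' := by rw [hlo']; linarith
  have h8 : 0 ≤ 8 * (K : ℝ) / n := by positivity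
  have hKδ : 0 ≤ (K : ℝ) * δ := by positivity
  have hl : 0 < lo := by linarith
  set a' := (1 - σ) * θ ^ 2 * lo' / σ ^ 2 with ha'
  set b' := (1 - σ) * θ ^ 2 / σ ^ 2 with hb'
  have h1σ : 0 < 1 - σ := by linarith
  have ha0 : 0 < a' := by positivity
  refine (smoothBall_transpose _).trans_le ?_
  refine (smoothBall_zero_le _ (spanMat μ) (a := a') (b := b') (L := hi + K * δ) ha0.le
    (by positivity) (by linarith) ?_ ?_).trans ?_
  · intro z
    have e3 : ((√(1 - σ) • linkMat (θ / (σ * √(n : ℝ))) μ)ᵀ *ᵥ z) ⬝ᵥ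
        ((√(1 - σ) • linkMat (θ / (σ * √(n : ℝ))) μ)ᵀ *ᵥ z)
        = (1 - σ) * θ ^ 2 / (σ ^ 2 * n) * linkForm μ fun a i => z (a, i) := by
      rw [Matrix.transpose_smul, Matrix.smul_mulVec, smul_dotProduct, dotProduct_smul,
        smul_eq_mul, smul_eq_mul, linkMat_transpose_sq, ← mul_assoc, mul_self_sqrt h1σ.le,
        div_pow, mul_pow, sq_sqrt hn'.le]
      ring
    have e2 : z ⬝ᵥ z = ∑ a, ∑ i, z (a, i) ^ 2 := by
      simp [dotProduct, Fintype.sum_prod_type, sq]
    rw [spanMat_mulVec_sq, e2, e3]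
    refine le_of_eq_of_le ?_ (mul_le_mul_of_nonneg_left (linkForm_lower hμ hδ fun a i => z (a, i))
      (by positivity : 0 ≤ (1 - σ) * θ ^ 2 / (σ ^ 2 * n)))
    simp only [ha', hb', hlo']
    field_simp
  · intro w
    rw [spanMat_transpose_sq, div_le_iff₀ hn']
    refine (Finset.sum_le_sum fun c _ => frame_sq_le hμ hδ fun b => w (c, b)).trans (le_of_eq ?_)
    simp only [dotProduct, Fintype.sum_prod_type, ← sq, ← Finset.mul_sum]
    ring
  · refine ENNReal.ofReal_le_ofReal ?_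
    simp only [Fintype.card_prod, Fintype.card_fin]
    have hbL : b' * (hi + K * δ) ≤ 8 / σ ^ 2 := by
      rw [hb', div_mul_eq_mul_div]
      gcongr
      calc (1 - σ) * θ ^ 2 * (hi + K * δ) ≤ 1 * 1 * (4 + 4) := by
            gcongr <;> first
              | exact pow_le_one₀ hθ.le hθ1
              | linarith
        _ = 8 := by norm_num
    have e1 : 1 / √(1 + a') ≤ σ / (√(1 - σ) * θ * √lo') := by
      have : √a' = √(1 - σ) * θ * √lo' / σ := by
        rw [ha', sqrt_div (by positivity), sqrt_sq hσ.le, sqrt_mul (by positivity),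
          sqrt_mul h1σ.le, sqrt_sq hθ.le]
      calc 1 / √(1 + a') ≤ 1 / √a' :=
            one_div_le_one_div_of_le (sqrt_pos.2 ha0) (sqrt_le_sqrt (by linarith))
        _ = _ := by rw [this, one_div_div]
    have e2 : √(1 + b' * (hi + K * δ)) ≤ 4 / σ := by
      rw [← sqrt_sq (by positivity : (0 : ℝ) ≤ 4 / σ)]
      refine sqrt_le_sqrt ?_
      have : (1 : ℝ) ≤ 1 / σ ^ 2 := by
        rw [le_div_iff₀ (by positivity), one_mul]; exact pow_le_one₀ hσ.le hσ1.le
      calc 1 + b' * (hi + K * δ) ≤ 1 / σ ^ 2 + 8 / σ ^ 2 := add_le_add this hbL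
        _ ≤ (4 / σ) ^ 2 := by rw [← add_div, div_pow]; gcongr; norm_num
    calc √(1 + b' * (hi + K * δ)) ^ (K * K) / √(1 + a') ^ (K * n)
        = (1 / √(1 + a')) ^ (K * n) * √(1 + b' * (hi + K * δ)) ^ (K * K) := by
          rw [_root_.one_div_pow, one_div_mul_eq_div]
      _ ≤ _ := by gcongr

/-- The smoothed probability of `θ J μ a ≈ r a` for all `a`. -/
theorem moment_le (hn : 0 < n) {θ σ lo hi δ R : ℝ} (hθ : 0 < θ) (hθ1 : θ ≤ 1) (hσ : 0 < σ)
    (hσ1 : σ < 1) (hδ : 0 ≤ δ) (hlo : K * δ + 8 * K / n < lo) (hhi : hi ≤ 4)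
    (hlohi : lo ≤ hi) (hR : 0 ≤ R)
    (μ r : Fin K → Fin n → ℝ) (hμ : NearFrame μ lo hi δ) (hr : ∀ a, ∑ i, r a i ^ 2 ≤ R * n)
    (hμr : ∀ a b, a ≠ b → |∑ i, r a i * μ b i| ≤ δ * n) :
    ∫⁻ g, ENNReal.ofReal (exp (-(∑ a, ∑ i, (θ * couple g (μ a) i - r a i) ^ 2) / (2 * σ ^ 2)))
        ∂stdPi (Edge n)
      ≤ ENNReal.ofReal (exp (∑ a, (-(∑ i, r a i ^ 2) / (2 * θ ^ 2 * ((∑ i, μ a i ^ 2) / n))
          + n * ((∑ i, r a i * μ a i) / n) ^ 2 / (4 * θ ^ 2 * ((∑ i, μ a i ^ 2) / n) ^ 2))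
          + n * momentErr θ lo R σ δ K)
        * (σ / (√(1 - σ) * θ * √(lo - K * δ - 8 * K / n))) ^ (K * n) * (4 / σ) ^ (K * K)) := by
  have hn' : (0 : ℝ) < n := by exact_mod_cast hn
  set lo' := lo - K * δ - 8 * K / n with hlo'
  have hlo0 : 0 < lo' := by rw [hlo']; linarith
  have h8 : 0 ≤ 8 * (K : ℝ) / n := by positivity
  have hKδ : 0 ≤ (K : ℝ) * δ := by positivity
  have hl : 0 < lo := by linarith
  set D := fun a => (∑ i, μ a i ^ 2) / (n : ℝ) with hDdef
  have hD : ∀ a, lo ≤ D a ∧ D a ≤ hi := fun a => by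
    simp only [D]
    exact ⟨by rw [le_div_iff₀ hn']; exact hμ.lower a, by rw [div_le_iff₀ hn']; exact hμ.upper a⟩
  set κ := fun a => (∑ i, r a i * μ a i) / (n : ℝ) with hκdef
  set β := fun a => -κ a / (2 * θ ^ 2 * D a ^ 2) with hβdef
  set ψ := fun a i => r a i / (θ ^ 2 * D a) + β a * μ a i with hψdef
  set B := linkMat (θ / (σ * √(n : ℝ))) μ with hB
  set c : Fin K × Fin n → ℝ := fun p => r p.1 p.2 / σ
  set φ : Fin K × Fin n → ℝ := fun p => σ * ψ p.1 p.2
  have hint : ∫⁻ g, ENNReal.ofReal (exp (-(∑ a, ∑ i, (θ * couple g (μ a) i - r a i) ^ 2)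
      / (2 * σ ^ 2))) ∂stdPi (Edge n) = smoothBall B c := by
    refine lintegral_congr fun g => ?_
    congr 2
    simp only [dotProduct, Pi.sub_apply, hB, linkMat_mulVec, c, Fintype.sum_prod_type, neg_div,
      Finset.sum_div]
    congr 1
    refine Finset.sum_congr rfl fun a _ => Finset.sum_congr rfl fun i _ => ?_
    field_simp
  rw [hint]
  refine (smoothBall_tilt B c φ hσ hσ1).trans ?_
  rw [mul_assoc, ENNReal.ofReal_mul (exp_pos _).le]
  refine mul_le_mul' (ENNReal.ofReal_le_ofReal (exp_le_exp.2 ?_)) ?_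
  · -- the tilt exponent
    have hs : (θ / (σ * √(n : ℝ))) ^ 2 * σ ^ 2 = θ ^ 2 / n := by
      rw [div_pow, mul_pow, sq_sqrt hn'.le]; field_simp
    have e1 : φ ⬝ᵥ c = ∑ a, ∑ i, r a i * ψ a i := by
      simp only [dotProduct, φ, c, Fintype.sum_prod_type]
      exact Finset.sum_congr rfl fun a _ => Finset.sum_congr rfl fun i _ => by field_simp
    have e2 : (Bᵀ *ᵥ φ) ⬝ᵥ (Bᵀ *ᵥ φ) = θ ^ 2 / n * linkForm μ ψ := by
      rw [hB, linkMat_transpose_sq, ← hs]
      have : linkForm μ (fun a i => φ (a, i)) = σ ^ 2 * linkForm μ ψ := by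
        simp only [linkForm, φ, Finset.mul_sum]
        refine Finset.sum_congr rfl fun e _ => ?_
        simp only [mul_assoc, ← mul_add, ← Finset.mul_sum]
        ring
      rw [this]; ring
    have e3 : φ ⬝ᵥ φ / (2 * σ) = σ / 2 * ∑ a, ∑ i, ψ a i ^ 2 := by
      simp only [dotProduct, φ, Fintype.sum_prod_type, Finset.mul_sum, Finset.sum_div]
      exact Finset.sum_congr rfl fun a _ => Finset.sum_congr rfl fun i _ => by field_simp
    set β0 := (R + 4) / (4 * θ ^ 2 * lo ^ 2) with hβ0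
    have hκb : ∀ a, |κ a| ≤ (R + 4) / 2 := fun a => by
      simp only [κ]
      rw [abs_div, abs_of_pos hn', div_le_iff₀ hn']
      refine (Finset.abs_sum_le_sum_abs _ _).trans ?_
      calc ∑ i, |r a i * μ a i| ≤ ∑ i, (r a i ^ 2 + μ a i ^ 2) / 2 := Finset.sum_le_sum fun i _ => by
            rw [abs_mul, ← sq_abs (r a i), ← sq_abs (μ a i)]
            nlinarith [sq_nonneg (|r a i| - |μ a i|)]
        _ = (∑ i, r a i ^ 2 + ∑ i, μ a i ^ 2) / 2 := by
            rw [← Finset.sum_div, Finset.sum_add_distrib]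
        _ ≤ _ := by nlinarith [hr a, hμ.upper a]
    have hβb : ∀ a, |β a| ≤ β0 := fun a => by
      have hD0 : 0 < D a := hl.trans_le (hD a).1
      simp only [β]
      rw [abs_div, abs_neg, abs_of_pos (show 0 < 2 * θ ^ 2 * D a ^ 2 by positivity), hβ0,
        div_le_div_iff₀ (by positivity) (by positivity)]
      calc |κ a| * (4 * θ ^ 2 * lo ^ 2) ≤ (R + 4) / 2 * (4 * θ ^ 2 * D a ^ 2) := by
            gcongr
            · exact hκb a
            · exact (hD a).1
        _ = _ := by ring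
    have hψ2 : ∀ a, ∑ i, ψ a i ^ 2 ≤ tiltSize θ lo R * n := fun a => by
      have hD0 : 0 < D a := hl.trans_le (hD a).1
      calc ∑ i, ψ a i ^ 2
          ≤ ∑ i, 2 * (r a i ^ 2 / (θ ^ 2 * D a) ^ 2 + β a ^ 2 * μ a i ^ 2) :=
            Finset.sum_le_sum fun i _ => by
              simp only [ψ, ← div_pow, ← mul_pow]
              exact add_sq_le
        _ = 2 * ((∑ i, r a i ^ 2) / (θ ^ 2 * D a) ^ 2 + β a ^ 2 * ∑ i, μ a i ^ 2) := by
            rw [Finset.sum_div, Finset.mul_sum, ← Finset.sum_add_distrib, Finset.mul_sum]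
        _ ≤ 2 * (R * n / (θ ^ 2 * lo) ^ 2 + β0 ^ 2 * (4 * n)) := by
            rw [← sq_abs (β a)]
            gcongr
            · exact hr a
            · exact (hD a).1
            · exact hβb a
            · exact (hμ.upper a).trans (mul_le_mul_of_nonneg_right hhi hn'.le)
        _ = _ := by rw [tiltSize, hβ0]; ring
    set C := δ * n * (1 / (θ ^ 2 * lo) + β0)
    have hoff : ∀ a b, a ≠ b → |∑ i, ψ a i * μ b i| ≤ C := fun a b hab => by
      have hD0 : 0 < D a := hl.trans_le (hD a).1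
      have : ∑ i, ψ a i * μ b i
          = (∑ i, r a i * μ b i) / (θ ^ 2 * D a) + β a * ∑ i, μ a i * μ b i := by
        rw [Finset.sum_div, Finset.mul_sum, ← Finset.sum_add_distrib]
        exact Finset.sum_congr rfl fun i _ => by simp only [ψ]; ring
      rw [this]
      refine (abs_add_le _ _).trans ?_
      rw [abs_div, abs_of_pos (show 0 < θ ^ 2 * D a by positivity), abs_mul]
      calc |∑ i, r a i * μ b i| / (θ ^ 2 * D a) + |β a| * |∑ i, μ a i * μ b i|
          ≤ δ * n / (θ ^ 2 * lo) + β0 * (δ * n) := by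
            gcongr
            · exact hμr a b hab
            · exact (hD a).1
            · exact hβb a
            · exact hμ.off a b hab
        _ = C := by simp only [C]; ring
    have hup := linkForm_upper hμ hδ ψ hoff
    have hper : ∀ a, -(∑ i, r a i * ψ a i)
        + θ ^ 2 / n * ((∑ i, ψ a i ^ 2) * (∑ i, μ a i ^ 2) + (∑ i, ψ a i * μ a i) ^ 2) / 2
        = -(∑ i, r a i ^ 2) / (2 * θ ^ 2 * D a) + n * κ a ^ 2 / (4 * θ ^ 2 * D a ^ 2) := fun a => by
      have hD0 : 0 < D a := hl.trans_le (hD a).1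
      have hS : ∑ i, μ a i ^ 2 = D a * n := by simp only [D]; field_simp
      have hK : ∑ i, r a i * μ a i = κ a * n := by simp only [κ]; field_simp
      have f1 : ∑ i, r a i * ψ a i
          = (∑ i, r a i ^ 2) / (θ ^ 2 * D a) + β a * ∑ i, r a i * μ a i := by
        rw [Finset.sum_div, Finset.mul_sum, ← Finset.sum_add_distrib]
        exact Finset.sum_congr rfl fun i _ => by simp only [ψ]; ring
      have f2 : ∑ i, ψ a i ^ 2 = (∑ i, r a i ^ 2) / (θ ^ 2 * D a) ^ 2
          + 2 * β a / (θ ^ 2 * D a) * (∑ i, r a i * μ a i) + β a ^ 2 * ∑ i, μ a i ^ 2 := by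
        rw [Finset.sum_div, Finset.mul_sum, Finset.mul_sum, ← Finset.sum_add_distrib,
          ← Finset.sum_add_distrib]
        exact Finset.sum_congr rfl fun i _ => by simp only [ψ]; ring
      have f3 : ∑ i, ψ a i * μ a i
          = (∑ i, r a i * μ a i) / (θ ^ 2 * D a) + β a * ∑ i, μ a i ^ 2 := by
        rw [Finset.sum_div, Finset.mul_sum, ← Finset.sum_add_distrib]
        exact Finset.sum_congr rfl fun i _ => by simp only [ψ]; ring
      rw [f1, f2, f3, hS, hK]
      simp only [β]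
      field_simp
      ring
    have hsum := Finset.sum_congr rfl (fun a (_ : a ∈ (univ : Finset (Fin K))) => hper a)
    rw [Finset.sum_add_distrib, Finset.sum_neg_distrib, ← Finset.sum_div, ← Finset.mul_sum] at hsum
    have hall : ∑ a, ∑ i, ψ a i ^ 2 ≤ K * (tiltSize θ lo R * n) :=
      (Finset.sum_le_sum fun a _ => hψ2 a).trans (by simp)
    have hθn : θ ^ 2 / n * (K * δ * n * (∑ a, ∑ i, ψ a i ^ 2) + K * K * C ^ 2)
        ≤ n * (K * δ * K * tiltSize θ lo R
          + K * K * (δ * (1 / (θ ^ 2 * lo) + β0)) ^ 2) := by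
      have hθ2 : θ ^ 2 ≤ 1 := pow_le_one₀ hθ.le hθ1
      calc θ ^ 2 / n * (K * δ * n * (∑ a, ∑ i, ψ a i ^ 2) + K * K * C ^ 2)
          ≤ 1 / n * (K * δ * n * (K * (tiltSize θ lo R * n)) + K * K * C ^ 2) := by gcongr
        _ = _ := by simp only [C]; field_simp
    have hσψ := mul_le_mul_of_nonneg_left hall (by positivity : 0 ≤ σ / 2)
    have hupθ := mul_le_mul_of_nonneg_left hup (by positivity : 0 ≤ θ ^ 2 / (n : ℝ))
    rw [e1, e2, e3]
    simp only [momentErr]
    simp only [D, κ, β0] at hsum hθn ⊢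
    linarith
  · exact linkMat_ball_le hn hθ hθ1 hσ hσ1 hδ hlo hhi hlohi μ hμ

end Vale.Agent.P150.Full.T
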