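import Vale.Agent.P150.Beyond.Compare

/-!
# P150: comparison tail for frames of orthogonal vectors

For any family of frames `u` of `k` mutually orthogonal vectors with offsets `b`, the supremum of
`∑ a, quad g (u a) + b` has at most twice the tail of the supremum of `∑ a, 2 |u a| (z a . u a) + b`
with independent standard Gaussian vectors `z a`.
-/

open MeasureTheory ProbabilityTheory Real Filter Topology

namespace Vale.Agent.P150.Full

open Vale.Agent.P150.Fast Vale.Agent.P150.Beyond

/-- Comparison of two finite Gaussian families with offsets, as probabilities. -/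
theorem compare_offset_finite {α γ κ : Type*} [Fintype α] [Fintype γ] [Fintype κ]
    (A : κ → α ⊕ γ → ℝ)
    (hvar : ∀ x, ∑ a, A x (.inl a) ^ 2 = ∑ b, A x (.inr b) ^ 2)
    (hcov : ∀ x y, ∑ b, A x (.inr b) * A y (.inr b) ≤ ∑ a, A x (.inl a) * A y (.inl a))
    (b : κ → ℝ) (t : ℝ) :
    stdPi α {g | ∃ x, t < ∑ a, g a * A x (.inl a) + b x}
      ≤ stdPi γ {z | ∃ x, t < ∑ c, z c * A x (.inr c) + b x} := by
  rcases isEmpty_or_nonempty κ with h | h
  · simp
  set μ := stdPi (α ⊕ γ)
  set Z := {z : γ → ℝ | ∃ x, t < ∑ c, z c * A x (.inr c) + b x}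
  have hZm : MeasurableSet Z := by
    simp only [Z, Set.ofPred_exists]
    exact MeasurableSet.iUnion fun x => measurableSet_lt measurable_const (by fun_prop)
  have hR : MeasurePreserving (fun g : α ⊕ γ → ℝ => g ∘ Sum.inr) μ (stdPi γ) :=
    measurePreserving_right
  have hL : MeasurePreserving (fun g : α ⊕ γ → ℝ => g ∘ Sum.inl) μ (stdPi α) :=
    measurePreserving_left
  have main : ∀ δ : ℝ, 0 < δ → (stdPi α).real {g | ∃ x, t + δ ≤ ∑ a, g a * A x (.inl a) + b x}
      ≤ (stdPi γ).real Z := by
    intro δ hδ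
    set S' := {g : α → ℝ | ∃ x, t + δ ≤ ∑ a, g a * A x (.inl a) + b x}
    have hS'm : MeasurableSet S' := by
      simp only [S', Set.ofPred_exists]
      exact MeasurableSet.iUnion fun x => measurableSet_le measurable_const (by fun_prop)
    set S := (fun g : α ⊕ γ → ℝ => g ∘ Sum.inl) ⁻¹' S'
    have hSm : MeasurableSet S := hL.measurable hS'm
    have key : ∀ L : ℝ, 0 < L → sigmoid L * μ.real S ≤ (stdPi γ).real Z + sigmoid (-L) := by
      intro L hL0
      set Λ := log (2 * (Fintype.card κ : ℝ)) with hΛ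
      have hcard : (0 : ℝ) < 2 * Fintype.card κ := mul_pos two_pos (by exact_mod_cast Fintype.card_pos)
      have hΛ0 : 0 ≤ Λ := log_nonneg (by
        have : (1 : ℝ) ≤ Fintype.card κ := by exact_mod_cast Fintype.card_pos
        linarith)
      set M := (2 * L + Λ) / δ with hM_def
      have hM : 0 < M := div_pos (by linarith) hδ
      have hMδ : M * δ = 2 * L + Λ := div_mul_cancel₀ _ hδ.ne'
      set B := ∑ x, |b x|
      have hbB : ∀ x, 0 ≤ b x + B := fun x => by
        have := Finset.single_le_sum (fun j _ => abs_nonneg (b j)) (Finset.mem_univ x)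
        linarith [neg_abs_le (b x)]
      set N : κ → ℕ := fun x => ⌈exp (M * (b x + B))⌉₊
      have hN : ∀ x, exp (M * (b x + B)) ≤ N x ∧ (N x : ℝ) ≤ 2 * exp (M * (b x + B)) := fun x => by
        refine ⟨Nat.le_ceil _, (Nat.ceil_lt_add_one (exp_pos _).le).le.trans ?_⟩
        linarith [one_le_exp (mul_nonneg hM.le (hbB x))]
      set A' : (Σ x, Fin (N x)) → α ⊕ γ → ℝ := fun p a => M * A p.1 a
      have : Nonempty (Σ x, Fin (N x)) :=
        ⟨⟨Classical.arbitrary κ, ⟨0, Nat.cast_pos.1 ((exp_pos _).trans_le (hN _).1)⟩⟩⟩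
      set thr := M * (t + B) + Λ + L
      have hsum : ∀ c g, press A' c g
          = log (∑ x, (N x : ℝ) * exp (∑ a, c a * g a * (M * A x a))) := fun c g => by
        simp [press, expo, A', Fintype.sum_sigma]
      have e0 : ∀ (g : α ⊕ γ → ℝ) x, ∑ a, angle 0 a * g a * (M * A x a)
          = M * ∑ a, (g ∘ Sum.inl) a * A x (.inl a) := fun g x => by
        simp only [angle, Fintype.sum_sum_type, Sum.elim_inl, Sum.elim_inr, cos_zero, sin_zero,
          zero_mul, Finset.sum_const_zero, add_zero, one_mul, Finset.mul_sum, Function.comp_apply]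
        exact Finset.sum_congr rfl fun i _ => by ring
      have e1 : ∀ (g : α ⊕ γ → ℝ) x, ∑ a, angle (π / 2) a * g a * (M * A x a)
          = M * ∑ c, (g ∘ Sum.inr) c * A x (.inr c) := fun g x => by
        simp only [angle, Fintype.sum_sum_type, Sum.elim_inl, Sum.elim_inr, cos_pi_div_two,
          sin_pi_div_two, zero_mul, Finset.sum_const_zero, zero_add, one_mul, Finset.mul_sum,
          Function.comp_apply]
        exact Finset.sum_congr rfl fun i _ => by ring
      have h1 : ∀ g, S.indicator (fun _ => sigmoid L) g ≤ sigmoid (press A' (angle 0) g - thr) := by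
        intro g
        by_cases hg : g ∈ S
        · rw [Set.indicator_of_mem hg]
          obtain ⟨x, hx⟩ := hg
          refine sigmoid_le ?_
          have hp : M * (t + δ + B) ≤ press A' (angle 0) g := by
            rw [hsum, ← log_exp (M * (t + δ + B))]
            refine log_le_log (exp_pos _) (le_trans ?_ (Finset.single_le_sum (fun j _ =>
              mul_nonneg (Nat.cast_nonneg (N j)) (exp_pos _).le) (Finset.mem_univ x)))
            rw [e0]
            refine le_trans ?_ (mul_le_mul_of_nonneg_right (hN x).1 (exp_pos _).le)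
            rw [← exp_add, exp_le_exp, ← mul_add]
            exact mul_le_mul_of_nonneg_left (by linarith) hM.le
          simp only [thr]
          linarith [mul_add M t δ, mul_add M (t + δ) B, mul_add M t B]
        · rw [Set.indicator_of_notMem hg]
          exact sigmoid_nonneg _
      have h2 : ∀ g, sigmoid (press A' (angle (π / 2)) g - thr)
          ≤ ((fun g : α ⊕ γ → ℝ => g ∘ Sum.inr) ⁻¹' Z).indicator (fun _ => (1 : ℝ)) g + sigmoid (-L) := by
        intro g
        by_cases hg : g ∈ (fun g : α ⊕ γ → ℝ => g ∘ Sum.inr) ⁻¹' Z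
        · rw [Set.indicator_of_mem hg]
          linarith [sigmoid_le_one (press A' (angle (π / 2)) g - thr), sigmoid_nonneg (-L)]
        · rw [Set.indicator_of_notMem hg, zero_add]
          refine sigmoid_le ?_
          have hz : ∀ x, ∑ c, (g ∘ Sum.inr) c * A x (.inr c) + b x ≤ t :=
            fun x => not_lt.1 fun h => hg ⟨x, h⟩
          have hp : press A' (angle (π / 2)) g ≤ Λ + M * (t + B) := by
            rw [hsum, hΛ, ← log_exp (M * (t + B)), ← log_mul hcard.ne' (exp_pos _).ne']
            refine log_le_log (Finset.sum_pos (fun j _ =>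
              mul_pos ((exp_pos _).trans_le (hN j).1) (exp_pos _)) Finset.univ_nonempty) ?_
            refine (Finset.sum_le_sum fun j _ => (?_ : _ ≤ 2 * exp (M * (t + B)))).trans (le_of_eq ?_)
            · rw [e1]
              refine (mul_le_mul_of_nonneg_right (hN j).2 (exp_pos _).le).trans ?_
              rw [mul_assoc, ← exp_add, ← mul_add]
              refine mul_le_mul_of_nonneg_left (exp_le_exp.2 ?_) zero_le_two
              exact mul_le_mul_of_nonneg_left (by linarith [hz j]) hM.le
            · simp [Finset.sum_const]; ring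
          simp only [thr]
          linarith
      have hc := compare_sigmoid A' (fun p => by
          simp only [A', mul_pow, ← Finset.mul_sum, hvar p.1])
        (fun p q => by
          have h := mul_le_mul_of_nonneg_left (hcov p.1 q.1) (sq_nonneg M)
          simp only [Finset.mul_sum] at h
          refine le_of_eq_of_le (Finset.sum_congr rfl fun i _ => ?_)
            (h.trans_eq (Finset.sum_congr rfl fun i _ => ?_)) <;> simp only [A'] <;> ring) thr
      have hint : ∀ c : α ⊕ γ → ℝ, Integrable (fun g => sigmoid (press A' c g - thr)) μ := fun c =>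
        Integrable.of_bound
          (continuous_sigmoid.measurable.comp ((measurable_press A' c).sub_const thr)).aestronglyMeasurable 1
          (Eventually.of_forall fun g => by
            rw [Real.norm_of_nonneg (sigmoid_nonneg _)]; exact sigmoid_le_one _)
      have hi1 : Integrable (S.indicator fun _ => sigmoid L) μ := (integrable_const _).indicator hSm
      have hi2 : Integrable (((fun g : α ⊕ γ → ℝ => g ∘ Sum.inr) ⁻¹' Z).indicator fun _ => (1 : ℝ)) μ :=
        (integrable_const _).indicator (hR.measurable hZm)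
      calc sigmoid L * μ.real S = ∫ g, S.indicator (fun _ => sigmoid L) g ∂μ := by
            rw [integral_indicator_const _ hSm, smul_eq_mul, mul_comm]
        _ ≤ ∫ g, sigmoid (press A' (angle 0) g - thr) ∂μ := integral_mono hi1 (hint _) h1
        _ ≤ ∫ g, sigmoid (press A' (angle (π / 2)) g - thr) ∂μ := hc
        _ ≤ ∫ g, (((fun g : α ⊕ γ → ℝ => g ∘ Sum.inr) ⁻¹' Z).indicator (fun _ => (1 : ℝ)) g
              + sigmoid (-L)) ∂μ := integral_mono (hint _) (hi2.add (integrable_const _)) h2
        _ = _ := by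
            rw [integral_add hi2 (integrable_const _), integral_indicator_const _ (hR.measurable hZm),
              integral_const, smul_eq_mul, mul_one, probReal_univ, one_smul]
            congr 1
            simp only [Measure.real, hR.measure_preimage hZm.nullMeasurableSet]
    have hl : Tendsto (fun L => sigmoid L * μ.real S) atTop (𝓝 (1 * μ.real S)) :=
      tendsto_sigmoid_atTop.mul_const _
    have hr : Tendsto (fun L => (stdPi γ).real Z + sigmoid (-L)) atTop (𝓝 ((stdPi γ).real Z + 0)) :=
      (tendsto_sigmoid_atBot.comp tendsto_neg_atTop_atBot).const_add _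
    rw [one_mul] at hl
    rw [add_zero] at hr
    have := le_of_tendsto_of_tendsto hl hr (eventually_atTop.2 ⟨1, fun L hL1 => key L (by linarith)⟩)
    simpa [Measure.real, S, hL.measure_preimage hS'm.nullMeasurableSet] using this
  have e : {g : α → ℝ | ∃ x, t < ∑ a, g a * A x (.inl a) + b x}
      = ⋃ j : ℕ, {g | ∃ x, t + 1 / ((j : ℝ) + 1) ≤ ∑ a, g a * A x (.inl a) + b x} := by
    ext g
    simp only [Set.mem_ofPred_eq, Set.mem_iUnion]
    constructor
    · rintro ⟨x, hx⟩
      obtain ⟨j, hj⟩ := exists_nat_one_div_lt (sub_pos.2 hx)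
      exact ⟨j, x, by linarith⟩
    · rintro ⟨j, x, hx⟩
      exact ⟨x, by linarith [(Nat.one_div_pos_of_nat : 0 < 1 / ((j : ℝ) + 1))]⟩
  have hmono : Monotone fun j : ℕ =>
      {g : α → ℝ | ∃ x, t + 1 / ((j : ℝ) + 1) ≤ ∑ a, g a * A x (.inl a) + b x} := by
    rintro i j hij g ⟨x, hx⟩
    have hij' : (i : ℝ) ≤ j := by exact_mod_cast hij
    exact ⟨x, le_trans (by gcongr) hx⟩
  rw [e, hmono.measure_iUnion]
  exact iSup_le fun j => (ENNReal.toReal_le_toReal (measure_ne_top _ _) (measure_ne_top _ _)).1
    (main _ Nat.one_div_pos_of_nat)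

variable {n k : ℕ}

/-- The coefficients: the couplings and one padding coordinate per vector and site, against one
Gaussian vector per vector of the frame. -/
noncomputable def frameCoef (u : Fin k → Fin n → ℝ) :
    (Edge n ⊕ (Fin n ⊕ Fin k)) ⊕ (Fin k × Fin n) → ℝ :=
  Sum.elim (Sum.elim (fun e => ∑ a, 2 * u a e.1.1 * u a e.1.2)
    (Sum.elim (fun i => √2 * ∑ a, u a i ^ 2) fun a => √2 * ∑ i, u a i ^ 2))
    fun p => 2 * √(∑ i, u p.1 i ^ 2) * u p.1 p.2

theorem frame_cov (u v : Fin k → Fin n → ℝ) :
    (∑ c, frameCoef u (.inl c) * frameCoef v (.inl c)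
      = 2 * (∑ a, ∑ b, (∑ i, u a i * v b i) ^ 2)
        + 2 * ∑ a, (∑ i, u a i ^ 2) * ∑ i, v a i ^ 2) ∧
    ∑ p, frameCoef u (.inr p) * frameCoef v (.inr p)
      = 4 * ∑ a, √(∑ i, u a i ^ 2) * √(∑ i, v a i ^ 2) * ∑ i, u a i * v a i := by
  constructor
  · have h2 : (√2 : ℝ) * √2 = 2 := mul_self_sqrt zero_le_two
    have h := sum_edge (fun i j => (∑ a, u a i * u a j) * ∑ b, v b i * v b j)
      fun i j => by simp only [mul_comm (u _ i), mul_comm (v _ i)]
    have key : ∑ i, ∑ j, (∑ a, u a i * u a j) * (∑ b, v b i * v b j)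
        = ∑ a, ∑ b, (∑ i, u a i * v b i) ^ 2 := by
      simp only [sq, Finset.sum_mul_sum]
      calc _ = ∑ i, ∑ a, ∑ b, ∑ j, u a i * u a j * (v b i * v b j) :=
            Finset.sum_congr rfl fun i _ => by
              rw [Finset.sum_comm]
              exact Finset.sum_congr rfl fun a _ => Finset.sum_comm
        _ = _ := by
            rw [Finset.sum_comm]
            refine Finset.sum_congr rfl fun a _ => ?_
            rw [Finset.sum_comm]
            exact Finset.sum_congr rfl fun b _ => Finset.sum_congr rfl fun i _ =>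
              Finset.sum_congr rfl fun j _ => by ring
    rw [key] at h
    simp only [frameCoef, Fintype.sum_sum_type, Sum.elim_inl, Sum.elim_inr]
    have e1 : ∑ e : Edge n, (∑ a, 2 * u a e.1.1 * u a e.1.2) * ∑ a, 2 * v a e.1.1 * v a e.1.2
        = 2 * (2 * ∑ e : Edge n, (∑ a, u a e.1.1 * u a e.1.2) * ∑ b, v b e.1.1 * v b e.1.2) := by
      have h0 : ∀ (w : Fin k → Fin n → ℝ) (e : Edge n),
          ∑ a, 2 * w a e.1.1 * w a e.1.2 = 2 * ∑ a, w a e.1.1 * w a e.1.2 := fun w e => by
        rw [Finset.mul_sum]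
        exact Finset.sum_congr rfl fun a _ => by ring
      simp only [h0, Finset.mul_sum (a := (2 : ℝ)) (s := (Finset.univ : Finset (Edge n)))]
      exact Finset.sum_congr rfl fun e _ => by ring
    have e2 : ∑ i, (√2 * ∑ a, u a i ^ 2) * (√2 * ∑ a, v a i ^ 2)
        = 2 * ∑ i, (∑ a, u a i * u a i) * ∑ b, v b i * v b i := by
      rw [Finset.mul_sum]
      refine Finset.sum_congr rfl fun i _ => ?_
      simp only [sq]
      linear_combination ((∑ a, u a i * u a i) * ∑ b, v b i * v b i) * h2
    have e3 : ∑ a, (√2 * ∑ i, u a i ^ 2) * (√2 * ∑ i, v a i ^ 2)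
        = 2 * ∑ a, (∑ i, u a i ^ 2) * ∑ i, v a i ^ 2 := by
      rw [Finset.mul_sum]
      refine Finset.sum_congr rfl fun a _ => ?_
      linear_combination ((∑ i, u a i ^ 2) * ∑ i, v a i ^ 2) * h2
    rw [e1, e2, e3]
    linarith
  · simp only [frameCoef, Sum.elim_inr, Fintype.sum_prod_type, Finset.mul_sum]
    exact Finset.sum_congr rfl fun a _ => Finset.sum_congr rfl fun i _ => by ring

/-- Mutually orthogonal vectors. -/
def IsFrame (u : Fin k → Fin n → ℝ) : Prop := ∀ a b, a ≠ b → ∑ i, u a i * u b i = 0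

theorem frame_var {u : Fin k → Fin n → ℝ} (hu : IsFrame u) :
    ∑ c, frameCoef u (.inl c) ^ 2 = ∑ p, frameCoef u (.inr p) ^ 2 := by
  simp only [sq]
  rw [(frame_cov u u).1, (frame_cov u u).2, Finset.mul_sum, Finset.mul_sum, Finset.mul_sum,
    ← Finset.sum_add_distrib]
  refine Finset.sum_congr rfl fun a _ => ?_
  rw [Finset.sum_eq_single a (fun b _ hb => by simp [hu a b (Ne.symm hb)]) (by simp),
    mul_self_sqrt (Finset.sum_nonneg fun i _ => sq_nonneg _)]
  simp only [← sq]
  ring

theorem frame_le (u v : Fin k → Fin n → ℝ) :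
    ∑ p, frameCoef u (.inr p) * frameCoef v (.inr p)
      ≤ ∑ c, frameCoef u (.inl c) * frameCoef v (.inl c) := by
  rw [(frame_cov u v).1, (frame_cov u v).2, Finset.mul_sum, Finset.mul_sum, Finset.mul_sum,
    ← Finset.sum_add_distrib]
  refine Finset.sum_le_sum fun a _ => ?_
  have hs : (∑ i, u a i * v a i) ^ 2 ≤ ∑ b, (∑ i, u a i * v b i) ^ 2 :=
    Finset.single_le_sum (fun b _ => sq_nonneg (∑ i, u a i * v b i)) (Finset.mem_univ a)
  have ha := sq_sqrt (Finset.sum_nonneg fun i (_ : i ∈ Finset.univ) => sq_nonneg (u a i))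
  have hb := sq_sqrt (Finset.sum_nonneg fun i (_ : i ∈ Finset.univ) => sq_nonneg (v a i))
  nlinarith [sq_nonneg ((∑ i, u a i * v a i) - √(∑ i, u a i ^ 2) * √(∑ i, v a i ^ 2))]

/-- The sign change of the padding coordinates. -/
def flipPad (g : Edge n ⊕ (Fin n ⊕ Fin k) → ℝ) : Edge n ⊕ (Fin n ⊕ Fin k) → ℝ :=
  Sum.elim (fun e => g (.inl e)) fun c => -g (.inr c)

theorem measurePreserving_flipPad :
    MeasurePreserving (flipPad (n := n) (k := k)) (stdPi (Edge n ⊕ (Fin n ⊕ Fin k)))
      (stdPi (Edge n ⊕ (Fin n ⊕ Fin k))) := by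
  have hn : MeasurePreserving (fun y : ℝ => -y) std std :=
    ⟨measurable_neg, by rw [std, gaussianReal_map_neg, neg_zero]⟩
  have h := measurePreserving_pi (fun _ : Edge n ⊕ (Fin n ⊕ Fin k) => std)
    (fun _ : Edge n ⊕ (Fin n ⊕ Fin k) => std)
    (f := fun c => Sum.elim (fun _ => id) (fun _ y => -y) c)
    (fun c => by
      rcases c with e | d
      · exact MeasurePreserving.id _
      · exact hn)
  have he : flipPad (n := n) (k := k) = fun g c =>
      Sum.elim (fun _ : Edge n => id) (fun (_ : Fin n ⊕ Fin k) (y : ℝ) => -y) c (g c) := by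
    funext g c
    rcases c with e | d <;> rfl
  rw [he]
  exact h

theorem frame_offset_finite {κ : Type*} [Fintype κ] (u : κ → Fin k → Fin n → ℝ)
    (hu : ∀ x, IsFrame (u x)) (b : κ → ℝ) (t : ℝ) :
    stdPi (Edge n) {g | ∃ x, t < ∑ a, quad g (u x a) + b x}
      ≤ 2 * stdPi (Fin k × Fin n) {z | ∃ x, t < ∑ a, side (fun i => z (a, i)) (u x a) + b x} := by
  set C := {g : Edge n ⊕ (Fin n ⊕ Fin k) → ℝ |
    ∃ x, t < ∑ c, g c * frameCoef (u x) (.inl c) + b x}
  set E := {g : Edge n → ℝ | ∃ x, t < ∑ a, quad g (u x a) + b x}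
  have hEm : MeasurableSet E := by
    simp only [E, Set.ofPred_exists]
    exact MeasurableSet.iUnion fun x => measurableSet_lt measurable_const (by unfold quad; fun_prop)
  have hCm : MeasurableSet C := by
    simp only [C, Set.ofPred_exists]
    exact MeasurableSet.iUnion fun x => measurableSet_lt measurable_const (by fun_prop)
  have hp : MeasurePreserving (fun g : Edge n ⊕ (Fin n ⊕ Fin k) → ℝ => g ∘ Sum.inl)
      (stdPi (Edge n ⊕ (Fin n ⊕ Fin k))) (stdPi (Edge n)) := measurePreserving_left
  have hq : ∀ (g : Edge n → ℝ) (w : Fin k → Fin n → ℝ),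
      ∑ a, quad g (w a) = ∑ e, g e * ∑ a, 2 * w a e.1.1 * w a e.1.2 := fun g w => by
    simp only [quad, Finset.mul_sum]
    exact Finset.sum_comm
  have hcmp : stdPi (Edge n ⊕ (Fin n ⊕ Fin k)) C
      ≤ stdPi (Fin k × Fin n) {z | ∃ x, t < ∑ a, side (fun i => z (a, i)) (u x a) + b x} := by
    refine (compare_offset_finite (fun x => frameCoef (u x)) (fun x => frame_var (hu x))
      (fun x y => frame_le (u x) (u y)) b t).trans (le_of_eq (congrArg _ (Set.ext fun z => ?_)))
    have : ∀ w : Fin k → Fin n → ℝ, ∑ p, z p * frameCoef w (.inr p)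
        = ∑ a, side (fun i => z (a, i)) (w a) := fun w => by
      simp only [frameCoef, side, Sum.elim_inr, Fintype.sum_prod_type, Finset.mul_sum]
      exact Finset.sum_congr rfl fun a _ => Finset.sum_congr rfl fun i _ => by ring
    simp only [this, Set.mem_ofPred_eq]
  have hsub : (fun g : Edge n ⊕ (Fin n ⊕ Fin k) → ℝ => g ∘ Sum.inl) ⁻¹' E
      ⊆ C ∪ flipPad ⁻¹' C := by
    rintro g ⟨x, hx⟩
    rw [hq] at hx
    simp only [Function.comp_apply] at hx
    set W := ∑ c, g (.inr c) * frameCoef (u x) (.inl (.inr c))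
    rcases le_total 0 W with hW | hW
    · refine Or.inl ⟨x, ?_⟩
      rw [Fintype.sum_sum_type]
      simp only [frameCoef, Sum.elim_inl, Sum.elim_inr] at hx ⊢
      simp only [W, frameCoef, Sum.elim_inl, Sum.elim_inr] at hW
      linarith
    · refine Or.inr ⟨x, ?_⟩
      rw [Fintype.sum_sum_type]
      simp only [flipPad, frameCoef, Sum.elim_inl, Sum.elim_inr, neg_mul, Finset.sum_neg_distrib]
        at hx ⊢
      simp only [W, frameCoef, Sum.elim_inl, Sum.elim_inr] at hW
      linarith
  rw [← hp.measure_preimage hEm.nullMeasurableSet, two_mul]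
  refine (measure_mono hsub).trans ((measure_union_le _ _).trans ?_)
  rw [measurePreserving_flipPad.measure_preimage hCm.nullMeasurableSet]
  exact add_le_add hcmp hcmp

/-- The tail of a supremum over an arbitrary family of orthogonal frames with offsets. -/
theorem frame_offset_tail {ι : Type*} (u : ι → Fin k → Fin n → ℝ) (hu : ∀ x, IsFrame (u x))
    (b : ι → ℝ) (t : ℝ) :
    (stdPi (Edge n)).real {g | ∃ x, t < ∑ a, quad g (u x a) + b x}
      ≤ 2 * (stdPi (Fin k × Fin n)).real
          {z | ∃ x, t < ∑ a, 2 * √(∑ i, u x a i ^ 2) * (∑ i, z (a, i) * u x a i) + b x} := by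
  have main : stdPi (Edge n) {g | ∃ x, t < ∑ a, quad g (u x a) + b x}
      ≤ 2 * stdPi (Fin k × Fin n)
          {z | ∃ x, t < ∑ a, side (fun i => z (a, i)) (u x a) + b x} := by
    rcases isEmpty_or_nonempty ι with hι | hι
    · simp
    let p : ι → (Fin k → Fin n → ℝ) × ℝ := fun x => (u x, b x)
    have : Nonempty (Set.range p) := (Set.range_nonempty p).to_subtype
    let s := TopologicalSpace.denseSeq (Set.range p)
    have hsub : {g : Edge n → ℝ | ∃ x, t < ∑ a, quad g (u x a) + b x}
        ⊆ ⋃ m : ℕ, {g | ∃ j : Fin m, t < ∑ a, quad g ((s j).1.1 a) + (s j).1.2} := by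
      rintro g ⟨x, hx⟩
      have ho : IsOpen {q : Set.range p | t < ∑ a, quad g (q.1.1 a) + q.1.2} := by
        refine isOpen_lt continuous_const ?_
        unfold quad
        fun_prop
      obtain ⟨j, hj⟩ := (TopologicalSpace.denseRange_denseSeq _).exists_mem_open ho
        ⟨⟨p x, x, rfl⟩, hx⟩
      exact Set.mem_iUnion.2 ⟨j + 1, ⟨⟨j, j.lt_succ_self⟩, hj⟩⟩
    have hmono : Monotone fun m : ℕ =>
        {g : Edge n → ℝ | ∃ j : Fin m, t < ∑ a, quad g ((s j).1.1 a) + (s j).1.2} :=
      fun m m' hm g ⟨j, hj⟩ => ⟨Fin.castLE hm j, hj⟩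
    refine (measure_mono hsub).trans ?_
    rw [hmono.measure_iUnion]
    refine iSup_le fun m => (frame_offset_finite (fun j : Fin m => (s j).1.1)
      (fun j => by obtain ⟨x, hx⟩ := (s j).2; rw [← hx]; exact hu x) (fun j => (s j).1.2) t).trans ?_
    refine mul_le_mul_right (measure_mono ?_) 2
    rintro z ⟨j, hj⟩
    obtain ⟨x, hx⟩ := (s j).2
    refine ⟨x, ?_⟩
    rw [← hx] at hj
    exact hj
  have := ENNReal.toReal_mono (ENNReal.mul_ne_top ENNReal.ofNat_ne_top (measure_ne_top _ _)) main
  simpa [Measure.real, side] using this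

end Vale.Agent.P150.Full
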