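import Vale.Agent.P150.Gauss
import Mathlib

/-!
# P150: Gaussian integrals of quadratic forms

Products, the density of the standard Gaussian vector, whitening of a positive definite matrix and
the change of variables.
-/

open MeasureTheory ProbabilityTheory Real Matrix
open scoped ENNReal NNReal

namespace Vale.Agent.P150.Full.T

/-- The lower integral of a product of functions of separate coordinates. -/
theorem lintegral_prod_coord {E : Type*} [MeasurableSpace E] (μ : Measure E) [SigmaFinite μ]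
    {ι : Type*} [Fintype ι] (f : ι → E → ℝ≥0∞) (hf : ∀ i, Measurable (f i)) :
    ∫⁻ x, ∏ i, f i (x i) ∂Measure.pi (fun _ : ι => μ) = ∏ i, ∫⁻ e, f i e ∂μ := by
  classical
  have main : ∀ (m : ℕ) (f : Fin m → E → ℝ≥0∞), (∀ i, Measurable (f i)) →
      ∫⁻ x, ∏ i, f i (x i) ∂Measure.pi (fun _ : Fin m => μ) = ∏ i, ∫⁻ e, f i e ∂μ := by
    intro m
    induction m with
    | zero => intro f _; simp [Measure.pi_of_empty]
    | succ m ih =>
      intro f hf
      have h := (measurePreserving_piFinSuccAbove (fun _ : Fin (m + 1) => μ) 0).symm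
      have hg : Measurable fun x : Fin (m + 1) → E => ∏ i, f i (x i) :=
        Finset.measurable_prod _ fun i _ => (hf i).comp (measurable_pi_apply i)
      rw [← h.lintegral_comp hg]
      simp only [Fin.prod_univ_succ]
      rw [← ih (fun i => f i.succ) fun i => hf _, ← lintegral_prod_mul (hf 0).aemeasurable
        (Finset.measurable_prod _ fun i _ => (hf i.succ).comp (measurable_pi_apply i)).aemeasurable]
      refine lintegral_congr fun p => ?_
      simp [MeasurableEquiv.piFinSuccAbove_symm_apply]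
  let e := (Fintype.equivFin ι).symm
  have h := measurePreserving_piCongrLeft (fun _ : ι => μ) e
  have hg : Measurable fun x : ι → E => ∏ i, f i (x i) :=
    Finset.measurable_prod _ fun i _ => (hf i).comp (measurable_pi_apply i)
  rw [← h.lintegral_comp hg]
  rw [← e.prod_comp (g := fun i => ∫⁻ x, f i x ∂μ), ← main _ (fun i => f (e i)) fun i => hf _]
  refine lintegral_congr fun x => ?_
  rw [← e.prod_comp]
  exact Finset.prod_congr rfl fun i _ => by rw [MeasurableEquiv.piCongrLeft_apply_apply]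

variable {ι κ : Type*} [Fintype ι] [Fintype κ]

/-- The density of the standard Gaussian vector. -/
noncomputable def gdens (x : ι → ℝ) : ℝ≥0∞ :=
  ENNReal.ofReal ((√(2 * π))⁻¹ ^ Fintype.card ι * exp (-(∑ i, x i ^ 2) / 2))

theorem measurable_gdens : Measurable (gdens (ι := ι)) := by unfold gdens; fun_prop

theorem gdens_eq_prod (x : ι → ℝ) : gdens x = ∏ i, gaussianPDF 0 1 (x i) := by
  simp only [gdens, gaussianPDF]
  rw [← ENNReal.ofReal_prod_of_nonneg fun i _ => gaussianPDFReal_nonneg 0 1 _]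
  congr 1
  simp only [gaussianPDFReal, NNReal.coe_one, mul_one, sub_zero, Finset.prod_mul_distrib,
    Finset.prod_const, Finset.card_univ, ← exp_sum]
  congr 2
  rw [neg_div, Finset.sum_div, ← Finset.sum_neg_distrib]
  exact Finset.sum_congr rfl fun i _ => by ring

theorem stdPi_eq_withDensity :
    stdPi ι = (volume : Measure (ι → ℝ)).withDensity gdens := by
  classical
  refine Measure.pi_eq fun s hs => ?_
  rw [withDensity_apply _ (MeasurableSet.univ_pi hs), ← lintegral_indicator (MeasurableSet.univ_pi hs),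
    volume_pi]
  have e : ∀ x : ι → ℝ, (Set.univ.pi s).indicator gdens x
      = ∏ i, (s i).indicator (gaussianPDF 0 1) (x i) := fun x => by
    by_cases hx : x ∈ Set.univ.pi s
    · rw [Set.indicator_of_mem hx, gdens_eq_prod]
      exact Finset.prod_congr rfl fun i _ => by rw [Set.indicator_of_mem (hx i (Set.mem_univ i))]
    · rw [Set.indicator_of_notMem hx]
      simp only [Set.mem_pi, Set.mem_univ, forall_const, not_forall] at hx
      obtain ⟨i, hi⟩ := hx
      exact (Finset.prod_eq_zero (Finset.mem_univ i) (Set.indicator_of_notMem hi _)).symm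
  simp only [e]
  rw [lintegral_prod_coord volume _ fun i => (measurable_gaussianPDF 0 1).indicator (hs i)]
  refine Finset.prod_congr rfl fun i _ => ?_
  rw [lintegral_indicator (hs i), std, gaussianReal_of_var_ne_zero _ one_ne_zero,
    withDensity_apply _ (hs i)]

/-- An integral over Lebesgue measure as an average over the standard Gaussian vector. -/
theorem lintegral_volume_eq_stdPi {f : (ι → ℝ) → ℝ≥0∞} (hf : Measurable f) :
    ∫⁻ x, f x = ENNReal.ofReal (√(2 * π) ^ Fintype.card ι)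
      * ∫⁻ z, f z * ENNReal.ofReal (exp ((∑ i, z i ^ 2) / 2)) ∂stdPi ι := by
  have hm : Measurable fun z : ι → ℝ => f z * ENNReal.ofReal (exp ((∑ i, z i ^ 2) / 2)) := by
    fun_prop
  rw [stdPi_eq_withDensity, lintegral_withDensity_eq_lintegral_mul _ measurable_gdens hm,
    ← lintegral_const_mul _ (measurable_gdens.mul hm)]
  refine lintegral_congr fun z => ?_
  simp only [Pi.mul_apply, gdens]
  rw [mul_comm (f z), ← mul_assoc, ← mul_assoc, ← ENNReal.ofReal_mul (by positivity),
    ← ENNReal.ofReal_mul (by positivity)]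
  rw [← mul_assoc, ← mul_pow, mul_inv_cancel₀ (by positivity), one_pow, one_mul, ← exp_add]
  simp [neg_div]

variable [DecidableEq ι]

/-- Whitening of a positive definite matrix. -/
theorem exists_whiten {Q : Matrix ι ι ℝ} (hQ : Q.PosDef) :
    ∃ M : Matrix ι ι ℝ, Mᵀ * Q * M = 1 ∧ |M.det| * √Q.det = 1 := by
  set U : Matrix ι ι ℝ := (hQ.1.eigenvectorUnitary : Matrix ι ι ℝ)
  set ev := hQ.1.eigenvalues
  have hev : ∀ i, 0 < ev i := fun i => hQ.eigenvalues_pos i
  have hd : Uᵀ * Q * U = Matrix.diagonal ev := by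
    have := hQ.1.conjStarAlgAut_star_eigenvectorUnitary
    simpa [Unitary.conjStarAlgAut_apply, Matrix.star_eq_conjTranspose, U, ev, Function.comp_def]
      using this
  set M := U * Matrix.diagonal fun i => (√(ev i))⁻¹
  have h1 : Mᵀ * Q * M = 1 := by
    simp only [M, Matrix.transpose_mul, Matrix.diagonal_transpose]
    calc _ = Matrix.diagonal (fun i => (√(ev i))⁻¹) * (Uᵀ * Q * U) *
          Matrix.diagonal (fun i => (√(ev i))⁻¹) := by simp only [Matrix.mul_assoc]
      _ = 1 := by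
        rw [hd, Matrix.diagonal_mul_diagonal, Matrix.diagonal_mul_diagonal, ← Matrix.diagonal_one]
        congr 1
        funext i
        have := mul_self_sqrt (hev i).le
        field_simp [(sqrt_pos.2 (hev i)).ne']
        linarith
  refine ⟨M, h1, ?_⟩
  have h2 := congrArg Matrix.det h1
  rw [Matrix.det_mul, Matrix.det_mul, Matrix.det_transpose, Matrix.det_one] at h2
  have h3 : (|M.det| * √Q.det) ^ 2 = 1 := by
    rw [mul_pow, sq_abs, sq_sqrt hQ.det_pos.le]; linarith
  exact (pow_eq_one_iff_of_nonneg (by positivity) two_ne_zero).1 h3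

/-- The rows of a whitening matrix are short when `η² ≤ Q`. -/
theorem whiten_row_le {Q M : Matrix ι ι ℝ} (hM : Mᵀ * Q * M = 1) {η : ℝ} (hη : 0 < η)
    (hQ : ∀ v : ι → ℝ, η ^ 2 * (v ⬝ᵥ v) ≤ v ⬝ᵥ (Q *ᵥ v)) (i : ι) :
    ∑ j, M i j ^ 2 ≤ 1 / η ^ 2 := by
  set z : ι → ℝ := fun j => M i j
  have hz : ∑ j, M i j ^ 2 = z ⬝ᵥ z := by simp [z, dotProduct, sq]
  have h1 : (M *ᵥ z) ⬝ᵥ (Q *ᵥ (M *ᵥ z)) = z ⬝ᵥ z := by
    calc (M *ᵥ z) ⬝ᵥ (Q *ᵥ (M *ᵥ z)) = z ⬝ᵥ ((Mᵀ * Q * M) *ᵥ z) := by
          rw [Matrix.mul_assoc, ← Matrix.mulVec_mulVec, ← Matrix.mulVec_mulVec,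
            Matrix.dotProduct_mulVec z Mᵀ, Matrix.vecMul_transpose]
      _ = z ⬝ᵥ z := by rw [hM, Matrix.one_mulVec]
  have h2 : (M *ᵥ z) i = z ⬝ᵥ z := rfl
  have h3 : (M *ᵥ z) i ^ 2 ≤ (M *ᵥ z) ⬝ᵥ (M *ᵥ z) := by
    rw [sq]
    exact Finset.single_le_sum (f := fun j => (M *ᵥ z) j * (M *ᵥ z) j)
      (fun j _ => mul_self_nonneg _) (Finset.mem_univ i)
  have h4 : η ^ 2 * (z ⬝ᵥ z) ^ 2 ≤ z ⬝ᵥ z := by
    rw [← h2]
    refine le_trans (mul_le_mul_of_nonneg_left h3 (sq_nonneg η)) ?_
    rw [h2, ← h1]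
    exact hQ _
  rw [hz, le_div_iff₀ (by positivity)]
  have h0 : (0 : ℝ) ≤ z ⬝ᵥ z := Finset.sum_nonneg fun j _ => mul_self_nonneg (z j)
  rcases h0.eq_or_lt with h | h
  · rw [← h]; simp
  · refine le_of_mul_le_mul_right ?_ h
    linarith

/-- Change of variables by a whitening matrix. -/
theorem lintegral_volume_whiten {Q M : Matrix ι ι ℝ} (hQ : Q.PosDef)
    (hM : |M.det| * √Q.det = 1) {σ : ℝ} (hσ : 0 < σ) {f : (ι → ℝ) → ℝ≥0∞} (hf : Measurable f) :
    ∫⁻ x, f x = ENNReal.ofReal ((√(2 * π) * σ) ^ Fintype.card ι / √Q.det)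
      * ∫⁻ z, f ((σ • M) *ᵥ z) * ENNReal.ofReal (exp ((∑ i, z i ^ 2) / 2)) ∂stdPi ι := by
  have hd : 0 < √Q.det := sqrt_pos.2 hQ.det_pos
  have hMd : |M.det| = (√Q.det)⁻¹ := eq_inv_of_mul_eq_one_left hM
  have hdet : |(σ • M).det| = σ ^ Fintype.card ι / √Q.det := by
    rw [Matrix.det_smul, abs_mul, hMd, abs_of_pos (pow_pos hσ _), div_eq_mul_inv]
  have hne : (σ • M).det ≠ 0 := fun h => by
    rw [h, abs_zero] at hdet
    have : 0 < σ ^ Fintype.card ι / √Q.det := by positivity
    linarith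
  have hmap := Real.map_matrix_volume_pi_eq_smul_volume_pi hne
  have hfc : Measurable fun x => f ((σ • M) *ᵥ x) :=
    hf.comp (by unfold Matrix.mulVec dotProduct; fun_prop)
  have h1 : ∫⁻ x, f ((σ • M) *ᵥ x) = ENNReal.ofReal |(σ • M).det⁻¹| * ∫⁻ x, f x := by
    have h := congrArg (fun μ : Measure (ι → ℝ) => ∫⁻ x, f x ∂μ) hmap
    rw [lintegral_map hf (Matrix.toLin' (σ • M)).continuous_of_finiteDimensional.measurable,
      lintegral_smul_measure, smul_eq_mul] at h
    simpa only [Matrix.toLin'_apply] using h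
  rw [lintegral_volume_eq_stdPi hfc] at h1
  have h2 := congrArg (fun a => ENNReal.ofReal |(σ • M).det| * a) h1
  simp only [← mul_assoc, ← ENNReal.ofReal_mul (abs_nonneg _), ← abs_mul, mul_inv_cancel₀ hne,
    abs_one, ENNReal.ofReal_one, one_mul] at h2
  rw [← h2, hdet, mul_pow]
  congr 2
  ring

end Vale.Agent.P150.Full.T
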