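import Vale.Agent.P150.Full.T.GaussQuad

/-!
# P150: smoothed small balls of linear images of the standard Gaussian vector

`E exp (-|B g - c|² / 2)` is largest at `c = 0`, equals the same average for the transpose, and is
small when `|Bᵀ z|²` dominates `a |z|²` up to a form of low rank.
-/

open MeasureTheory ProbabilityTheory Real Matrix
open scoped ENNReal NNReal

namespace Vale.Agent.P150.Full.T

/-- One coordinate: the square completed. -/
theorem lintegral_exp_quad {a : ℝ} (ha : 0 < 1 + a) (c : ℝ) :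
    ∫⁻ x, ENNReal.ofReal (exp (-(a * x ^ 2) / 2 + c * x)) ∂std
      = ENNReal.ofReal (exp (c ^ 2 / (2 * (1 + a))) / √(1 + a)) := by
  set v : ℝ≥0 := ⟨(1 + a)⁻¹, (inv_pos.2 ha).le⟩
  have hv : v ≠ 0 := fun h => (inv_pos.2 ha).ne' (congrArg NNReal.toReal h)
  have hv' : (v : ℝ) = (1 + a)⁻¹ := rfl
  rw [std, gaussianReal_of_var_ne_zero _ one_ne_zero,
    lintegral_withDensity_eq_lintegral_mul _ (measurable_gaussianPDF 0 1) (by fun_prop)]
  calc ∫⁻ x, (gaussianPDF 0 1 * fun x => ENNReal.ofReal (exp (-(a * x ^ 2) / 2 + c * x))) x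
      = ∫⁻ x, ENNReal.ofReal (exp (c ^ 2 / (2 * (1 + a))) / √(1 + a))
          * gaussianPDF (c / (1 + a)) v x := by
        refine lintegral_congr fun x => ?_
        simp only [Pi.mul_apply, gaussianPDF]
        rw [← ENNReal.ofReal_mul (gaussianPDFReal_nonneg 0 1 x),
          ← ENNReal.ofReal_mul (by positivity)]
        congr 1
        simp only [gaussianPDFReal, NNReal.coe_one, mul_one, sub_zero, hv']
        have hs : √(2 * π * (1 + a)⁻¹) = √(2 * π) / √(1 + a) := by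
          rw [sqrt_mul' _ (inv_pos.2 ha).le, sqrt_inv, div_eq_mul_inv]
        have he : exp (-x ^ 2 / 2) * exp (-(a * x ^ 2) / 2 + c * x)
            = exp (c ^ 2 / (2 * (1 + a))) * exp (-(x - c / (1 + a)) ^ 2 / (2 * (1 + a)⁻¹)) := by
          rw [← exp_add, ← exp_add]
          congr 1
          field_simp
          ring
        rw [hs, mul_assoc, he]
        field_simp
    _ = _ := by
        rw [lintegral_const_mul _ (measurable_gaussianPDF _ _), lintegral_gaussianPDF_eq_one _ hv,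
          mul_one]

variable {ι κ τ : Type*} [Fintype ι] [Fintype κ] [Fintype τ]

/-- The product form of `lintegral_exp_quad`. -/
theorem lintegral_exp_quad_vec {a : ℝ} (ha : 0 < 1 + a) (v : ι → ℝ) :
    ∫⁻ z, ENNReal.ofReal (exp (-(a * ∑ i, z i ^ 2) / 2 + ∑ i, v i * z i)) ∂stdPi ι
      = ENNReal.ofReal (exp ((∑ i, v i ^ 2) / (2 * (1 + a))) / √(1 + a) ^ Fintype.card ι) := by
  have e : ∀ z : ι → ℝ, ENNReal.ofReal (exp (-(a * ∑ i, z i ^ 2) / 2 + ∑ i, v i * z i))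
      = ∏ i, ENNReal.ofReal (exp (-(a * z i ^ 2) / 2 + v i * z i)) := fun z => by
    rw [← ENNReal.ofReal_prod_of_nonneg fun i _ => (exp_pos _).le, ← exp_sum,
      Finset.sum_add_distrib, Finset.mul_sum, ← Finset.sum_div, Finset.sum_neg_distrib]
  simp only [e, stdPi]
  rw [lintegral_prod_coord std (fun i x => ENNReal.ofReal (exp (-(a * x ^ 2) / 2 + v i * x)))
    fun i => by fun_prop]
  simp only [lintegral_exp_quad ha]
  rw [← ENNReal.ofReal_prod_of_nonneg fun i _ => by positivity, Finset.prod_div_distrib, ← exp_sum,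
    Finset.prod_const, Finset.card_univ, Finset.sum_div]

/-- The smoothed ball around `c`. -/
noncomputable def smoothBall (B : Matrix ι κ ℝ) (c : ι → ℝ) : ℝ≥0∞ :=
  ∫⁻ g, ENNReal.ofReal (exp (-((B *ᵥ g - c) ⬝ᵥ (B *ᵥ g - c)) / 2)) ∂stdPi κ

theorem measurable_smoothBall_integrand (B : Matrix ι κ ℝ) (c : ι → ℝ) :
    Measurable fun g => ENNReal.ofReal (exp (-((B *ᵥ g - c) ⬝ᵥ (B *ᵥ g - c)) / 2)) := by
  unfold Matrix.mulVec dotProduct
  fun_prop

theorem smoothBall_volume (B : Matrix ι κ ℝ) (c : ι → ℝ) :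
    smoothBall B c = ∫⁻ g, ENNReal.ofReal ((√(2 * π))⁻¹ ^ Fintype.card κ
      * exp (-((g ⬝ᵥ g) + (B *ᵥ g - c) ⬝ᵥ (B *ᵥ g - c)) / 2)) := by
  rw [smoothBall, stdPi_eq_withDensity, lintegral_withDensity_eq_lintegral_mul _ measurable_gdens
    (measurable_smoothBall_integrand B c)]
  refine lintegral_congr fun g => ?_
  simp only [Pi.mul_apply, gdens]
  rw [← ENNReal.ofReal_mul (by positivity), mul_assoc, ← exp_add]
  congr 3
  simp [dotProduct, sq]
  ring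

variable [DecidableEq κ]

theorem posDef_one_add (B : Matrix ι κ ℝ) : (1 + Bᵀ * B).PosDef := by
  refine Matrix.PosDef.add_posSemidef Matrix.PosDef.one ?_
  simpa using Matrix.posSemidef_conjTranspose_mul_self B

theorem one_add_quad (B : Matrix ι κ ℝ) (u : κ → ℝ) :
    u ⬝ᵥ ((1 + Bᵀ * B) *ᵥ u) = u ⬝ᵥ u + (B *ᵥ u) ⬝ᵥ (B *ᵥ u) := by
  rw [Matrix.add_mulVec, Matrix.one_mulVec, dotProduct_add, ← Matrix.mulVec_mulVec,
    Matrix.dotProduct_mulVec u Bᵀ, Matrix.vecMul_transpose]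

theorem smoothBall_le_zero (B : Matrix ι κ ℝ) (c : ι → ℝ) :
    smoothBall B c ≤ smoothBall B 0 := by
  set Q := 1 + Bᵀ * B with hQ
  set z0 := Q⁻¹ *ᵥ (Bᵀ *ᵥ c)
  have hz0 : Q *ᵥ z0 = Bᵀ *ᵥ c := by
    rw [Matrix.mulVec_mulVec, Matrix.mul_nonsing_inv _ (isUnit_iff_ne_zero.2 (posDef_one_add B).det_pos.ne'),
      Matrix.one_mulVec]
  have hs : z0 + Bᵀ *ᵥ (B *ᵥ z0 - c) = 0 := by
    have : z0 + Bᵀ *ᵥ (B *ᵥ z0) = Bᵀ *ᵥ c := by
      rw [← hz0, hQ, Matrix.add_mulVec, Matrix.one_mulVec, Matrix.mulVec_mulVec]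
    rw [Matrix.mulVec_sub, ← add_sub_assoc, this, sub_self]
  rw [smoothBall_volume, smoothBall_volume, ← lintegral_add_right_eq_self _ z0]
  refine lintegral_mono fun u => ENNReal.ofReal_le_ofReal ?_
  refine mul_le_mul_of_nonneg_left (exp_le_exp.2 ?_) (by positivity)
  set w := B *ᵥ z0 - c
  have e : B *ᵥ (u + z0) - c = B *ᵥ u + w := by rw [Matrix.mulVec_add, add_sub_assoc]
  have h1 : u ⬝ᵥ z0 + (B *ᵥ u) ⬝ᵥ w = 0 := by
    have h := congrArg (fun x => u ⬝ᵥ x) hs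
    simp only [dotProduct_add, dotProduct_zero, Matrix.dotProduct_mulVec u Bᵀ,
      Matrix.vecMul_transpose] at h
    exact h
  have h2 : 0 ≤ z0 ⬝ᵥ z0 := Finset.sum_nonneg fun i _ => mul_self_nonneg _
  have h3 : 0 ≤ w ⬝ᵥ w := Finset.sum_nonneg fun i _ => mul_self_nonneg _
  rw [e, sub_zero, add_dotProduct, dotProduct_add, dotProduct_add, add_dotProduct, dotProduct_add,
    dotProduct_add, dotProduct_comm z0 u, dotProduct_comm w (B *ᵥ u)]
  linarith

theorem smoothBall_zero_eq (B : Matrix ι κ ℝ) :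
    smoothBall B 0 = ENNReal.ofReal (√(1 + Bᵀ * B).det)⁻¹ := by
  set Q := 1 + Bᵀ * B
  have hQ := posDef_one_add B
  obtain ⟨M, hM, hdet⟩ := exists_whiten hQ
  have hm : Measurable fun g => ENNReal.ofReal ((√(2 * π))⁻¹ ^ Fintype.card κ
      * exp (-((g ⬝ᵥ g) + (B *ᵥ g - 0) ⬝ᵥ (B *ᵥ g - 0)) / 2)) := by
    unfold Matrix.mulVec dotProduct; fun_prop
  rw [smoothBall_volume, lintegral_volume_whiten hQ hdet one_pos hm]
  have e : ∀ z : κ → ℝ, ENNReal.ofReal ((√(2 * π))⁻¹ ^ Fintype.card κ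
      * exp (-((((1 : ℝ) • M) *ᵥ z ⬝ᵥ ((1 : ℝ) • M) *ᵥ z)
        + (B *ᵥ (((1 : ℝ) • M) *ᵥ z) - 0) ⬝ᵥ (B *ᵥ (((1 : ℝ) • M) *ᵥ z) - 0)) / 2))
      * ENNReal.ofReal (exp ((∑ i, z i ^ 2) / 2))
      = ENNReal.ofReal ((√(2 * π))⁻¹ ^ Fintype.card κ) := fun z => by
    have hq : (M *ᵥ z) ⬝ᵥ ((1 + Bᵀ * B) *ᵥ (M *ᵥ z)) = z ⬝ᵥ z := by
      calc (M *ᵥ z) ⬝ᵥ ((1 + Bᵀ * B) *ᵥ (M *ᵥ z))
          = z ⬝ᵥ ((Mᵀ * (1 + Bᵀ * B) * M) *ᵥ z) := by
            rw [Matrix.mul_assoc, ← Matrix.mulVec_mulVec, ← Matrix.mulVec_mulVec,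
              Matrix.dotProduct_mulVec z Mᵀ, Matrix.vecMul_transpose]
        _ = z ⬝ᵥ z := by rw [hM, Matrix.one_mulVec]
    rw [← ENNReal.ofReal_mul (by positivity), mul_assoc, ← exp_add, one_smul, sub_zero,
      ← one_add_quad B, hq]
    simp [dotProduct, sq, neg_div]
  simp only [e, lintegral_const, stdPi, measure_univ, mul_one]
  rw [← ENNReal.ofReal_mul (by positivity)]
  congr 1
  rw [div_mul_eq_mul_div, ← mul_pow, mul_inv_cancel₀ (by positivity), one_pow, one_div]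

theorem smoothBall_transpose [DecidableEq ι] (B : Matrix ι κ ℝ) :
    smoothBall B 0 = smoothBall Bᵀ 0 := by
  rw [smoothBall_zero_eq, smoothBall_zero_eq, Matrix.transpose_transpose,
    Matrix.det_one_add_mul_comm]

theorem measurePreserving_neg_stdPi :
    MeasurePreserving (fun x : ι → ℝ => -x) (stdPi ι) (stdPi ι) :=
  measurePreserving_pi (fun _ : ι => std) (fun _ : ι => std) (f := fun _ y => -y) fun _ =>
    ⟨measurable_neg, by rw [std, gaussianReal_map_neg, neg_zero]⟩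

omit [DecidableEq κ] in
/-- An independent shift costs at most its own weight. -/
theorem smoothBall_shift_ge (B : Matrix ι κ ℝ) (v : ι → ℝ) :
    ENNReal.ofReal (exp (-(v ⬝ᵥ v) / 2)) * smoothBall B 0
      ≤ ∫⁻ g, ENNReal.ofReal (exp (-((B *ᵥ g + v) ⬝ᵥ (B *ᵥ g + v)) / 2)) ∂stdPi κ := by
  set F := fun g : κ → ℝ => ENNReal.ofReal (exp (-((B *ᵥ g + v) ⬝ᵥ (B *ᵥ g + v)) / 2))
  have hF : Measurable F := by simp only [F]; unfold Matrix.mulVec dotProduct; fun_prop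
  have h2 : ∫⁻ g, F g + F (-g) ∂stdPi κ = 2 * ∫⁻ g, F g ∂stdPi κ := by
    rw [lintegral_add_left hF, measurePreserving_neg_stdPi.lintegral_comp hF, two_mul]
  refine le_of_not_gt fun hlt => ?_
  refine absurd h2 (ne_of_gt (lt_of_lt_of_le
    (ENNReal.mul_lt_mul_right two_ne_zero ENNReal.ofNat_ne_top hlt) ?_))
  rw [smoothBall, ← mul_assoc, ← lintegral_const_mul _ (measurable_smoothBall_integrand _ _)]
  refine lintegral_mono fun g => ?_
  rw [show (2 : ℝ≥0∞) = ENNReal.ofReal 2 by simp, ← ENNReal.ofReal_mul zero_le_two,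
    ← ENNReal.ofReal_mul (by positivity), ← ENNReal.ofReal_add (exp_pos _).le (exp_pos _).le]
  refine ENNReal.ofReal_le_ofReal ?_
  rw [sub_zero, Matrix.mulVec_neg, mul_assoc, ← exp_add]
  set u := B *ᵥ g
  simp only [add_dotProduct, dotProduct_add, neg_dotProduct, dotProduct_neg, neg_neg,
    dotProduct_comm v u]
  set A := -(v ⬝ᵥ v) / 2 + -(u ⬝ᵥ u) / 2
  set t := u ⬝ᵥ v
  have h1 := add_one_le_exp t
  have h3 := add_one_le_exp (-t)
  calc 2 * exp A ≤ exp A * (exp (-t) + exp t) := by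
        rw [mul_comm (2 : ℝ)]
        exact mul_le_mul_of_nonneg_left (by linarith) (exp_pos _).le
    _ = _ := by
        rw [mul_add, ← exp_add, ← exp_add]
        simp only [A]
        ring_nf

/-- The centred bound: `|C z|²` dominates `a |z|²` up to `b |M z|²`, a form of low rank. -/
theorem smoothBall_zero_le [DecidableEq ι] [DecidableEq τ] (C : Matrix κ ι ℝ) (M : Matrix τ ι ℝ)
    {a b L : ℝ} (ha : 0 ≤ a) (hb : 0 ≤ b) (hL : 0 ≤ L)
    (hC : ∀ z : ι → ℝ, a * (z ⬝ᵥ z) - b * ((M *ᵥ z) ⬝ᵥ (M *ᵥ z)) ≤ (C *ᵥ z) ⬝ᵥ (C *ᵥ z))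
    (hM : ∀ w : τ → ℝ, (Mᵀ *ᵥ w) ⬝ᵥ (Mᵀ *ᵥ w) ≤ L * (w ⬝ᵥ w)) :
    smoothBall C 0 ≤ ENNReal.ofReal
      (√(1 + b * L) ^ Fintype.card τ / √(1 + a) ^ Fintype.card ι) := by
  set D := √b • M
  set S := Matrix.fromRows C D
  have hup : smoothBall S 0 ≤ ENNReal.ofReal (1 / √(1 + a) ^ Fintype.card ι) := by
    have h := lintegral_exp_quad_vec (a := a) (by linarith) (0 : ι → ℝ)
    simp only [Pi.zero_apply, zero_mul, Finset.sum_const_zero, add_zero, ne_eq,
      OfNat.ofNat_ne_zero, not_false_eq_true, zero_pow, zero_div, exp_zero] at h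
    rw [← h]
    refine lintegral_mono fun z => ENNReal.ofReal_le_ofReal (exp_le_exp.2 ?_)
    have e1 : (S *ᵥ z) ⬝ᵥ (S *ᵥ z)
        = (C *ᵥ z) ⬝ᵥ (C *ᵥ z) + b * ((M *ᵥ z) ⬝ᵥ (M *ᵥ z)) := by
      simp only [S, D, Matrix.fromRows_mulVec, sumElim_dotProduct_sumElim, Matrix.smul_mulVec,
        smul_dotProduct, dotProduct_smul, smul_eq_mul, ← mul_assoc, mul_self_sqrt hb]
    have e2 : ∑ i, z i ^ 2 = z ⬝ᵥ z := by simp [dotProduct, sq]
    rw [sub_zero, e1, e2]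
    linarith [hC z]
  have hlow : ENNReal.ofReal (1 / √(1 + b * L) ^ Fintype.card τ) * smoothBall C 0
      ≤ smoothBall S 0 := by
    rw [smoothBall_transpose S, smoothBall_transpose C]
    have hmp := measurePreserving_sumPiEquivProdPi_symm (X := fun _ : κ ⊕ τ => ℝ) fun _ => std
    have hm := measurable_smoothBall_integrand Sᵀ 0
    rw [show smoothBall Sᵀ 0 = ∫⁻ g, ENNReal.ofReal (exp (-((Sᵀ *ᵥ g - 0) ⬝ᵥ (Sᵀ *ᵥ g - 0)) / 2))
        ∂stdPi (κ ⊕ τ) from rfl, stdPi, ← hmp.lintegral_comp hm]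
    rw [lintegral_prod_symm _ (by exact (hm.comp hmp.measurable).aemeasurable)]
    calc ENNReal.ofReal (1 / √(1 + b * L) ^ Fintype.card τ) * smoothBall Cᵀ 0
        = ∫⁻ w, ENNReal.ofReal (exp (-(b * L * ∑ i, w i ^ 2) / 2 + ∑ i, (0 : τ → ℝ) i * w i))
            * smoothBall Cᵀ 0 ∂stdPi τ := by
          rw [lintegral_mul_const _ (by fun_prop),
            lintegral_exp_quad_vec (by nlinarith [mul_nonneg hb hL])]
          simp
      _ ≤ _ := by
          refine lintegral_mono fun w => ?_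
          refine le_trans ?_ (le_trans (smoothBall_shift_ge Cᵀ (Dᵀ *ᵥ w)) (le_of_eq ?_))
          · refine mul_le_mul' (ENNReal.ofReal_le_ofReal (exp_le_exp.2 ?_)) le_rfl
            have e1 : (Dᵀ *ᵥ w) ⬝ᵥ (Dᵀ *ᵥ w) = b * ((Mᵀ *ᵥ w) ⬝ᵥ (Mᵀ *ᵥ w)) := by
              simp only [D, Matrix.transpose_smul, Matrix.smul_mulVec, smul_dotProduct,
                dotProduct_smul, smul_eq_mul, ← mul_assoc, mul_self_sqrt hb]
            have e2 : ∑ i, w i ^ 2 = w ⬝ᵥ w := by simp [dotProduct, sq]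
            simp only [Pi.zero_apply, zero_mul, Finset.sum_const_zero, add_zero]
            rw [e1, e2, mul_assoc]
            linarith [mul_le_mul_of_nonneg_left (hM w) hb]
          · refine lintegral_congr fun u => ?_
            have e : Sᵀ *ᵥ ((MeasurableEquiv.sumPiEquivProdPi fun _ : κ ⊕ τ => ℝ).symm (u, w))
                = Cᵀ *ᵥ u + Dᵀ *ᵥ w := by
              simp only [S, Matrix.transpose_fromRows, Matrix.fromCols_mulVec]
              rfl
            simp only [e, sub_zero]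
  have h := hlow.trans hup
  set Q := √(1 + b * L) ^ Fintype.card τ
  have hQ : 0 < Q := pow_pos (sqrt_pos.2 (by nlinarith [mul_nonneg hb hL])) _
  calc smoothBall C 0 = ENNReal.ofReal Q * (ENNReal.ofReal (1 / Q) * smoothBall C 0) := by
        rw [← mul_assoc, ← ENNReal.ofReal_mul hQ.le, mul_one_div_cancel hQ.ne', ENNReal.ofReal_one,
          one_mul]
    _ ≤ ENNReal.ofReal Q * ENNReal.ofReal (1 / √(1 + a) ^ Fintype.card ι) := mul_le_mul' le_rfl h
    _ = _ := by rw [← ENNReal.ofReal_mul hQ.le, mul_one_div]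

omit [DecidableEq κ] in
/-- Change of measure along `Bᵀ φ`. -/
theorem smoothBall_tilt [DecidableEq κ] (B : Matrix ι κ ℝ) (c φ : ι → ℝ) {α : ℝ} (hα : 0 < α)
    (hα1 : α < 1) :
    smoothBall B c ≤ ENNReal.ofReal (exp (-(φ ⬝ᵥ c) + (Bᵀ *ᵥ φ) ⬝ᵥ (Bᵀ *ᵥ φ) / 2
      + φ ⬝ᵥ φ / (2 * α))) * smoothBall (√(1 - α) • B) 0 := by
  refine le_trans ?_ (mul_le_mul_right (smoothBall_le_zero _
    (√(1 - α) • (c - B *ᵥ (Bᵀ *ᵥ φ)))) _)
  set v := Bᵀ *ᵥ φ
  have hpref : ∀ (A : Matrix ι κ ℝ) (e : ι → ℝ), Measurable fun g => ENNReal.ofReal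
      ((√(2 * π))⁻¹ ^ Fintype.card κ * exp (-((g ⬝ᵥ g) + (A *ᵥ g - e) ⬝ᵥ (A *ᵥ g - e)) / 2)) :=
    fun A e => by unfold Matrix.mulVec dotProduct; fun_prop
  rw [smoothBall_volume, smoothBall_volume, ← lintegral_add_right_eq_self _ v,
    ← lintegral_const_mul _ (hpref _ _)]
  refine lintegral_mono fun g => ?_
  rw [← ENNReal.ofReal_mul (exp_pos _).le]
  refine ENNReal.ofReal_le_ofReal ?_
  rw [mul_left_comm]
  refine mul_le_mul_of_nonneg_left ?_ (by positivity)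
  rw [← exp_add, exp_le_exp]
  set u := B *ᵥ (g + v) - c
  have e1 : (√(1 - α) • B) *ᵥ g - √(1 - α) • (c - B *ᵥ v) = √(1 - α) • u := by
    simp only [u, Matrix.smul_mulVec, Matrix.mulVec_add, smul_sub, smul_add]
    abel
  have e2 : g ⬝ᵥ v = φ ⬝ᵥ (B *ᵥ g) := by
    simp only [v]
    rw [Matrix.dotProduct_mulVec, Matrix.vecMul_transpose, dotProduct_comm]
  have e3 : v ⬝ᵥ v = φ ⬝ᵥ (B *ᵥ v) := by
    simp only [v]
    rw [Matrix.dotProduct_mulVec, Matrix.vecMul_transpose, dotProduct_comm]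
  have e4 : φ ⬝ᵥ u = φ ⬝ᵥ (B *ᵥ g) + φ ⬝ᵥ (B *ᵥ v) - φ ⬝ᵥ c := by
    simp only [u, Matrix.mulVec_add, dotProduct_sub, dotProduct_add]
  have h4 : 0 ≤ (α • u + φ) ⬝ᵥ (α • u + φ) := Finset.sum_nonneg fun i _ => mul_self_nonneg _
  have h5 : 0 ≤ α / 2 * (u ⬝ᵥ u) + φ ⬝ᵥ u + φ ⬝ᵥ φ / (2 * α) := by
    have e : α / 2 * (u ⬝ᵥ u) + φ ⬝ᵥ u + φ ⬝ᵥ φ / (2 * α)
        = (α • u + φ) ⬝ᵥ (α • u + φ) / (2 * α) := by
      rw [add_dotProduct, dotProduct_add, dotProduct_add, smul_dotProduct, dotProduct_smul,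
        smul_dotProduct, dotProduct_smul, dotProduct_comm u φ]
      simp only [smul_eq_mul]
      field_simp
      ring
    rw [e]; positivity
  rw [e1, smul_dotProduct, dotProduct_smul, smul_eq_mul, smul_eq_mul, ← mul_assoc,
    mul_self_sqrt (by linarith), add_dotProduct, dotProduct_add, dotProduct_add,
    dotProduct_comm v g, e2]
  linarith

end Vale.Agent.P150.Full.T
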