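import Vale.Agent.P150.Full.T.Channel
import Vale.Agent.P150.Beyond.Stability.Event

/-!
# P150, no traps for every `β < 1`: the interfaces of the modules

Statements only; see `notes/P150/helper7-03Dec-notrap-full.md`. Events are stated through the
outer measure of their failure sets, so that union bounds need no measurability.
-/

open Finset MeasureTheory Real Matrix
open Vale.Agent.P150.Fast
open Vale.Agent.P150.Beyond Vale.Agent.P150.Beyond.Stability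

namespace Vale.Agent.P150.Full.T

variable {n : ℕ}

/-! ## Notions -/

/-- With probability tending to one. -/
def Whp (P : ∀ n : ℕ, (Edge n → ℝ) → Prop) : Prop :=
  ∀ p : ℝ, 0 < p → ∃ n₀ : ℕ, ∀ n ≥ n₀, disorder n {g | ¬P n g} ≤ ENNReal.ofReal p

/-- The free energy of a law in the field `y`. -/
noncomputable def phiF (θ : ℝ) (g : Edge n → ℝ) (y : Fin n → ℝ) (ν : (Fin n → Bool) → ℝ) : ℝ :=
  freeE θ g ν - ∑ i, y i * bary ν i

/-- The Dirichlet form with the mean field `w = y + θ J m` held fixed. -/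
noncomputable def fisherW (θ : ℝ) (g : Edge n → ℝ) (w : Fin n → ℝ) (ν : (Fin n → Bool) → ℝ) : ℝ :=
  fisher θ g (fun i => w i - θ * couple g (bary ν) i) ν

/-- A critical point near `m` in terms of the mean field; the couplings do not enter. -/
def NearCritW (θ : ℝ) (w m : Fin n → ℝ) (ε : ℝ) : Prop :=
  ∃ h : Fin n → ℝ, ∑ i, (Real.tanh (h i) - m i) ^ 2 ≤ ε * n ∧
    ∑ i, (h i + θ ^ 2 * (1 - qOf (tanhVec h)) * Real.tanh (h i) - w i) ^ 2 ≤ ε * n

/-- The couplings as a matrix. -/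
noncomputable def coupMat (g : Edge n → ℝ) : Matrix (Fin n) (Fin n) ℝ := Matrix.of (skMat n 1 g)

/-- The Hessian of the TAP free energy as a matrix. -/
noncomputable def hessMat (θ : ℝ) (g : Edge n → ℝ) (x : Fin n → ℝ) : Matrix (Fin n) (Fin n) ℝ :=
  Matrix.diagonal (fun i => 1 / (1 - x i ^ 2) + θ ^ 2 * (1 - qOf x)) - θ • coupMat g -
    (2 * θ ^ 2 / n) • Matrix.vecMulVec x x

/-- The inverse Hessian. -/
noncomputable def resp (θ : ℝ) (g : Edge n → ℝ) (x : Fin n → ℝ) : Matrix (Fin n) (Fin n) ℝ :=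
  (hessMat θ g x)⁻¹

/-- `F (J + c) F`. -/
noncomputable def respK (c θ : ℝ) (g : Edge n → ℝ) (x : Fin n → ℝ) : Matrix (Fin n) (Fin n) ℝ :=
  resp θ g x * (coupMat g + c • 1) * resp θ g x

/-! ## N1: the channel (`A A^T = J + 5`)

`Channel.lean` and `ChannelFisher.lean` have composition, the martingales and (P1); `Top.lean` has
pinning. Still to prove: -/

/-- Sampling: the observation is `t Aᵀσ + √t z` with `σ` drawn from the law. -/
def ChannelShift : Prop :=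
  ∀ (n : ℕ) (A : Fin n → Fin n → ℝ) (t : ℝ), 0 ≤ t → ∀ ν : (Fin n → Bool) → ℝ, IsLaw ν →
    ∀ F : (Fin n → ℝ) → ℝ, Measurable F →
      (∀ x, Integrable (fun z => F fun k => t * chDir A x k + √t * z k) (stdPi (Fin n))) →
      ChInt ν A t F ∧
        chE ν A t F = ∑ x, ν x * ∫ z, F (fun k => t * chDir A x k + √t * z k) ∂stdPi (Fin n)

/-- Two independent children have nearly orthogonal increments of the mean. -/
def ChannelPair : Prop :=
  ∀ (n : ℕ) (A : Fin n → Fin n → ℝ) (t : ℝ), 0 ≤ t → ∀ ν : (Fin n → Bool) → ℝ, IsLaw ν →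
    chE ν A t (fun W => chE ν A t fun W' =>
      (∑ i, (bary (post ν A t W) i - bary ν i) * (bary (post ν A t W') i - bary ν i)) ^ 2) ≤ covSq ν

/-- (P2) The squared covariances summed along `N` steps of length `δ` are of order `n`. -/
def PurityChannel : Prop :=
  ∃ (C : ℝ) (p : ℕ), ∀ n ≥ 1, ∀ (g : Edge n → ℝ) (A : Fin n → Fin n → ℝ),
    IsRoot (skMat n 1 g) 5 3 A → OpBound g 3 →
      ∀ (N : ℕ) (δ : ℝ), 0 ≤ δ → (n : ℝ) ^ p * δ ≤ 1 → N * δ ≤ 1 →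
        ∀ ν : (Fin n → Bool) → ℝ, IsLaw ν →
          δ * ∑ k ∈ range N, chE ν A (k * δ) (fun W => covSq (post ν A (k * δ) W)) ≤
            2 * n + C * (n : ℝ) ^ p * √δ

/-- The drift of the free energy over one short step, from below. -/
def PhiStep : Prop :=
  ∃ (C : ℝ) (p : ℕ), ∀ n ≥ 1, ∀ (g : Edge n → ℝ) (A : Fin n → Fin n → ℝ),
    IsRoot (skMat n 1 g) 5 3 A → OpBound g 3 →
      ∀ t θ : ℝ, 0 ≤ t → t ≤ θ → θ ≤ 1 → (n : ℝ) ^ p * t ≤ 1 →
        ∀ (y : Fin n → ℝ) (ν : (Fin n → Bool) → ℝ), IsLaw ν →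
          phiF θ g y ν -
              t * (5 * n * (1 + qOf (bary ν)) / 2 + bil g (bary ν) (bary ν) / 2) -
              C * (n : ℝ) ^ p * (t * √t) ≤
            chE ν A t fun W => phiF (θ - t) g (chField A y W) (post ν A t W)

/-- The end of the channel: without couplings a nearly stationary law is nearly a product. -/
def ProductEnd : Prop :=
  ∀ ε : ℝ, 0 < ε → ∃ a : ℝ, 0 < a ∧ ∀ (n : ℕ) (g : Edge n → ℝ) (y : Fin n → ℝ)
    (ν : (Fin n → Bool) → ℝ), IsLaw ν → fisher 0 g y ν ≤ a * n →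
      excess 0 g ν ≤ ε * n ∧ ∑ i, (Real.tanh (y i) - bary ν i) ^ 2 ≤ ε * n

/-! ## N2: amplification -/

/-- If a combination of excess and Dirichlet form at fixed mean fields is at most `c` on a set of
pure laws with probability one half, it is at most `c + δ n` outside an exponentially small event.
The set does not depend on the couplings. -/
def Amplify : Prop :=
  ∀ Λ K δ : ℝ, 0 < δ → ∃ ρ : ℝ, 0 < ρ ∧ ∃ n₀ : ℕ, ∀ n ≥ n₀,
    ∀ S : Set (ℝ × (Fin n → ℝ) × ((Fin n → Bool) → ℝ)),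
      (∀ p ∈ S, 0 ≤ p.1 ∧ p.1 ≤ 1 ∧ IsLaw p.2.2 ∧ covSq p.2.2 ≤ ρ * (n : ℝ) ^ 2) →
      ∀ a b c : ℝ, |a| ≤ Λ → |b| ≤ Λ →
        disorder n {g | ∃ p ∈ S, c < a * excess p.1 g p.2.2 + b * fisherW p.1 g p.2.1 p.2.2} ≤
          ENNReal.ofReal (1 / 2) →
        disorder n {g | ∃ p ∈ S,
            c + δ * n < a * excess p.1 g p.2.2 + b * fisherW p.1 g p.2.1 p.2.2} ≤
          ENNReal.ofReal (Real.exp (-(K * n)))

/-! ## N3: resolvent events -/

/-- (U) The diagonal identities of the inverse Hessian, wherever it is positive definite. -/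
def RespBound : Prop :=
  ∀ β : ℝ, 0 ≤ β → β < 1 → ∀ γ : ℝ, 0 < γ → ∀ η : ℝ, 0 < η → Whp fun n g =>
    ∀ θ : ℝ, 0 ≤ θ → θ ≤ β → ∀ x : Fin n → ℝ, (∀ i, |x i| < 1) →
      (∀ v, γ * ∑ i, v i ^ 2 ≤ hess θ g x v) →
        ∑ i, (respK 5 θ g x i i / (1 - x i ^ 2) - (1 - x i ^ 2) *
          (5 + 2 * θ * (1 - qOf x) + θ ^ 2 / n * Matrix.trace (respK 5 θ g x))) ^ 2 ≤ η * n ∧
        |Matrix.trace (resp θ g x) - n * (1 - qOf x)| ≤ η * n ∧
        |Matrix.trace (resp θ g x * coupMat g) - θ * n * (1 - qOf x) ^ 2| ≤ η * n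

/-- (U_det) The regularised log determinant of the Jacobian of the TAP map. -/
def DetBound : Prop :=
  ∀ β : ℝ, 0 ≤ β → β < 1 → ∃ L : ℝ, 0 < L ∧ ∀ η : ℝ, 0 < η → η ≤ 1 → Whp fun n g =>
    ∀ θ : ℝ, 0 ≤ θ → θ ≤ β → ∀ x : Fin n → ℝ, (∀ i, |x i| < 1) →
      Real.log (Matrix.det
        ((hessMat θ g x * Matrix.diagonal fun i => 1 - x i ^ 2)ᵀ *
            (hessMat θ g x * Matrix.diagonal fun i => 1 - x i ^ 2) + η ^ 2 • 1)) / 2 ≤
        n * (θ ^ 2 * (1 - qOf x) ^ 2 / 2 + L * η ^ 2)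

/-- (Mar) The margin in a fixed ball of radius `4 r`, uniformly in the centre. -/
def Margin : Prop :=
  ∀ β : ℝ, 0 ≤ β → β < 1 → ∃ r : ℝ, 0 < r ∧ r ≤ 1 ∧ ∃ γ : ℝ, 0 < γ ∧ ∀ p : ℝ, 0 < p →
    ∃ n₀ : ℕ, ∀ n ≥ n₀, ∀ m : Fin n → ℝ, (∀ i, |m i| ≤ 1) →
      disorder n {g | ¬∀ θ : ℝ, 0 ≤ θ → θ ≤ β → ∀ x : Fin n → ℝ, (∀ i, |x i| < 1) →
        ∑ i, (x i - m i) ^ 2 ≤ 16 * r ^ 2 * n → ∀ v, γ * ∑ i, v i ^ 2 ≤ hess θ g x v} ≤
        ENNReal.ofReal p

/-! ## N6: counting -/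

/-- (Far) No `K` nearly orthogonal approximate solutions at distance `r` from `m`. -/
def FarBound : Prop :=
  ∀ β : ℝ, 0 ≤ β → β < 1 → ∀ r : ℝ, 0 < r → r ≤ 1 →
    ∃ ζ : ℝ, 0 < ζ ∧ ∃ (K : ℕ) (δ : ℝ), 0 < δ ∧ Whp fun n g =>
      ∀ θ : ℝ, 0 ≤ θ → θ ≤ β → ∀ m w : Fin n → ℝ, (∀ i, |m i| ≤ 1) →
        ¬∃ h : Fin K → Fin n → ℝ, ∀ a,
          r ^ 2 * n ≤ ∑ i, (Real.tanh (h a i) - m i) ^ 2 ∧
          |∑ i, m i * (Real.tanh (h a i) - m i)| ≤ δ * n ∧
          (∀ b, b ≠ a →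
            |∑ i, (Real.tanh (h a i) - m i) * (Real.tanh (h b i) - m i)| ≤ δ * n) ∧
          ∑ i, (h a i + θ ^ 2 * (1 - qOf (tanhVec (h a))) * Real.tanh (h a i) - w i -
            θ * couple g (fun j => Real.tanh (h a j) - m j) i) ^ 2 ≤ ζ * n

/-- (B) At zero field there is no approximate critical point of positive overlap. -/
def CritAtZero : Prop :=
  ∀ β : ℝ, 0 ≤ β → β < 1 → ∀ η : ℝ, 0 < η → ∃ ε : ℝ, 0 < ε ∧ Whp fun n g =>
    ∀ θ : ℝ, 0 ≤ θ → θ ≤ β → ∀ m : Fin n → ℝ, NearCrit θ g 0 m ε → qOf m ≤ η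

/-! ## The levels -/

/-- `ClaimA`, through failure sets. -/
def Level (β q₀ : ℝ) : Prop :=
  ∀ ε : ℝ, 0 < ε → ∃ a : ℝ, 0 < a ∧ ∃ ρ : ℝ, 0 < ρ ∧ Whp fun _ g => LevelAt β q₀ ε a ρ g

/-- Failure sets of small outer measure give the lower bound on the good set. -/
theorem Whp.good {P : ∀ n : ℕ, (Edge n → ℝ) → Prop} (h : Whp P) {η : ℝ} (hη : 0 < η) :
    ∃ n₀ : ℕ, ∀ n ≥ n₀, ENNReal.ofReal (1 - η) ≤ disorder n {g | P n g} := by
  obtain ⟨n₀, h₀⟩ := h η hη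
  refine ⟨n₀, fun n hn => ?_⟩
  have h1 : (1 : ENNReal) ≤ disorder n {g | P n g} + disorder n {g | ¬P n g} := by
    refine le_trans (le_of_eq ?_) (measure_union_le _ _)
    rw [show {g | P n g} ∪ {g | ¬P n g} = Set.univ from Set.union_compl_self _, disorder_eq, measure_univ]
  rcases lt_or_ge 1 η with h' | h'
  · rw [ENNReal.ofReal_of_nonpos (by linarith)]
    exact zero_le
  rw [ENNReal.ofReal_sub _ hη.le, ENNReal.ofReal_one, tsub_le_iff_right]
  exact h1.trans (add_le_add le_rfl (h₀ n hn))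

theorem claimA_of_level {β q₀ : ℝ} (h : Level β q₀) : ClaimA β q₀ := fun ε hε => by
  obtain ⟨a, ha, ρ, hρ, hw⟩ := h ε hε
  exact ⟨a, ha, ρ, hρ, fun η hη => hw.good hη⟩

/-! ## N4: the fixed cell -/

/-- Good laws with mean in the cell at `m₀` have no excess and sit at critical points. -/
def CellGood (β q₀ r ε a ρ : ℝ) (m₀ : Fin n → ℝ) (g : Edge n → ℝ) : Prop :=
  ∀ θ : ℝ, 0 ≤ θ → θ ≤ β → ∀ (y : Fin n → ℝ) (ν : (Fin n → Bool) → ℝ), IsGood θ g y a ρ ν →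
    q₀ ≤ qOf (bary ν) → ∑ i, (bary ν i - m₀ i) ^ 2 ≤ (r / 10) ^ 2 * n →
      excess θ g ν ≤ ε * n ∧ NearCrit θ g y (bary ν) ε

/-- The fixed cell lemma, uniformly in the cell. -/
def FixedCell : Prop :=
  ∀ β : ℝ, 0 ≤ β → β < 1 → ∃ r : ℝ, 0 < r ∧ r ≤ 1 ∧
    ∀ q₀ : ℝ, 0 ≤ q₀ → Level β (q₀ + r ^ 2 / 2) →
      ∀ ε : ℝ, 0 < ε → ∃ a : ℝ, 0 < a ∧ ∃ ρ : ℝ, 0 < ρ ∧ ∀ p : ℝ, 0 < p → ∃ n₀ : ℕ, ∀ n ≥ n₀,
        ∀ m₀ : Fin n → ℝ, (∀ i, |m₀ i| ≤ 1) →
          disorder n {g | ¬CellGood β q₀ r ε a ρ m₀ g} ≤ ENNReal.ofReal p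

/-- N4 (helper7): the fixed cell lemma from the channel and the events. -/
def CellFromModules : Prop :=
  ChannelShift → ChannelPair → PurityChannel → PhiStep → ProductEnd →
    RespBound → Margin → FarBound → FixedCell

/-! ## N7: the descent and the end -/

/-- The level descends by a fixed amount. -/
def Descent : Prop :=
  ∀ β : ℝ, 0 ≤ β → β < 1 → ∃ r : ℝ, 0 < r ∧ r ≤ 1 ∧
    ∀ q₀ : ℝ, 0 ≤ q₀ → Level β (q₀ + r ^ 2 / 2) → Level β q₀

/-- N7 (lead): cover the means by `exp (O(n))` cells; amplify with `(a, b) = (1, -Λ)` for the excess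
and with `(0, -1)`, on the laws without `NearCritW`, for the critical point. -/
def DescentFromCell : Prop :=
  FixedCell → Amplify → Descent

/-- N7 (lead): levels above one are empty, so the descent reaches zero; then `noTrap_of`. -/
def NoTrapFromDescent : Prop :=
  Descent → CritAtZero → NoTrap

/-- The modules give no traps. -/
theorem noTrap_of_modules (hCell : CellFromModules) (hStep : DescentFromCell)
    (hEnd : NoTrapFromDescent) (h1 : ChannelShift) (h2 : ChannelPair) (h4 : PurityChannel)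
    (h5 : PhiStep) (h6 : ProductEnd) (h8 : Amplify) (h9 : RespBound) (h10 : Margin)
    (h11 : FarBound) (h12 : CritAtZero) : NoTrap :=
  hEnd (hStep (hCell h1 h2 h4 h5 h6 h9 h10 h11) h8) h12

end Vale.Agent.P150.Full.T
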