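import Vale.Agent.P150.Full.T.LocalLawOp
import Vale.Agent.P150.Full.T.Pins

/-!
# P150: the smoothed resolvent of the local law and its exact difference identities
-/

open Finset
open scoped Matrix.Norms.L2Operator ComplexConjugate
open Vale.Agent.P150.Fast

namespace Vale.Agent.P150.Full.T

variable {n : ℕ}

/-- The parameters: strength, diagonal slope, smoothing and the square roots of the variances. -/
structure LawPar (n : ℕ) where
  θ : ℝ
  c : ℝ
  ε : ℝ
  b : Fin n → ℝ

/-- The admissible parameters at smoothing `ε`. -/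
structure LawPar.Ok (p : LawPar n) (ε : ℝ) : Prop where
  θ0 : 0 ≤ p.θ
  θ1 : p.θ ≤ 1
  cb : |p.c| ≤ 2
  eps : p.ε = ε
  b0 : ∀ i, 0 ≤ p.b i
  b1 : ∀ i, p.b i ≤ 1

/-- The couplings as a complex matrix. -/
noncomputable def cmat (g : Edge n → ℝ) : Matrix (Fin n) (Fin n) ℂ :=
  Matrix.of fun i j => (skMat n 1 g i j : ℂ)

/-- The diagonal matrix `b`. -/
noncomputable def bmat (b : Fin n → ℝ) : Matrix (Fin n) (Fin n) ℂ := Matrix.diagonal fun i => (b i : ℂ)

/-- The diagonal part `1 + c b^2 - i ε`. -/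
noncomputable def amat (p : LawPar n) : Matrix (Fin n) (Fin n) ℂ :=
  Matrix.diagonal fun i => ((1 + p.c * p.b i ^ 2 : ℝ) : ℂ) - (p.ε : ℂ) * Complex.I

/-- `b J b`. -/
noncomputable def kmat (p : LawPar n) (g : Edge n → ℝ) : Matrix (Fin n) (Fin n) ℂ :=
  bmat p.b * cmat g * bmat p.b

/-- The matrix to invert. -/
noncomputable def mmat (p : LawPar n) (g : Edge n → ℝ) : Matrix (Fin n) (Fin n) ℂ :=
  amat p - (p.θ : ℂ) • kmat p g

/-- The smoothed resolvent. -/
noncomputable def lres (p : LawPar n) (g : Edge n → ℝ) : Matrix (Fin n) (Fin n) ℂ := (mmat p g)⁻¹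

/-- `b G b`. -/
noncomputable def qmat (p : LawPar n) (g : Edge n → ℝ) : Matrix (Fin n) (Fin n) ℂ :=
  bmat p.b * lres p g * bmat p.b

/-- The residual of the local law. -/
noncomputable def lawRes (p : LawPar n) (g : Edge n → ℝ) (i : Fin n) : ℂ :=
  (kmat p g * lres p g) i i - (p.θ : ℂ) * ((qmat p g).trace / n) * qmat p g i i

theorem coupling_comm (g : Edge n → ℝ) (i j : Fin n) : skMat n 1 g i j = skMat n 1 g j i := by
  rw [skMat_eq, skMat_eq, gmat_symm]

theorem form_im {p : LawPar n} (g : Edge n → ℝ) (v : Fin n → ℂ) :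
    (∑ i, conj (v i) * (mmat p g).mulVec v i).im = -p.ε * esq v := by
  set s : Fin n → Fin n → ℝ := fun i j => p.θ * (p.b i * skMat n 1 g i j * p.b j)
  have e : ∀ i, conj (v i) * (mmat p g).mulVec v i
      = ((1 + p.c * p.b i ^ 2 : ℝ) - (p.ε : ℂ) * Complex.I) * (conj (v i) * v i)
        - ∑ j, (s i j : ℂ) * (conj (v i) * v j) := fun i => by
    rw [mmat, amat, kmat, Matrix.sub_mulVec, Matrix.smul_mulVec]
    simp only [Pi.sub_apply, Pi.smul_apply, Matrix.mulVec_diagonal, smul_eq_mul]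
    rw [mul_sub]
    congr 1
    · ring
    · simp only [Matrix.mulVec, dotProduct, bmat, Matrix.diagonal_mul, Matrix.mul_diagonal, cmat,
        Matrix.of_apply, Finset.mul_sum, s]
      push_cast
      exact Finset.sum_congr rfl fun j _ => by ring
  have hS : (∑ i, ∑ j, (s i j : ℂ) * (conj (v i) * v j)).im = 0 := by
    rw [← Complex.conj_eq_iff_im]
    simp only [map_sum, map_mul, Complex.conj_conj, Complex.conj_ofReal]
    rw [Finset.sum_comm]
    refine Finset.sum_congr rfl fun i _ => Finset.sum_congr rfl fun j _ => ?_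
    rw [show s j i = s i j by simp only [s]; rw [coupling_comm g j i]; ring]
    ring
  simp only [e, Finset.sum_sub_distrib, Complex.sub_im, hS, sub_zero, Complex.im_sum]
  rw [esq, Finset.mul_sum]
  refine Finset.sum_congr rfl fun i _ => ?_
  rw [← Complex.normSq_eq_conj_mul_self, Complex.normSq_eq_norm_sq]
  simp only [← Complex.ofReal_pow, Complex.mul_im, Complex.sub_re, Complex.sub_im, Complex.ofReal_re, Complex.ofReal_im, Complex.mul_re, Complex.I_re, Complex.I_im]
  ring

theorem lres_bound {p : LawPar n} (hε : 0 < p.ε) (g : Edge n → ℝ) :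
    IsUnit (mmat p g).det ∧ ‖lres p g‖ ≤ 1 / p.ε :=
  inv_of_coercive hε fun v => by
    have h := form_im (p := p) g v
    have h2 := Complex.abs_im_le_norm (∑ i, conj (v i) * (mmat p g).mulVec v i)
    rw [h, abs_mul, abs_neg, abs_of_pos hε, abs_of_nonneg (esq_nonneg v)] at h2
    exact h2

/-- The resolvent identity. -/
theorem lres_sub {p q : LawPar n} (hp : 0 < p.ε) (hq : 0 < q.ε) (g g' : Edge n → ℝ) :
    lres p g - lres q g' = lres p g * (mmat q g' - mmat p g) * lres q g' := by
  rw [mul_sub, sub_mul, lres, lres, Matrix.nonsing_inv_mul _ (lres_bound hp g).1, one_mul,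
    mul_assoc, Matrix.mul_nonsing_inv _ (lres_bound hq g').1, mul_one]

theorem kmat_sub (p : LawPar n) (g g' : Edge n → ℝ) :
    kmat p g - kmat p g' = bmat p.b * (cmat g - cmat g') * bmat p.b := by
  simp only [kmat]; noncomm_ring

theorem qmat_sub {p : LawPar n} (hp : 0 < p.ε) (g g' : Edge n → ℝ) :
    qmat p g - qmat p g' = (p.θ : ℂ) • (qmat p g * (cmat g - cmat g') * qmat p g') := by
  have h : lres p g - lres p g' = (p.θ : ℂ) • (lres p g * (kmat p g - kmat p g') * lres p g') := by
    rw [lres_sub hp hp, mmat, mmat, sub_sub_sub_cancel_left, ← smul_sub, mul_smul_comm, smul_mul_assoc]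
  calc qmat p g - qmat p g' = bmat p.b * (lres p g - lres p g') * bmat p.b := by
        simp only [qmat]; noncomm_ring
    _ = _ := by
        rw [h, kmat_sub, mul_smul_comm, smul_mul_assoc]
        simp only [qmat, mul_assoc]

/-- The cancellation that removes the couplings from the derivative. -/
theorem kres_sub {p : LawPar n} (hp : 0 < p.ε) (g g' : Edge n → ℝ) :
    kmat p g * lres p g - kmat p g' * lres p g'
      = amat p * lres p g * bmat p.b * (cmat g - cmat g') * (bmat p.b * lres p g') := by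
  have h : lres p g - lres p g' = (p.θ : ℂ) • (lres p g * (kmat p g - kmat p g') * lres p g') := by
    rw [lres_sub hp hp, mmat, mmat, sub_sub_sub_cancel_left, ← smul_sub, mul_smul_comm, smul_mul_assoc]
  have h1 : amat p * lres p g = 1 + (p.θ : ℂ) • (kmat p g * lres p g) := by
    have h2 := Matrix.mul_nonsing_inv _ (lres_bound hp g).1
    rw [← lres, mmat, sub_mul, smul_mul_assoc] at h2
    exact sub_eq_iff_eq_add.1 h2
  calc kmat p g * lres p g - kmat p g' * lres p g'
      = (kmat p g - kmat p g') * lres p g' + kmat p g * (lres p g - lres p g') := by noncomm_ring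
    _ = (1 + (p.θ : ℂ) • (kmat p g * lres p g)) * ((kmat p g - kmat p g') * lres p g') := by
        rw [h, add_mul, one_mul, smul_mul_assoc, mul_smul_comm]; simp only [mul_assoc]
    _ = _ := by rw [← h1, kmat_sub]; simp only [mul_assoc]

/-- The diagonal identity of the resolvent. -/
theorem lres_diag {p : LawPar n} (hp : 0 < p.ε) (g : Edge n → ℝ) (i : Fin n) :
    ((1 + p.c * p.b i ^ 2 : ℝ) - (p.ε : ℂ) * Complex.I) * lres p g i i
      - (p.θ : ℂ) * (kmat p g * lres p g) i i = 1 := by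
  have h2 := congrFun (congrFun (Matrix.mul_nonsing_inv _ (lres_bound hp g).1) i) i
  rw [← lres, mmat, sub_mul, smul_mul_assoc, Matrix.sub_apply, Matrix.smul_apply, amat,
    Matrix.diagonal_mul, Matrix.one_apply_eq, smul_eq_mul] at h2
  exact h2

theorem norm_bmat_le {p : LawPar n} {ε : ℝ} (h : p.Ok ε) : ‖bmat p.b‖ ≤ 1 := by
  rw [bmat, Matrix.l2_opNorm_diagonal]
  refine (pi_norm_le_iff_of_nonneg zero_le_one).2 fun i => ?_
  rw [Complex.norm_real, Real.norm_of_nonneg (h.b0 i)]
  exact h.b1 i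

theorem norm_amat_le {p : LawPar n} {ε : ℝ} (h : p.Ok ε) (hε0 : 0 < ε) (hε : ε ≤ 1) : ‖amat p‖ ≤ 4 := by
  rw [amat, Matrix.l2_opNorm_diagonal]
  refine (pi_norm_le_iff_of_nonneg (by norm_num)).2 fun i => ?_
  refine (norm_sub_le _ _).trans ?_
  rw [Complex.norm_real, norm_mul, Complex.norm_real, Complex.norm_I, mul_one, Real.norm_eq_abs,
    Real.norm_eq_abs, h.eps, abs_of_pos hε0]
  have hb : p.b i ^ 2 ≤ 1 := pow_le_one₀ (h.b0 i) (h.b1 i)
  have hc := (abs_mul p.c (p.b i ^ 2)).trans_le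
    (mul_le_mul h.cb ((abs_of_nonneg (sq_nonneg (p.b i))).trans_le hb) (abs_nonneg _) zero_le_two)
  have := abs_add_le (1 : ℝ) (p.c * p.b i ^ 2)
  rw [abs_one] at this
  linarith

theorem norm_lres_le {p : LawPar n} {ε : ℝ} (h : p.Ok ε) (hε : 0 < ε) (g : Edge n → ℝ) :
    ‖lres p g‖ ≤ 1 / ε := by
  have := (lres_bound (p := p) (h.eps.symm ▸ hε) g).2
  rwa [h.eps] at this

theorem norm_qmat_le {p : LawPar n} {ε : ℝ} (h : p.Ok ε) (hε : 0 < ε) (g : Edge n → ℝ) :
    ‖qmat p g‖ ≤ 1 / ε := by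
  refine (norm_mul_le _ _).trans ((mul_le_of_le_one_right (norm_nonneg _) (norm_bmat_le h)).trans ?_)
  exact (norm_mul_le _ _).trans ((mul_le_of_le_one_left (norm_nonneg _) (norm_bmat_le h)).trans
    (norm_lres_le h hε g))

end Vale.Agent.P150.Full.T
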