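import Mathlib

/-!
# P150: operator norm bounds for complex matrices used in the local law
-/

open Finset
open scoped Matrix.Norms.L2Operator ComplexConjugate

namespace Vale.Agent.P150.Full.T

variable {n : ℕ}

/-- The square of the Euclidean norm. -/
noncomputable def esq (v : Fin n → ℂ) : ℝ := ∑ i, ‖v i‖ ^ 2

theorem esq_nonneg (v : Fin n → ℂ) : 0 ≤ esq v := Finset.sum_nonneg fun i _ => sq_nonneg _

theorem norm_toLp_sq (v : Fin n → ℂ) : ‖(WithLp.toLp 2 v : EuclideanSpace ℂ (Fin n))‖ ^ 2 = esq v := by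
  rw [EuclideanSpace.norm_sq_eq]; rfl

theorem esq_mulVec_le (A : Matrix (Fin n) (Fin n) ℂ) (v : Fin n → ℂ) :
    esq (A.mulVec v) ≤ ‖A‖ ^ 2 * esq v := by
  have h := A.l2_opNorm_mulVec (WithLp.toLp 2 v)
  have h2 := pow_le_pow_left₀ (norm_nonneg _) h 2
  rwa [mul_pow, norm_toLp_sq, norm_toLp_sq] at h2

theorem opNorm_le_of_esq {A : Matrix (Fin n) (Fin n) ℂ} {L : ℝ} (hL : 0 ≤ L)
    (h : ∀ v, esq (A.mulVec v) ≤ L ^ 2 * esq v) : ‖A‖ ≤ L := by
  rw [Matrix.cstar_norm_def]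
  refine ContinuousLinearMap.opNorm_le_bound _ hL fun x => ?_
  refine le_of_pow_le_pow_left₀ two_ne_zero (by positivity) ?_
  rw [mul_pow]
  have e : ‖x‖ ^ 2 = esq x.ofLp := by rw [← norm_toLp_sq]
  rw [e, show (Matrix.toEuclideanCLM (n := Fin n) (𝕜 := ℂ) A) x
    = WithLp.toLp 2 (A.mulVec x.ofLp) from by
      rw [← Matrix.ofLp_toEuclideanCLM], norm_toLp_sq]
  exact h _

theorem col_sq_le (A : Matrix (Fin n) (Fin n) ℂ) (j : Fin n) : ∑ i, ‖A i j‖ ^ 2 ≤ ‖A‖ ^ 2 := by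
  classical
  have h := esq_mulVec_le A (Pi.single j 1)
  have e : esq (Pi.single (M := fun _ => ℂ) j 1) = 1 := by
    rw [esq, Finset.sum_eq_single j (fun i _ hi => by simp [Pi.single_eq_of_ne hi]) (by simp)]
    simp
  rw [e, mul_one] at h
  simpa [esq, Matrix.mulVec_single] using h

theorem entry_le (A : Matrix (Fin n) (Fin n) ℂ) (i j : Fin n) : ‖A i j‖ ≤ ‖A‖ := by
  refine le_of_pow_le_pow_left₀ two_ne_zero (norm_nonneg _) (le_trans ?_ (col_sq_le A j))
  exact Finset.single_le_sum (f := fun k => ‖A k j‖ ^ 2) (fun k _ => sq_nonneg _) (Finset.mem_univ i)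

theorem norm_trace_div_le (A : Matrix (Fin n) (Fin n) ℂ) : ‖A.trace / n‖ ≤ ‖A‖ := by
  rcases Nat.eq_zero_or_pos n with h | h
  · subst h; simp
  rw [norm_div, Complex.norm_natCast, div_le_iff₀ (by exact_mod_cast h)]
  refine (norm_sum_le _ _).trans ((Finset.sum_le_sum fun i _ => entry_le A i i).trans (le_of_eq ?_))
  simp [mul_comm]

/-- The Frobenius norm. -/
noncomputable def frob (E : Matrix (Fin n) (Fin n) ℂ) : ℝ := √(∑ i, ∑ j, ‖E i j‖ ^ 2)

theorem norm_trace_mul_le (A E : Matrix (Fin n) (Fin n) ℂ) :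
    ‖(A * E).trace‖ ≤ √(n : ℝ) * ‖A‖ * frob E := by
  simp only [Matrix.trace, Matrix.diag_apply, Matrix.mul_apply]
  refine (norm_sum_le _ _).trans ?_
  have h1 : ∑ i, ‖∑ j, A i j * E j i‖ ≤ ∑ p : Fin n × Fin n, ‖A p.1 p.2‖ * ‖E p.2 p.1‖ := by
    rw [Fintype.sum_prod_type]
    exact Finset.sum_le_sum fun i _ => (norm_sum_le _ _).trans_eq (by simp)
  refine h1.trans ((Real.sum_mul_le_sqrt_mul_sqrt _ _ _).trans ?_)
  refine mul_le_mul ?_ (le_of_eq ?_) (Real.sqrt_nonneg _) (by positivity)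
  · rw [← Real.sqrt_sq (show 0 ≤ √(n : ℝ) * ‖A‖ by positivity), mul_pow,
      Real.sq_sqrt (Nat.cast_nonneg n)]
    refine Real.sqrt_le_sqrt ?_
    rw [Fintype.sum_prod_type, Finset.sum_comm]
    refine (Finset.sum_le_sum fun j _ => col_sq_le A j).trans (le_of_eq ?_)
    simp
  · rw [frob, Fintype.sum_prod_type, Finset.sum_comm]

/-- A weighted diagonal sum of a sandwich. -/
theorem norm_wsum_le {w : Fin n → ℂ} (hw : ∀ i, ‖w i‖ ≤ 1) (P E R : Matrix (Fin n) (Fin n) ℂ) :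
    ‖∑ i, w i * (P * E * R) i i‖ ≤ √(n : ℝ) * (‖P‖ * ‖R‖) * frob E := by
  have e : ∑ i, w i * (P * E * R) i i = ((R * Matrix.diagonal w * P) * E).trace := by
    rw [Matrix.mul_assoc (R * Matrix.diagonal w) P E, Matrix.trace_mul_cycle]
    simp [Matrix.trace, Matrix.diagonal, Matrix.mul_apply, mul_comm]
  rw [e]
  refine (norm_trace_mul_le _ _).trans (mul_le_mul_of_nonneg_right (mul_le_mul_of_nonneg_left ?_
    (Real.sqrt_nonneg _)) (Real.sqrt_nonneg _))
  refine (norm_mul_le _ _).trans ?_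
  have hd : ‖Matrix.diagonal w‖ ≤ 1 := by
    rw [Matrix.l2_opNorm_diagonal]
    exact (pi_norm_le_iff_of_nonneg zero_le_one).2 hw
  rw [mul_comm ‖P‖]
  refine mul_le_mul_of_nonneg_right ((norm_mul_le _ _).trans ?_) (norm_nonneg _)
  exact mul_le_of_le_one_right (norm_nonneg _) hd

/-- A coercive matrix is invertible with a bounded inverse. -/
theorem inv_of_coercive {M : Matrix (Fin n) (Fin n) ℂ} {ε : ℝ} (hε : 0 < ε)
    (h : ∀ v : Fin n → ℂ, ε * esq v ≤ ‖∑ i, conj (v i) * M.mulVec v i‖) :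
    IsUnit M.det ∧ ‖M⁻¹‖ ≤ 1 / ε := by
  have key : ∀ v : Fin n → ℂ, ε ^ 2 * esq v ≤ esq (M.mulVec v) := fun v => by
    have h1 : ‖∑ i, conj (v i) * M.mulVec v i‖ ≤ √(esq v) * √(esq (M.mulVec v)) := by
      refine (norm_sum_le _ _).trans ?_
      simp only [norm_mul, Complex.norm_conj]
      exact Real.sum_mul_le_sqrt_mul_sqrt _ _ _
    have h2 := pow_le_pow_left₀ (mul_nonneg hε.le (esq_nonneg v)) ((h v).trans h1) 2
    rw [mul_pow, mul_pow, Real.sq_sqrt (esq_nonneg _), Real.sq_sqrt (esq_nonneg _)] at h2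
    rcases (esq_nonneg v).eq_or_lt with h0 | h0
    · rw [← h0]; simpa using esq_nonneg (M.mulVec v)
    · refine le_of_mul_le_mul_left ?_ h0
      linarith
  have hdet : IsUnit M.det := by
    rw [← Matrix.isUnit_iff_isUnit_det, ← Matrix.mulVec_injective_iff_isUnit]
    intro u v huv
    have h0 := key (u - v)
    rw [Matrix.mulVec_sub, huv, sub_self] at h0
    have h1 : esq (u - v) = 0 := le_antisymm (by
      have : esq (0 : Fin n → ℂ) = 0 := by simp [esq]
      rw [this] at h0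
      exact nonpos_of_mul_nonpos_right h0 (by positivity)) (esq_nonneg _)
    funext i
    have := (Finset.sum_eq_zero_iff_of_nonneg fun i _ => sq_nonneg _).1 h1 i (Finset.mem_univ i)
    simpa [sub_eq_zero] using this
  refine ⟨hdet, opNorm_le_of_esq (by positivity) fun v => ?_⟩
  have h0 := key (M⁻¹.mulVec v)
  rw [Matrix.mulVec_mulVec, Matrix.mul_nonsing_inv _ hdet, Matrix.one_mulVec] at h0
  rw [div_pow, one_pow, div_mul_eq_mul_div, one_mul, le_div_iff₀' (by positivity)]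
  exact h0

end Vale.Agent.P150.Full.T
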