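import Vale.Agent.P150.Full.T.MarginTail
import Vale.Agent.P150.Full.Defs
import Vale.Agent.P150.Beyond.Stability.Event

/-!
# P150: the margin of the TAP Hessian on a ball around fixed magnetisations, at every strength below one

`Mar(m)`: for fixed `m` and outside an exponentially small event the Hessian at every `x` of a mean
square neighbourhood of `m` is at least `γ`, for every `θ ≤ β < 1`.
-/

open Finset MeasureTheory Real

namespace Vale.Agent.P150.Full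

open Vale.Agent.P150 Vale.Agent.P150.Fast Vale.Agent.P150.Beyond Vale.Agent.P150.Beyond.Stability

variable {n : ℕ}

/-- The diagonal weight at slack `δ`. -/
noncomputable def slackD (δ x : ℝ) : ℝ := (1 - x ^ 2) / (1 - δ * (1 - x ^ 2))

theorem slackD_bounds {δ x : ℝ} (hδ : 0 ≤ δ) (hδ2 : δ ≤ 1 / 2) (hx : |x| ≤ 1) :
    0 ≤ slackD δ x ∧ slackD δ x ≤ 2 ∧
      slackD δ x - (1 - x ^ 2) ≤ δ / (1 - δ) ∧ x ^ 2 * slackD δ x ≤ 1 / (4 * (1 - δ)) := by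
  have hD0 : 0 ≤ 1 - x ^ 2 := sub_nonneg.2 ((sq_le_one_iff_abs_le_one x).2 hx)
  have hD1 : 1 - x ^ 2 ≤ 1 := by linarith [sq_nonneg x]
  set D := 1 - x ^ 2
  have hden : 1 - δ ≤ 1 - δ * D := by linarith [mul_le_of_le_one_right hδ hD1]
  have hden0 : 0 < 1 - δ * D := by linarith
  unfold slackD
  refine ⟨div_nonneg hD0 hden0.le, ?_, ?_, ?_⟩
  · rw [div_le_iff₀ hden0]; linarith
  · rw [show D / (1 - δ * D) - D = δ * D ^ 2 / (1 - δ * D) by
      rw [eq_div_iff hden0.ne', sub_mul, div_mul_cancel₀ _ hden0.ne']; ring]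
    exact div_le_div₀ hδ (mul_le_of_le_one_right hδ (pow_le_one₀ hD0 hD1)) (by linarith) hden
  · rw [mul_div_assoc', show (1 : ℝ) / (4 * (1 - δ)) = (1 / 4) / (1 - δ) by rw [div_div]]
    refine div_le_div₀ (by norm_num) ?_ (by linarith) hden
    nlinarith [sq_nonneg (x ^ 2 - 1 / 2)]

theorem slackD_lip {δ x y : ℝ} (hδ : 0 ≤ δ) (hδ2 : δ ≤ 1 / 2) (hx : |x| ≤ 1) (hy : |y| ≤ 1) :
    |(1 - x ^ 2) - (1 - y ^ 2)| ≤ 2 * |x - y| ∧
      |x * slackD δ x - y * slackD δ y| ≤ 10 * |x - y| := by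
  have hD : |(1 - x ^ 2) - (1 - y ^ 2)| ≤ 2 * |x - y| := by
    rw [show (1 - x ^ 2) - (1 - y ^ 2) = (y - x) * (y + x) by ring, abs_mul, abs_sub_comm, mul_comm]
    exact mul_le_mul_of_nonneg_right ((abs_add_le y x).trans (by linarith)) (abs_nonneg _)
  refine ⟨hD, ?_⟩
  have hb : ∀ w : ℝ, |w| ≤ 1 → 1 / 2 ≤ 1 - δ * (1 - w ^ 2) := fun w hw => by
    have := mul_le_of_le_one_right hδ (show 1 - w ^ 2 ≤ 1 by linarith [sq_nonneg w])
    linarith
  have h1 := hb x hx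
  have h2 := hb y hy
  have hf : |slackD δ x - slackD δ y| ≤ 4 * |(1 - x ^ 2) - (1 - y ^ 2)| := by
    unfold slackD
    rw [show (1 - x ^ 2) / (1 - δ * (1 - x ^ 2)) - (1 - y ^ 2) / (1 - δ * (1 - y ^ 2)) =
        ((1 - x ^ 2) - (1 - y ^ 2)) / ((1 - δ * (1 - x ^ 2)) * (1 - δ * (1 - y ^ 2))) by
      rw [div_sub_div _ _ (by linarith) (by linarith)]; ring_nf]
    rw [abs_div, abs_of_pos (mul_pos (by linarith : (0:ℝ) < 1 - δ * (1 - x ^ 2)) (by linarith : (0:ℝ) < 1 - δ * (1 - y ^ 2))), div_le_iff₀ (mul_pos (by linarith) (by linarith))]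
    have h4 : 1 ≤ 4 * ((1 - δ * (1 - x ^ 2)) * (1 - δ * (1 - y ^ 2))) := by
      nlinarith [mul_le_mul h1 h2 (by norm_num) (by linarith)]
    calc |(1 - x ^ 2) - (1 - y ^ 2)| = |(1 - x ^ 2) - (1 - y ^ 2)| * 1 := (mul_one _).symm
      _ ≤ |(1 - x ^ 2) - (1 - y ^ 2)| * (4 * ((1 - δ * (1 - x ^ 2)) * (1 - δ * (1 - y ^ 2)))) :=
          mul_le_mul_of_nonneg_left h4 (abs_nonneg _)
      _ = _ := by ring
  obtain ⟨hy0, hy1, -, -⟩ := slackD_bounds hδ hδ2 hy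
  rw [show x * slackD δ x - y * slackD δ y
      = x * (slackD δ x - slackD δ y) + (x - y) * slackD δ y by ring]
  refine (abs_add_le _ _).trans ?_
  rw [abs_mul, abs_mul, abs_of_nonneg hy0]
  have h3 := mul_le_mul hx hf (abs_nonneg _) zero_le_one
  have h4 := mul_le_mul_of_nonneg_left hy1 (abs_nonneg (x - y))
  linarith

/-- What the comparison vector has to satisfy. -/
structure SideGood (δ κ M : ℝ) (z m : Fin n → ℝ) : Prop where
  sq : ∑ i, (z i ^ 2 - 1) ≤ κ * n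
  wsq : ∑ i, (z i ^ 2 - 1) * (1 - m i ^ 2) ≤ κ * n
  lin : |∑ i, z i * (m i * slackD δ (m i))| ≤ κ * n
  top : ∑ i, max (z i ^ 2 - M) 0 ≤ κ * n

theorem abs_sum_le_sqrt {f g : Fin n → ℝ} {A B : ℝ} (hf : ∑ i, f i ^ 2 ≤ A) (hg : ∑ i, g i ^ 2 ≤ B) :
    |∑ i, f i * g i| ≤ √(A * B) :=
  Real.le_sqrt_of_sq_le (by
    rw [sq_abs]
    exact (Finset.sum_mul_sq_le_sq_mul_sq univ f g).trans (mul_le_mul hf hg
      (Finset.sum_nonneg fun i _ => sq_nonneg _)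
      ((Finset.sum_nonneg fun i _ => sq_nonneg _).trans hf)))

/-- The statistics at a nearby point. -/
theorem near_stats {δ κ M r : ℝ} (hδ : 0 ≤ δ) (hδ2 : δ ≤ 1 / 2) (hκ : κ ≤ 1) (hM : 0 ≤ M) (hr : 0 ≤ r)
    {z m x : Fin n → ℝ} (hz : SideGood δ κ M z m) (hm : ∀ i, |m i| ≤ 1) (hx : ∀ i, |x i| ≤ 1)
    (hd : ∑ i, (x i - m i) ^ 2 ≤ r * n) :
    ∑ i, (z i ^ 2 - 1) * (1 - x i ^ 2) ≤ (2 * κ + 2 * (M + 1) * √r) * n ∧
      |∑ i, z i * (x i * slackD δ (x i))| ≤ (κ + 15 * √r) * n := by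
  have hn : (0 : ℝ) ≤ n := Nat.cast_nonneg n
  have hl1 : ∑ i, |x i - m i| ≤ √r * n := by
    have h := abs_sum_le_sqrt (f := fun i => |x i - m i|) (g := fun _ => (1 : ℝ)) (B := (n : ℝ))
      (by simpa only [sq_abs] using hd) (by simp)
    rw [show r * n * n = r * (n : ℝ) ^ 2 by ring, sqrt_mul hr, sqrt_sq hn] at h
    refine le_trans (le_of_eq ?_) h
    rw [abs_of_nonneg (Finset.sum_nonneg fun i _ => by positivity)]
    simp
  constructor
  · have hp : ∀ i, (z i ^ 2 - 1) * (1 - x i ^ 2) ≤ (z i ^ 2 - 1) * (1 - m i ^ 2)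
        + (max (z i ^ 2 - M) 0 + 2 * (M + 1) * |x i - m i|) := fun i => by
      set u := (1 - x i ^ 2) - (1 - m i ^ 2)
      have hu : |u| ≤ 2 * |x i - m i| := (slackD_lip hδ hδ2 (hx i) (hm i)).1
      have hu1 : |u| ≤ 1 := by
        rw [abs_le]
        have := (sq_le_one_iff_abs_le_one (x i)).2 (hx i)
        have := (sq_le_one_iff_abs_le_one (m i)).2 (hm i)
        constructor <;> simp only [u] <;> linarith [sq_nonneg (x i), sq_nonneg (m i)]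
      have h1 : (z i ^ 2 - 1) * u ≤ max (z i ^ 2 - M) 0 + (M + 1) * |u| := by
        refine (le_abs_self _).trans ?_
        rw [abs_mul]
        have hz1 : |z i ^ 2 - 1| ≤ (z i ^ 2 - M) + (M + 1) := by
          rw [abs_le]; constructor <;> linarith [sq_nonneg (z i)]
        refine (mul_le_mul_of_nonneg_right hz1 (abs_nonneg u)).trans ?_
        rw [add_mul]
        refine add_le_add_left ?_ _
        exact (mul_le_mul_of_nonneg_right (le_max_left _ 0) (abs_nonneg u)).trans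
          (mul_le_of_le_one_right (le_max_right _ _) hu1)
      have h2 := mul_le_mul_of_nonneg_left hu (show (0 : ℝ) ≤ M + 1 by linarith)
      simp only [u] at h1 h2
      nlinarith
    refine (Finset.sum_le_sum fun i _ => hp i).trans ?_
    rw [Finset.sum_add_distrib, Finset.sum_add_distrib, ← Finset.mul_sum]
    have := mul_le_mul_of_nonneg_left hl1 (show (0 : ℝ) ≤ 2 * (M + 1) by linarith)
    linarith [hz.wsq, hz.top]
  · have hsq : ∑ i, z i ^ 2 ≤ 2 * n := by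
      have := hz.sq
      rw [Finset.sum_sub_distrib] at this
      simp only [Finset.sum_const, Finset.card_univ, Fintype.card_fin, nsmul_eq_mul, mul_one] at this
      linarith [mul_le_of_le_one_left hn hκ]
    have hg : ∑ i, (x i * slackD δ (x i) - m i * slackD δ (m i)) ^ 2 ≤ 100 * r * n := by
      refine (Finset.sum_le_sum fun i _ => ?_).trans
        (((Finset.mul_sum univ (fun i => (x i - m i) ^ 2) (100 : ℝ)).symm.le).trans (by linarith))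
      have := pow_le_pow_left₀ (abs_nonneg _) (slackD_lip hδ hδ2 (hx i) (hm i)).2 2
      rw [sq_abs, mul_pow, sq_abs] at this
      linarith
    have h := abs_sum_le_sqrt hsq hg
    rw [show 2 * (n : ℝ) * (100 * r * n) = (200 * r) * (n : ℝ) ^ 2 by ring, sqrt_mul (by positivity),
      sqrt_sq hn] at h
    have h15 : √(200 * r) ≤ 15 * √r := by
      rw [show (15 : ℝ) * √r = √(225 * r) by
        rw [sqrt_mul (by norm_num), show (225 : ℝ) = 15 ^ 2 by norm_num, sqrt_sq (by norm_num)]]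
      exact sqrt_le_sqrt (by linarith)
    have e : ∑ i, z i * (x i * slackD δ (x i)) = ∑ i, z i * (m i * slackD δ (m i))
        + ∑ i, z i * (x i * slackD δ (x i) - m i * slackD δ (m i)) := by
      rw [← Finset.sum_add_distrib]; exact Finset.sum_congr rfl fun i _ => by ring
    rw [e]
    refine (abs_add_le _ _).trans ?_
    rw [add_mul]
    exact add_le_add hz.lin (h.trans (mul_le_mul_of_nonneg_right h15 hn))

theorem complete_sq {δ D w v : ℝ} (hD : 0 < D) (hc : 0 < 1 - δ * D) :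
    2 * w * v - v ^ 2 / D + δ * v ^ 2 ≤ w ^ 2 * (D / (1 - δ * D)) := by
  have h : 0 ≤ (D * w - (1 - δ * D) * v) ^ 2 / (D * (1 - δ * D)) :=
    div_nonneg (sq_nonneg _) (mul_pos hD hc).le
  have e : w ^ 2 * (D / (1 - δ * D)) - (2 * w * v - v ^ 2 / D + δ * v ^ 2)
      = (D * w - (1 - δ * D) * v) ^ 2 / (D * (1 - δ * D)) := by
    generalize hc' : 1 - δ * D = c at hc
    rw [show δ = (1 - c) / D by rw [← hc']; field_simp [hD.ne']; ring]
    field_simp [hD.ne', hc.ne']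
    ring
  linarith

/-- The weighted sums of the comparison vector at a nearby point. -/
theorem weighted_sums {δ κ ε : ℝ} (hδ : 0 ≤ δ) (hδ2 : δ ≤ 1 / 2) (hn : 0 < n) {z x : Fin n → ℝ}
    (hsq : ∑ i, (z i ^ 2 - 1) ≤ κ * n) (hx : ∀ i, |x i| ≤ 1)
    (hw : ∑ i, (z i ^ 2 - 1) * (1 - x i ^ 2) ≤ ε * n) :
    ∑ i, z i ^ 2 * slackD δ (x i) ≤ n * ((1 - qOf x) + ε + δ / (1 - δ) * (1 + κ)) ∧
      ∑ i, x i ^ 2 * slackD δ (x i) ≤ n * (1 / (4 * (1 - δ))) := by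
  have hn' : (0 : ℝ) < n := by exact_mod_cast hn
  have hq : ∑ i, (1 - x i ^ 2) = n * (1 - qOf x) := by
    simp only [qOf, Finset.sum_sub_distrib, Finset.sum_const, Finset.card_univ, Fintype.card_fin,
      nsmul_eq_mul]
    field_simp
  have hp : ∀ i, z i ^ 2 * slackD δ (x i) ≤ (z i ^ 2 - 1) * (1 - x i ^ 2) + (1 - x i ^ 2)
      + δ / (1 - δ) * z i ^ 2 := fun i => by
    have := mul_le_mul_of_nonneg_left (slackD_bounds hδ hδ2 (hx i)).2.2.1 (sq_nonneg (z i))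
    linarith
  constructor
  · refine (Finset.sum_le_sum fun i _ => hp i).trans ?_
    rw [Finset.sum_add_distrib, Finset.sum_add_distrib, hq, ← Finset.mul_sum]
    have h3 : ∑ i, z i ^ 2 ≤ (1 + κ) * n := by
      simp only [Finset.sum_sub_distrib, Finset.sum_const, Finset.card_univ, Fintype.card_fin,
        nsmul_eq_mul, mul_one] at hsq
      linarith
    have := mul_le_mul_of_nonneg_left h3 (div_nonneg hδ (by linarith : 0 ≤ 1 - δ))
    linarith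
  · refine (Finset.sum_le_sum fun i _ => (slackD_bounds hδ hδ2 (hx i)).2.2.2).trans ?_
    simp

/-- Absorbing the linear and the quadratic term of the rank one part. -/
theorem margin_scalar {β θ δ κ e a C : ℝ} (hδ : δ = (1 - β ^ 2) / 4) (hδ0 : 0 < δ) (hκ0 : 0 ≤ κ)
    (hκ : κ ≤ δ) (hθ0 : 0 ≤ θ) (hθ : θ ≤ β) (he0 : 0 ≤ e) (he : e ≤ δ ^ 2 / 4) (hC : |C| ≤ δ / 4) :
    θ ^ 2 * e + θ ^ 2 * (δ / (1 - δ) * (1 + κ)) + 4 * θ ^ 3 * a * C + θ ^ 4 * a ^ 2 / (1 - δ)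
      - 2 * θ ^ 2 * a ^ 2 - δ ≤ -(δ ^ 2 / 4) := by
  have hθb : θ ^ 2 ≤ β ^ 2 := pow_le_pow_left₀ hθ0 hθ 2
  have hb : β ^ 2 = 1 - 4 * δ := by rw [hδ]; ring
  have hd1 : 0 < 1 - δ := by linarith [sq_nonneg β]
  have hθ1 : θ ^ 2 ≤ 1 := by linarith
  have h1 : θ ^ 4 * a ^ 2 / (1 - δ) ≤ θ ^ 2 * a ^ 2 := by
    rw [div_le_iff₀ hd1]
    have h := mul_le_mul_of_nonneg_left (show θ ^ 2 ≤ 1 - δ by linarith)
      (mul_nonneg (sq_nonneg θ) (sq_nonneg a))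
    linarith
  have h2 : 4 * θ ^ 3 * a * C ≤ θ ^ 2 * a ^ 2 + δ ^ 2 / 4 := by
    have h3 : C ^ 2 ≤ δ ^ 2 / 16 := by
      have := pow_le_pow_left₀ (abs_nonneg _) hC 2
      rw [sq_abs] at this
      linarith
    have h5 := mul_le_mul (pow_le_one₀ (n := 2) (sq_nonneg θ) hθ1) h3 (sq_nonneg C) zero_le_one
    linarith [sq_nonneg (θ * a - 2 * θ ^ 2 * C)]
  have h6 : θ ^ 2 * (1 + κ) ≤ (1 - δ) * (1 - δ) := by
    refine (mul_le_mul (hθb.trans hb.le) (add_le_add_right hκ 1) (by linarith)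
      (by linarith [sq_nonneg β])).trans ?_
    linarith [sq_nonneg δ]
  have h7 : θ ^ 2 * (δ / (1 - δ) * (1 + κ)) ≤ δ - δ ^ 2 := by
    calc θ ^ 2 * (δ / (1 - δ) * (1 + κ)) = δ / (1 - δ) * (θ ^ 2 * (1 + κ)) := by ring
      _ ≤ δ / (1 - δ) * ((1 - δ) * (1 - δ)) :=
          mul_le_mul_of_nonneg_left h6 (div_nonneg hδ0.le hd1.le)
      _ = _ := by field_simp
  have h8 : θ ^ 2 * e ≤ δ ^ 2 / 4 := (mul_le_mul hθ1 he he0 zero_le_one).trans (one_mul _).le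
  linarith

/-- The comparison process is below `-γ` on the whole ball. -/
theorem side_margin {β θ δ κ M r : ℝ} (hδ : δ = (1 - β ^ 2) / 4) (hβ0 : 0 ≤ β) (hβ : β < 1)
    (hκ0 : 0 ≤ κ) (hκ : κ ≤ δ ^ 2 / 16) (hM : 0 ≤ M) (hr : 0 ≤ r)
    (hr1 : 2 * (M + 1) * √r ≤ δ ^ 2 / 8) (hr2 : 15 * √r ≤ δ / 8) (hn : 0 < n)
    (hθ0 : 0 ≤ θ) (hθ : θ ≤ β) {z m x v : Fin n → ℝ} (hz : SideGood δ κ M z m)
    (hm : ∀ i, |m i| ≤ 1) (hx : ∀ i, |x i| < 1) (hd : ∑ i, (x i - m i) ^ 2 ≤ r * n)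
    (hv : ∑ i, v i ^ 2 = 1) :
    2 * θ / √(n : ℝ) * (∑ i, z i * v i) - (∑ i, v i ^ 2 / (1 - x i ^ 2)) - θ ^ 2 * (1 - qOf x)
      + 2 * θ ^ 2 / n * (∑ i, x i * v i) ^ 2 ≤ -(δ ^ 2 / 4) := by
  have hb2 : β ^ 2 < 1 := pow_lt_one₀ hβ0 hβ two_ne_zero
  have hδ0 : 0 < δ := by rw [hδ]; linarith
  have hδ4 : δ ≤ 1 / 4 := by rw [hδ]; linarith [sq_nonneg β]
  have hδ2 : δ ≤ 1 / 2 := by linarith
  have hδs : δ ^ 2 ≤ δ := by rw [sq]; exact mul_le_of_le_one_left hδ0.le (by linarith)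
  have hn' : (0 : ℝ) < n := by exact_mod_cast hn
  obtain ⟨hs1, hs2⟩ := near_stats hδ0.le hδ2 (by linarith) hM hr hz hm (fun i => (hx i).le) hd
  obtain ⟨hA, hB⟩ := weighted_sums hδ0.le hδ2 hn hz.sq (fun i => (hx i).le) hs1
  set a := (∑ i, x i * v i) / √(n : ℝ) with ha
  have hsn : (√(n : ℝ)) ≠ 0 := (sqrt_pos.2 hn').ne'
  set w : Fin n → ℝ := fun i => (θ * z i + 2 * θ ^ 2 * a * x i) / √(n : ℝ) with hw
  have hpt : ∀ i, 2 * w i * v i - v i ^ 2 / (1 - x i ^ 2) + δ * v i ^ 2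
      ≤ w i ^ 2 * slackD δ (x i) := fun i => by
    have hD1 : 1 - x i ^ 2 ≤ 1 := by linarith [sq_nonneg (x i)]
    exact complete_sq (sub_pos.2 ((sq_lt_one_iff_abs_lt_one (x i)).2 (hx i)))
      (by linarith [mul_le_of_le_one_right hδ0.le hD1])
  have hsum := Finset.sum_le_sum (s := univ) fun i _ => hpt i
  have e1 : ∑ i, (2 * w i * v i - v i ^ 2 / (1 - x i ^ 2) + δ * v i ^ 2) =
      2 * θ / √(n : ℝ) * (∑ i, z i * v i) + 4 * θ ^ 2 * a * a - (∑ i, v i ^ 2 / (1 - x i ^ 2)) + δ := by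
    rw [Finset.sum_add_distrib, Finset.sum_sub_distrib, ← Finset.mul_sum, hv, mul_one]
    have e : 4 * θ ^ 2 * a * a = 4 * θ ^ 2 * a / √(n : ℝ) * ∑ i, x i * v i := by rw [ha]; ring
    rw [e, Finset.mul_sum, Finset.mul_sum, ← Finset.sum_add_distrib]
    congr 2
    exact Finset.sum_congr rfl fun i _ => by simp only [hw]; ring
  have e2 : ∑ i, w i ^ 2 * slackD δ (x i) = (θ ^ 2 * (∑ i, z i ^ 2 * slackD δ (x i))
      + 4 * θ ^ 3 * a * (∑ i, z i * (x i * slackD δ (x i)))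
      + 4 * θ ^ 4 * a ^ 2 * (∑ i, x i ^ 2 * slackD δ (x i))) / n := by
    rw [Finset.mul_sum, Finset.mul_sum, Finset.mul_sum, ← Finset.sum_add_distrib,
      ← Finset.sum_add_distrib, Finset.sum_div]
    exact Finset.sum_congr rfl fun i _ => by simp only [hw, div_pow, sq_sqrt hn'.le]; ring
  have e3 : 2 * θ ^ 2 / n * (∑ i, x i * v i) ^ 2 = 2 * θ ^ 2 * a ^ 2 := by
    rw [ha, div_pow, sq_sqrt hn'.le]; ring
  set C := (∑ i, z i * (x i * slackD δ (x i))) / n with hC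
  have hCb : |C| ≤ δ / 4 := by
    rw [hC, abs_div, abs_of_pos hn', div_le_iff₀ hn']
    exact hs2.trans (mul_le_mul_of_nonneg_right (by linarith) hn'.le)
  have hbound : ∑ i, w i ^ 2 * slackD δ (x i) ≤ θ ^ 2 * (1 - qOf x)
      + θ ^ 2 * (2 * κ + 2 * (M + 1) * √r) + θ ^ 2 * (δ / (1 - δ) * (1 + κ))
      + 4 * θ ^ 3 * a * C + θ ^ 4 * a ^ 2 / (1 - δ) := by
    rw [e2, div_le_iff₀ hn']
    have h1 := mul_le_mul_of_nonneg_left hA (sq_nonneg θ)
    have h3 := mul_le_mul_of_nonneg_left hB (show 0 ≤ 4 * θ ^ 4 * a ^ 2 by positivity)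
    have e5 : 4 * θ ^ 3 * a * C * n = 4 * θ ^ 3 * a * ∑ i, z i * (x i * slackD δ (x i)) := by
      rw [hC, mul_assoc, div_mul_cancel₀ _ hn'.ne']
    have e4 : 4 * θ ^ 4 * a ^ 2 * (n * (1 / (4 * (1 - δ)))) = θ ^ 4 * a ^ 2 / (1 - δ) * n := by
      rw [one_div, mul_inv, div_eq_mul_inv]; ring
    linarith
  have h := margin_scalar (e := 2 * κ + 2 * (M + 1) * √r) (a := a) hδ hδ0 hκ0 (by linarith) hθ0 hθ
    (by positivity) (by linarith) hCb
  rw [e1] at hsum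
  rw [e3]
  linarith

/-- `Mar(m)`: the margin on a ball, outside an exponentially small event, uniformly in the centre. -/
theorem margin_ball {β : ℝ} (hβ0 : 0 ≤ β) (hβ : β < 1) :
    ∃ γ : ℝ, 0 < γ ∧ ∃ r : ℝ, 0 < r ∧ ∃ c : ℝ, 0 < c ∧ ∀ n : ℕ, 0 < n → ∀ m : Fin n → ℝ,
      (∀ i, |m i| ≤ 1) →
      (disorder n).real {g | ¬∀ θ : ℝ, 0 ≤ θ → θ ≤ β → ∀ x : Fin n → ℝ, (∀ i, |x i| < 1) →
        ∑ i, (x i - m i) ^ 2 ≤ r * n → ∀ v : Fin n → ℝ, γ * ∑ i, v i ^ 2 ≤ hess θ g x v}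
      ≤ 10 * exp (-c * n) := by
  set δ := (1 - β ^ 2) / 4 with hδd
  have hδ0 : 0 < δ := by rw [hδd]; nlinarith
  have hδ4 : δ ≤ 1 / 4 := by rw [hδd]; linarith [sq_nonneg β]
  set κ := δ ^ 2 / 16 with hκd
  have hκ0 : 0 < κ := by positivity
  have hκ1 : κ ≤ 1 := by nlinarith
  set M := max 0 (4 * log (16 / κ)) with hMd
  have hM : 0 ≤ M := le_max_left _ _
  set sr := min (δ ^ 2 / (16 * (M + 1))) (δ / 120) with hsr
  have hsr0 : 0 < sr := lt_min (by positivity) (by positivity)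
  refine ⟨δ ^ 2 / 4, by positivity, sr ^ 2, by positivity, κ ^ 2 / 8, by positivity,
    fun n hn m hm => ?_⟩
  have hn' : (0 : ℝ) < n := by exact_mod_cast hn
  have hrt : √(sr ^ 2) = sr := sqrt_sq hsr0.le
  have hr1 : 2 * (M + 1) * √(sr ^ 2) ≤ δ ^ 2 / 8 := by
    rw [hrt]
    refine (mul_le_mul_of_nonneg_left (min_le_left _ _) (by positivity)).trans (le_of_eq ?_)
    field_simp
    ring
  have hr2 : 15 * √(sr ^ 2) ≤ δ / 8 := by
    rw [hrt]; linarith [min_le_right (δ ^ 2 / (16 * (M + 1))) (δ / 120)]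
  let ι := {p : ℝ × (Fin n → ℝ) × (Fin n → ℝ) // 0 ≤ p.1 ∧ p.1 ≤ β ∧ (∀ i, |p.2.1 i| < 1) ∧
    ∑ i, (p.2.1 i - m i) ^ 2 ≤ sr ^ 2 * n ∧ ∑ i, p.2.2 i ^ 2 = 1}
  let u : ι → Fin n → ℝ := fun k i => √(k.1.1 / √(n : ℝ)) * k.1.2.2 i
  let b : ι → ℝ := fun k => -(∑ i, k.1.2.2 i ^ 2 / (1 - k.1.2.1 i ^ 2))
    - k.1.1 ^ 2 * (1 - qOf k.1.2.1) + 2 * k.1.1 ^ 2 / n * (∑ i, k.1.2.1 i * k.1.2.2 i) ^ 2
  set Bd := {g : Edge n → ℝ | ∃ k, -(δ ^ 2 / 4) < quad g (u k) + b k}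
  have hc : ∀ k : ι, √(k.1.1 / √(n : ℝ)) ^ 2 = k.1.1 / √(n : ℝ) := fun k =>
    sq_sqrt (div_nonneg k.2.1 (sqrt_nonneg _))
  have hB : (stdPi (Edge n)).real Bd ≤ 10 * exp (-(κ ^ 2 / 8) * n) := by
    refine (quad_offset_tail u b _).trans ?_
    set E1 := {z : Fin n → ℝ | κ * n ≤ ∑ i, (z i ^ 2 - 1) * (1 : ℝ)}
    set E2 := {z : Fin n → ℝ | κ * n ≤ ∑ i, (z i ^ 2 - 1) * (1 - m i ^ 2)}
    set E3 := {z : Fin n → ℝ | κ * n ≤ ∑ i, z i * (m i * slackD δ (m i))}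
    set E4 := {z : Fin n → ℝ | κ * n ≤ ∑ i, z i * -(m i * slackD δ (m i))}
    set E5 := {z : Fin n → ℝ | κ * n ≤ ∑ i, max (z i ^ 2 - M) 0}
    have hsub : {z : Fin n → ℝ | ∃ k, -(δ ^ 2 / 4) < 2 * √(∑ i, u k i ^ 2) * (∑ i, z i * u k i) + b k}
        ⊆ E1 ∪ (E2 ∪ (E3 ∪ (E4 ∪ E5))) := by
      rintro z ⟨k, hk⟩
      by_contra hcon
      simp only [E1, E2, E3, E4, E5, Set.mem_union, Set.mem_ofPred_eq, not_or, not_le, mul_one,
        mul_neg, Finset.sum_neg_distrib] at hcon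
      obtain ⟨h1, h2, h3, h4, h5⟩ := hcon
      have hz : SideGood δ κ M z m := ⟨h1.le, h2.le, abs_le.2 ⟨by linarith, h3.le⟩, h5.le⟩
      obtain ⟨⟨θ, x, v⟩, hθ0, hθ, hx, hd, hv⟩ := k
      have h := side_margin hδd hβ0 hβ hκ0.le le_rfl hM (sq_nonneg sr) hr1 hr2 hn hθ0 hθ hz hm hx hd hv
      have hcθ : √(θ / √(n : ℝ)) ^ 2 = θ / √(n : ℝ) := sq_sqrt (div_nonneg hθ0 (sqrt_nonneg _))
      have e : 2 * √(∑ i, (√(θ / √(n : ℝ)) * v i) ^ 2) * (∑ i, z i * (√(θ / √(n : ℝ)) * v i))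
          = 2 * θ / √(n : ℝ) * ∑ i, z i * v i := by
        have hr : √(∑ i, (√(θ / √(n : ℝ)) * v i) ^ 2) = √(θ / √(n : ℝ)) := by
          simp only [mul_pow, ← Finset.mul_sum, hv, mul_one]
          exact sqrt_sq (sqrt_nonneg _)
        rw [hr, show (∑ i, z i * (√(θ / √(n : ℝ)) * v i)) = √(θ / √(n : ℝ)) * ∑ i, z i * v i from by
          rw [Finset.mul_sum]; exact Finset.sum_congr rfl fun i _ => by ring]
        linear_combination (2 * ∑ i, z i * v i) * hcθ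
      simp only [u, b, e] at hk
      linarith
    have hm1 : ∀ i, |1 - m i ^ 2| ≤ 1 := fun i => by
      rw [abs_le]
      constructor <;> linarith [(sq_le_one_iff_abs_le_one (m i)).2 (hm i), sq_nonneg (m i)]
    have hm2 : ∀ i, |m i * slackD δ (m i)| ≤ 2 := fun i => by
      obtain ⟨h0, h2, -, -⟩ := slackD_bounds hδ0.le (by linarith) (hm i)
      rw [abs_mul, abs_of_nonneg h0]
      exact (mul_le_mul (hm i) h2 h0 zero_le_one).trans (one_mul _).le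
    have hexp : exp ((2 * exp (-(M / 4)) - κ / 4) * n) ≤ exp (-(κ ^ 2 / 8) * n) := by
      refine exp_le_exp.2 (mul_le_mul_of_nonneg_right ?_ hn'.le)
      have h1 : exp (-(M / 4)) ≤ κ / 16 := by
        rw [← exp_log (by positivity : (0 : ℝ) < κ / 16)]
        refine exp_le_exp.2 ?_
        have := le_max_right (0 : ℝ) (4 * log (16 / κ))
        rw [log_div (by norm_num) hκ0.ne'] at this
        rw [log_div hκ0.ne' (by norm_num)]
        rw [hMd, log_div (by norm_num) hκ0.ne']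
        linarith
      nlinarith
    have t1 : (stdPi (Fin n)).real E1 ≤ exp (-(κ ^ 2 / 8) * n) :=
      sq_weight_tail (d := fun _ => 1) (fun _ => by simp) hκ0.le hκ1
    have t2 : (stdPi (Fin n)).real E2 ≤ exp (-(κ ^ 2 / 8) * n) := sq_weight_tail hm1 hκ0.le hκ1
    have t3 : (stdPi (Fin n)).real E3 ≤ exp (-(κ ^ 2 / 8) * n) :=
      (lin_tail two_pos hm2 κ hκ0.le).trans (le_of_eq (by norm_num))
    have t4 : (stdPi (Fin n)).real E4 ≤ exp (-(κ ^ 2 / 8) * n) :=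
      (lin_tail two_pos (fun i => by rw [abs_neg]; exact hm2 i) κ hκ0.le).trans (le_of_eq (by norm_num))
    have t5 : (stdPi (Fin n)).real E5 ≤ exp (-(κ ^ 2 / 8) * n) :=
      (excess_sq_tail M κ).trans hexp
    refine (mul_le_mul_of_nonneg_left ((measureReal_mono hsub).trans ((measureReal_union_le _ _).trans
      (add_le_add t1 ((measureReal_union_le _ _).trans (add_le_add t2 ((measureReal_union_le _ _).trans
      (add_le_add t3 ((measureReal_union_le _ _).trans (add_le_add t4 t5))))))))) zero_le_two).trans ?_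
    linarith
  refine (measureReal_mono (μ := stdPi (Edge n)) fun g hg => ?_).trans hB
  by_contra hgB
  refine hg fun θ hθ0 hθ x hx hd v => ?_
  rcases (Finset.sum_nonneg fun i (_ : i ∈ univ) => sq_nonneg (v i)).eq_or_lt with h0 | h0
  · have hv0 : ∀ i, v i = 0 := fun i =>
      pow_eq_zero_iff two_ne_zero |>.1 ((Finset.sum_eq_zero_iff_of_nonneg
        fun i _ => sq_nonneg (v i)).1 h0.symm i (Finset.mem_univ i))
    simp [hess, hv0]
  obtain ⟨S, hS⟩ : ∃ S, S = ∑ i, v i ^ 2 := ⟨_, rfl⟩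
  rw [← hS] at h0 ⊢
  have hsq : ∀ i, (v i / √S) ^ 2 = v i ^ 2 / S := fun i => by rw [div_pow, sq_sqrt h0.le]
  have h1 : ∑ i, (v i / √S) ^ 2 = 1 := by
    simp only [hsq, ← Finset.sum_div, ← hS, div_self h0.ne']
  let k : ι := ⟨(θ, x, fun i => v i / √S), hθ0, hθ, hx, hd, h1⟩
  have hk : quad g (u k) + b k ≤ -(δ ^ 2 / 4) := not_lt.1 fun h => hgB ⟨k, h⟩
  have e1 : quad g (u k) = θ * (∑ i, ∑ j, skMat n 1 g i j * v i * v j) / S := by
    rw [show u k = fun i => (√(θ / √(n : ℝ)) / √S) * v i from funext fun i => by simp [u, k]; ring,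
      quad_smul, div_pow, sq_sqrt h0.le, form_eq_quad, sq_sqrt (div_nonneg hθ0 (sqrt_nonneg _))]
    ring
  have e3 : ∑ i, (v i / √S) ^ 2 / (1 - x i ^ 2) = (∑ i, v i ^ 2 / (1 - x i ^ 2)) / S := by
    rw [Finset.sum_div]
    exact Finset.sum_congr rfl fun i _ => by rw [hsq]; ring
  have e4 : (∑ i, x i * (v i / √S)) ^ 2 = (∑ i, x i * v i) ^ 2 / S := by
    simp only [mul_div_assoc', ← Finset.sum_div, div_pow, sq_sqrt h0.le]
  have e2 : b k = -((∑ i, v i ^ 2 / (1 - x i ^ 2)) / S) - θ ^ 2 * (1 - qOf x)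
      + 2 * θ ^ 2 / n * ((∑ i, x i * v i) ^ 2 / S) := by simp only [b, k, e3, e4]
  rw [e1, e2] at hk
  have := mul_le_mul_of_nonneg_right hk h0.le
  simp only [hess, ← hS]
  field_simp at this ⊢
  linarith

end Vale.Agent.P150.Full
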