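import Vale.Agent.P150.Full.T.Margin
import Vale.Agent.P150.Full.T.Pins

/-!
# P150: the pin `Margin`
-/

open MeasureTheory Real

namespace Vale.Agent.P150.Full.T

open Vale.Agent.P150.Fast

theorem margin : Margin := by
  intro β hβ0 hβ
  obtain ⟨γ, hγ, R, hR, c, hc, hb⟩ := margin_ball hβ0 hβ
  set r := min 1 (√R / 4) with hr
  have hr0 : 0 < r := lt_min one_pos (by positivity)
  have hrR : 16 * r ^ 2 ≤ R := by
    have h := pow_le_pow_left₀ hr0.le (min_le_right 1 (√R / 4)) 2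
    rw [div_pow, sq_sqrt hR.le] at h
    rw [hr]
    linarith
  refine ⟨r, hr0, min_le_left _ _, γ, hγ, fun p hp => ?_⟩
  obtain ⟨n₀, hn₀⟩ := exists_nat_gt (10 / (p * c))
  refine ⟨n₀ + 1, fun n hn m hm => ?_⟩
  have hn0 : 0 < n := by omega
  have : IsProbabilityMeasure (disorder n) := by unfold disorder; infer_instance
  refine le_trans (le_trans (measure_mono (t := {g | ¬∀ θ : ℝ, 0 ≤ θ → θ ≤ β → ∀ x : Fin n → ℝ,
      (∀ i, |x i| < 1) → ∑ i, (x i - m i) ^ 2 ≤ R * n → ∀ v : Fin n → ℝ,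
        γ * ∑ i, v i ^ 2 ≤ Beyond.Stability.hess θ g x v}) fun g hg hball => ?_)
    (ofReal_measureReal (μ := disorder n)).ge) (ENNReal.ofReal_le_ofReal ((hb n hn0 m hm).trans ?_))
  · exact hg fun θ h0 h1 x hx hd => hball θ h0 h1 x hx
      (hd.trans (mul_le_mul_of_nonneg_right hrR (Nat.cast_nonneg n)))
  · rw [neg_mul, exp_neg, ← div_eq_mul_inv, div_le_iff₀ (exp_pos _)]
    have h1 : (n₀ : ℝ) ≤ n := by exact_mod_cast Nat.le_of_succ_le hn
    have h2 := (div_lt_iff₀ (mul_pos hp hc)).1 hn₀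
    have h3 : 10 ≤ p * (c * n) := by
      calc (10 : ℝ) ≤ n₀ * (p * c) := h2.le
        _ ≤ n * (p * c) := mul_le_mul_of_nonneg_right h1 (mul_pos hp hc).le
        _ = _ := by ring
    exact h3.trans (mul_le_mul_of_nonneg_left (by linarith [add_one_le_exp (c * n)]) hp.le)

end Vale.Agent.P150.Full.T
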