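import Vale.Agent.P150.Fast.ChiTail

/-!
# P150: exponential tails of weighted sums used in the margin
-/

open MeasureTheory ProbabilityTheory Real Filter

namespace Vale.Agent.P150.Full

open Vale.Agent.P150 Vale.Agent.P150.Fast

variable {n : ℕ}

/-- Chernoff for a sum of functions of independent coordinates. -/
theorem coord_tail {φ : Fin n → ℝ → ℝ} {A B : ℝ}
    (hi : ∀ i, Integrable (fun y => exp (φ i y)) std) (hA : ∀ i, ∫ y, exp (φ i y) ∂std ≤ exp A) :
    (stdPi (Fin n)).real {z | B ≤ ∑ i, φ i (z i)} ≤ exp (n * A - B) := by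
  have hf : Integrable (fun z : Fin n → ℝ => ∏ i, exp (φ i (z i))) (stdPi (Fin n)) :=
    Integrable.fintype_prod hi
  have hle : ∫ z, (∏ i, exp (φ i (z i))) ∂stdPi (Fin n) ≤ exp (n * A) := by
    rw [stdPi, integral_fintype_prod_eq_prod (𝕜 := ℝ) (f := fun i y => exp (φ i y)), exp_nat_mul]
    refine (Finset.prod_le_prod (fun i _ => integral_nonneg fun y => (exp_pos _).le)
      fun i _ => hA i).trans (le_of_eq ?_)
    simp
  have h := mul_meas_ge_le_integral_of_nonneg
    (Eventually.of_forall fun z => Finset.prod_nonneg fun i _ => (exp_pos _).le) hf (exp B)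
  have hs : (stdPi (Fin n)).real {z | B ≤ ∑ i, φ i (z i)} ≤
      (stdPi (Fin n)).real {z : Fin n → ℝ | exp B ≤ ∏ i, exp (φ i (z i))} :=
    measureReal_mono fun z hz => by
      simpa only [Set.mem_ofPred_eq, ← exp_sum, exp_le_exp] using hz
  rw [exp_sub, le_div_iff₀' (exp_pos B)]
  exact (mul_le_mul_of_nonneg_left hs (exp_pos B).le).trans (h.trans hle)

theorem log_gauss_sq {u : ℝ} (hu : |u| ≤ 1 / 4) : exp (-u) / √(1 - 2 * u) ≤ exp (2 * u ^ 2) := by
  obtain ⟨h1, h2⟩ := abs_le.1 hu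
  have hp : (0 : ℝ) < 1 - 2 * u := by linarith
  have key : exp (-u - 2 * u ^ 2) ≤ √(1 - 2 * u) := by
    rw [Real.le_sqrt (exp_pos _).le hp.le, ← exp_nat_mul]
    rw [show ((2 : ℕ) : ℝ) * (-u - 2 * u ^ 2) = -(2 * u + 4 * u ^ 2) by push_cast; ring, exp_neg,
      inv_le_iff_one_le_mul₀ (exp_pos _)]
    rcases le_total 0 u with h | h
    · have h3 := mul_le_mul_of_nonneg_left
        (quadratic_le_exp_of_nonneg (x := 2 * u + 4 * u ^ 2) (by positivity)) hp.le
      nlinarith [mul_nonneg (sq_nonneg u) (mul_nonneg (show (0 : ℝ) ≤ 1 - 4 * u by linarith)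
        (show (0 : ℝ) ≤ 1 + 2 * u by linarith)), mul_nonneg (pow_nonneg h 4) hp.le]
    · have h3 := mul_le_mul_of_nonneg_left (add_one_le_exp (2 * u + 4 * u ^ 2)) hp.le
      nlinarith [mul_nonneg (sq_nonneg u) (neg_nonneg.2 h)]
  rw [div_le_iff₀ (sqrt_pos.2 hp)]
  calc exp (-u) = exp (2 * u ^ 2) * exp (-u - 2 * u ^ 2) := by rw [← exp_add]; ring_nf
    _ ≤ _ := mul_le_mul_of_nonneg_left key (exp_pos _).le

/-- Weighted centred squares. -/
theorem sq_weight_tail {d : Fin n → ℝ} (hd : ∀ i, |d i| ≤ 1) {κ : ℝ} (h0 : 0 ≤ κ) (h1 : κ ≤ 1) :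
    (stdPi (Fin n)).real {z | κ * n ≤ ∑ i, (z i ^ 2 - 1) * d i} ≤ exp (-(κ ^ 2 / 8) * n) := by
  set s := κ / 4 with hs
  have hu : ∀ i, |s * d i| ≤ 1 / 4 := fun i => by
    rw [abs_mul, abs_of_nonneg (by positivity : 0 ≤ s)]
    exact (mul_le_of_le_one_right (by positivity) (hd i)).trans (by rw [hs]; linarith)
  have he : ∀ i, (fun y : ℝ => exp (s * ((y ^ 2 - 1) * d i))) =
      fun y => exp (-(s * d i)) * exp (s * d i * y ^ 2) := fun i => by
    funext y; rw [← exp_add]; ring_nf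
  have hlt : ∀ i, s * d i < 1 / 2 := fun i => by linarith [(abs_le.1 (hu i)).2]
  have h := coord_tail (n := n) (φ := fun i y => s * ((y ^ 2 - 1) * d i)) (A := κ ^ 2 / 8)
    (B := s * (κ * n))
    (fun i => by simp only [he i]; exact (exp_sq_std (hlt i)).1.const_mul _) fun i => by
      simp only [he i]
      rw [integral_const_mul, (exp_sq_std (hlt i)).2, mul_one_div]
      refine (log_gauss_sq (hu i)).trans (exp_le_exp.2 ?_)
      have h2 := pow_le_pow_left₀ (abs_nonneg (s * d i))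
        ((abs_mul s (d i)).trans_le ((mul_le_mul_of_nonneg_left (hd i) (abs_nonneg s)).trans
          (by rw [mul_one, abs_of_nonneg (by positivity : (0 : ℝ) ≤ s)]))) 2
      rw [sq_abs] at h2
      rw [hs] at h2 ⊢
      linarith
  refine le_trans (measureReal_mono fun z (hz : κ * n ≤ _) => ?_) (h.trans (le_of_eq ?_))
  · change s * (κ * n) ≤ ∑ i, s * ((z i ^ 2 - 1) * d i)
    rw [← Finset.mul_sum]
    exact mul_le_mul_of_nonneg_left hz (by positivity)
  · rw [hs]; ring_nf

/-- A linear statistic. -/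
theorem lin_tail {d : Fin n → ℝ} {L : ℝ} (hL : 0 < L) (hd : ∀ i, |d i| ≤ L) (κ : ℝ) (h0 : 0 ≤ κ) :
    (stdPi (Fin n)).real {z | κ * n ≤ ∑ i, z i * d i} ≤ exp (-(κ ^ 2 / (2 * L ^ 2)) * n) := by
  set s := κ / L ^ 2 with hs
  have h := coord_tail (n := n) (φ := fun i y => s * d i * y) (A := κ ^ 2 / (2 * L ^ 2))
    (B := s * (κ * n)) (fun i => by
      exact integrable_exp_mul_gaussianReal (s * d i)) fun i => by
      rw [integral_exp_std]
      refine exp_le_exp.2 ?_
      have h2 := pow_le_pow_left₀ (abs_nonneg _) (hd i) 2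
      rw [sq_abs] at h2
      have h3 := mul_le_mul_of_nonneg_left h2 (sq_nonneg s)
      have e : s ^ 2 * L ^ 2 / 2 = κ ^ 2 / (2 * L ^ 2) := by rw [hs]; field_simp
      nlinarith
  refine le_trans (measureReal_mono fun z (hz : κ * n ≤ _) => ?_) (h.trans (le_of_eq ?_))
  · change s * (κ * n) ≤ ∑ i, s * d i * z i
    refine (mul_le_mul_of_nonneg_left hz (by positivity)).trans (le_of_eq ?_)
    rw [Finset.mul_sum]
    exact Finset.sum_congr rfl fun i _ => by ring
  · congr 1; rw [hs]; field_simp; ring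

/-- The upper tail of the squares. -/
theorem excess_sq_tail (M κ : ℝ) :
    (stdPi (Fin n)).real {z | κ * n ≤ ∑ i, max (z i ^ 2 - M) 0}
      ≤ exp ((2 * exp (-(M / 4)) - κ / 4) * n) := by
  have hb : ∀ y : ℝ, exp (1 / 4 * max (y ^ 2 - M) 0) ≤ 1 + exp (-(M / 4)) * exp (1 / 4 * y ^ 2) := by
    intro y
    have hp : 0 ≤ exp (-(M / 4)) * exp (1 / 4 * y ^ 2) := by positivity
    rcases le_total (y ^ 2 - M) 0 with h | h
    · rw [max_eq_right h, mul_zero, exp_zero]; linarith
    · rw [max_eq_left h, ← exp_add]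
      rw [show -(M / 4) + 1 / 4 * y ^ 2 = 1 / 4 * (y ^ 2 - M) by ring]
      linarith
  obtain ⟨hq, hqv⟩ := exp_sq_std (s := 1 / 4) (by norm_num)
  have hgi : Integrable (fun y : ℝ => 1 + exp (-(M / 4)) * exp (1 / 4 * y ^ 2)) std :=
    (integrable_const _).add (hq.const_mul _)
  have hfi : Integrable (fun y : ℝ => exp (1 / 4 * max (y ^ 2 - M) 0)) std :=
    hgi.mono' (by fun_prop) (Eventually.of_forall fun y => by
      rw [Real.norm_of_nonneg (exp_pos _).le]; exact hb y)
  have h := coord_tail (n := n) (φ := fun _ y => 1 / 4 * max (y ^ 2 - M) 0)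
    (A := 2 * exp (-(M / 4))) (B := κ / 4 * n) (fun _ => hfi) fun _ => by
      refine (integral_mono hfi hgi hb).trans ?_
      rw [integral_add (integrable_const _) (hq.const_mul _), integral_const_mul, hqv, integral_const,
        probReal_univ, one_smul]
      refine le_trans ?_ (add_one_le_exp _)
      have h2 : 1 / √(1 - 2 * (1 / 4) : ℝ) ≤ 2 := by
        rw [div_le_iff₀ (by positivity)]
        have : (1 / 2 : ℝ) ≤ √(1 - 2 * (1 / 4)) := by
          rw [Real.le_sqrt (by norm_num) (by norm_num)]; norm_num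
        linarith
      nlinarith [exp_pos (-(M / 4))]
  refine le_trans (measureReal_mono fun z (hz : κ * n ≤ _) => ?_) (h.trans (le_of_eq ?_))
  · change κ / 4 * n ≤ ∑ i, 1 / 4 * max (z i ^ 2 - M) 0
    rw [← Finset.mul_sum]
    linarith
  · congr 1; ring

end Vale.Agent.P150.Full
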