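import Vale.Agent.P150.Full.T.Pins
import Vale.Agent.P150.Full.T.ChannelFisher
import Vale.Agent.P150.Beyond.Events
import Vale.Agent.P150.Beyond.Transfer
import Vale.Agent.P150.Beyond.Stability.Main

/-!
# P150 below one, module N7: no traps from Claim A at level zero and the absence of critical points

Pinning splits a nearly stationary law into nearly stationary laws of small covariance; at zero field
these have small overlap, no excess, and hence the free energy of the Gibbs measure.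
-/

open Finset MeasureTheory Real
open Vale.Agent.P150.Fast
open Vale.Agent.P150.Beyond Vale.Agent.P150.Beyond.Stability

namespace Vale.Agent.P150.Full.T

variable {n : ℕ}

theorem qOf_le_one {m : Fin n → ℝ} (hm : ∀ i, |m i| ≤ 1) : qOf m ≤ 1 := by
  rcases Nat.eq_zero_or_pos n with rfl | hn
  · simp [qOf]
  rw [qOf, div_le_one (by exact_mod_cast hn)]
  refine (Finset.sum_le_sum (g := fun _ => (1 : ℝ)) fun i _ => ?_).trans (le_of_eq (by simp))
  exact (sq_le_one_iff_abs_le_one _).2 (hm i)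

/-- Levels above one are empty, so the descent reaches zero. -/
theorem level_zero {β s : ℝ} (hs : 0 < s) (step : ∀ q₀ : ℝ, 0 ≤ q₀ → Level β (q₀ + s) → Level β q₀) :
    Level β 0 := by
  obtain ⟨N, hN⟩ := exists_nat_gt (1 / s)
  have hN' : 1 < N * s := by rwa [div_lt_iff₀ hs] at hN
  have key : ∀ j : ℕ, j ≤ N → Level β (((N - j : ℕ) : ℝ) * s) := by
    intro j
    induction j with
    | zero =>
      intro _ ε _
      refine ⟨1, one_pos, 1, one_pos, fun p hp => ⟨0, fun n _ => ?_⟩⟩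
      have hu : {g : Edge n → ℝ | ¬LevelAt β (((N - 0 : ℕ) : ℝ) * s) ε 1 1 g} = ∅ := by
        refine Set.eq_empty_of_forall_notMem fun g hg => hg fun θ _ _ y ν hν hq => absurd hq (not_le.2 ?_)
        rw [Nat.sub_zero]
        linarith [qOf_le_one (abs_bary_le hν.law)]
      rw [hu, measure_empty]
      exact zero_le
    | succ j ih =>
      intro hj
      refine step _ (by positivity) ?_
      have e : ((N - (j + 1) : ℕ) : ℝ) * s + s = ((N - j : ℕ) : ℝ) * s := by
        rw [Nat.cast_sub hj, Nat.cast_sub (by omega : j ≤ N)]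
        push_cast
        ring
      rw [e]
      exact ih (by omega)
  simpa using key N le_rfl

theorem sum_flip (i : Fin n) (F : (Fin n → Bool) → ℝ) : ∑ x, F (flip i x) = ∑ x, F x :=
  Equiv.sum_comp ((show Function.Involutive (flip i) from flip_flip i).toPerm) F

/-- The Dirichlet form of one site. -/
noncomputable def fisherAt (θ : ℝ) (g : Edge n → ℝ) (y : Fin n → ℝ) (i : Fin n)
    (ν : (Fin n → Bool) → ℝ) : ℝ :=
  ∑ x, (√(ν x * flipRate θ g y i x) - √(ν (flip i x) * flipRate θ g y i (flip i x))) ^ 2 / 2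

theorem fisherAt_le (θ : ℝ) (g : Edge n → ℝ) (y : Fin n → ℝ) (i : Fin n) {ν : (Fin n → Bool) → ℝ}
    (hν : ∀ x, 0 ≤ ν x) : fisherAt θ g y i ν ≤ ∑ x, ν x := by
  have h : ∀ x, (√(ν x * flipRate θ g y i x) - √(ν (flip i x) * flipRate θ g y i (flip i x))) ^ 2 / 2
      ≤ ν x / 2 + ν (flip i x) / 2 := fun x => by
    obtain ⟨a0', ea⟩ := flipRate_mem θ g y i x
    obtain ⟨b0', -⟩ := flipRate_mem θ g y i (flip i x)
    have a0 := a0'.le
    have b0 := b0'.le
    have a1 : flipRate θ g y i x ≤ 1 := by linarith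
    have b1 : flipRate θ g y i (flip i x) ≤ 1 := by linarith
    have ha : 0 ≤ ν x * flipRate θ g y i x := mul_nonneg (hν x) a0
    have hb : 0 ≤ ν (flip i x) * flipRate θ g y i (flip i x) := mul_nonneg (hν _) b0
    have h2 : 0 ≤ √(ν x * flipRate θ g y i x) * √(ν (flip i x) * flipRate θ g y i (flip i x)) := by
      positivity
    rw [sub_sq, Real.sq_sqrt ha, Real.sq_sqrt hb]
    linarith [mul_le_of_le_one_right (hν x) a1, mul_le_of_le_one_right (hν (flip i x)) b1]
  refine (Finset.sum_le_sum fun x _ => h x).trans (le_of_eq ?_)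
  rw [Finset.sum_add_distrib, sum_flip i fun x => ν x / 2, ← Finset.sum_div]
  ring

theorem fisher_split (θ : ℝ) (g : Edge n → ℝ) (y : Fin n → ℝ) {ν : (Fin n → Bool) → ℝ} (hν : IsLaw ν)
    (j : Fin n) : half ν j true * fisher θ g y (split ν j true)
      + half ν j false * fisher θ g y (split ν j false) ≤ fisher θ g y ν + 1 := by
  have hs : ∀ b i, i ≠ j → half ν j b * fisherAt θ g y i (split ν j b) = ∑ x, if x j = b then
      (√(ν x * flipRate θ g y i x) - √(ν (flip i x) * flipRate θ g y i (flip i x))) ^ 2 / 2 else 0 := by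
    intro b i hij
    rw [fisherAt, Finset.mul_sum]
    refine Finset.sum_congr rfl fun x _ => ?_
    have hp := half_nonneg hν j b
    have e : ∀ w r : ℝ, √(half ν j b) * √(w * r) = √(half ν j b * w * r) := fun w r => by
      rw [← Real.sqrt_mul hp, mul_assoc]
    have hxj : flip i x j = x j := by simp [flip, Function.update_of_ne (Ne.symm hij)]
    calc half ν j b * ((√(split ν j b x * flipRate θ g y i x)
          - √(split ν j b (flip i x) * flipRate θ g y i (flip i x))) ^ 2 / 2)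
        = (√(half ν j b) * √(split ν j b x * flipRate θ g y i x)
          - √(half ν j b) * √(split ν j b (flip i x) * flipRate θ g y i (flip i x))) ^ 2 / 2 := by
          rw [← mul_sub, mul_pow, Real.sq_sqrt hp]; ring
      _ = _ := by
          rw [e, e, half_mul_split hν, half_mul_split hν, hxj]
          split_ifs <;> simp
  have hj : half ν j true * fisherAt θ g y j (split ν j true)
      + half ν j false * fisherAt θ g y j (split ν j false) ≤ 1 := by
    have h1 := mul_le_mul_of_nonneg_left (fisherAt_le θ g y j (isLaw_split hν j true).1)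
      (half_nonneg hν j true)
    have h2 := mul_le_mul_of_nonneg_left (fisherAt_le θ g y j (isLaw_split hν j false).1)
      (half_nonneg hν j false)
    rw [(isLaw_split hν j true).2, mul_one] at h1
    rw [(isLaw_split hν j false).2, mul_one] at h2
    linarith [half_add hν j]
  have hne : ∀ i ∈ univ.erase j, half ν j true * fisherAt θ g y i (split ν j true)
      + half ν j false * fisherAt θ g y i (split ν j false) = fisherAt θ g y i ν := fun i hi => by
    rw [hs _ _ (Finset.ne_of_mem_erase hi), hs _ _ (Finset.ne_of_mem_erase hi), ← Finset.sum_add_distrib]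
    exact Finset.sum_congr rfl fun x _ => by cases x j <;> simp
  have hF : ∀ μ, fisher θ g y μ = fisherAt θ g y j μ + ∑ i ∈ univ.erase j, fisherAt θ g y i μ := fun μ =>
    (Finset.add_sum_erase _ (fun i => fisherAt θ g y i μ) (Finset.mem_univ j)).symm
  rw [hF, hF, hF, mul_add, mul_add]
  have hsum := Finset.sum_congr rfl hne
  rw [Finset.sum_add_distrib, ← Finset.mul_sum, ← Finset.mul_sum] at hsum
  have h0 : 0 ≤ fisherAt θ g y j ν := Finset.sum_nonneg fun x _ => by positivity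
  linarith

/-- Pinning keeps the Dirichlet form up to one unit per pinned site. -/
theorem pin_fisher (θ : ℝ) (g : Edge n → ℝ) (y : Fin n → ℝ) {ν : (Fin n → Bool) → ℝ} (hν : IsLaw ν)
    {δ : ℝ} (hδ : 0 < δ) :
    ∃ (κ : Type) (_ : Fintype κ) (w : κ → ℝ) (μ : κ → (Fin n → Bool) → ℝ), Decomp ν w μ ∧
      ∑ z, w z * covSq (μ z) ≤ δ * n ^ 2 ∧
      ∑ z, w z * fisher θ g y (μ z) ≤ fisher θ g y ν + (1 / δ + 1) := by
  have key : ∀ N : ℕ, (∃ (κ : Type) (_ : Fintype κ) (w : κ → ℝ) (μ : κ → (Fin n → Bool) → ℝ),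
      Decomp ν w μ ∧ ∑ z, w z * covSq (μ z) ≤ δ * n ^ 2 ∧
        ∑ z, w z * fisher θ g y (μ z) ≤ fisher θ g y ν + N) ∨
      ∃ (κ : Type) (_ : Fintype κ) (w : κ → ℝ) (μ : κ → (Fin n → Bool) → ℝ), Decomp ν w μ ∧ 0 < n ∧
        ∑ z, w z * totVar (μ z) ≤ n - N * (δ * n) ∧
        ∑ z, w z * fisher θ g y (μ z) ≤ fisher θ g y ν + N := by
    intro N
    induction N with
    | zero =>
      rcases Nat.eq_zero_or_pos n with rfl | hn
      · exact Or.inl ⟨Unit, inferInstance, fun _ => 1, fun _ => ν, ⟨⟨fun _ => zero_le_one, by simp⟩,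
          fun _ => hν, fun x => by simp⟩, by simp [covSq], by simp⟩
      · exact Or.inr ⟨Unit, inferInstance, fun _ => 1, fun _ => ν, ⟨⟨fun _ => zero_le_one, by simp⟩,
          fun _ => hν, fun x => by simp⟩, hn, by simpa using totVar_le ν, by simp⟩
    | succ N ih =>
      rcases ih with ⟨κ, _, w, μ, hd, h1, h2⟩ | ⟨κ, _, w, μ, hd, hn, hV, h2⟩
      · refine Or.inl ⟨κ, inferInstance, w, μ, hd, h1, ?_⟩
        push_cast
        linarith
      by_cases hsmall : ∑ z, w z * covSq (μ z) ≤ δ * n ^ 2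
      · refine Or.inl ⟨κ, inferInstance, w, μ, hd, hsmall, ?_⟩
        push_cast
        linarith
      have hex : ∃ j : Fin n, δ * n < ∑ z, w z * ∑ i, cov (μ z) i j ^ 2 := by
        by_contra hc
        simp only [not_exists, not_lt] at hc
        refine hsmall ?_
        simp only [covSq]
        calc ∑ z, w z * ∑ i, ∑ j, cov (μ z) i j ^ 2
            = ∑ j, ∑ z, w z * ∑ i, cov (μ z) i j ^ 2 := by
              rw [Finset.sum_comm (γ := Fin n)]
              exact Finset.sum_congr rfl fun z _ => by rw [Finset.sum_comm, Finset.mul_sum]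
          _ ≤ ∑ _j : Fin n, δ * n := Finset.sum_le_sum fun j _ => hc j
          _ = δ * n ^ 2 := by simp; ring
      obtain ⟨j, hj⟩ := hex
      refine Or.inr ⟨κ × Bool, inferInstance, _, _, decomp_step hd j, hn, ?_, ?_⟩
      · rw [Fintype.sum_prod_type]
        simp only [Fintype.sum_bool, mul_assoc, ← mul_add]
        refine (Finset.sum_le_sum fun z _ => mul_le_mul_of_nonneg_left (split_totVar (hd.2.1 z) j)
          (hd.1.1 z)).trans ?_
        simp only [mul_sub, Finset.sum_sub_distrib]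
        push_cast
        linarith
      · rw [Fintype.sum_prod_type]
        simp only [Fintype.sum_bool, mul_assoc, ← mul_add]
        refine (Finset.sum_le_sum fun z _ => mul_le_mul_of_nonneg_left (fisher_split θ g y (hd.2.1 z) j)
          (hd.1.1 z)).trans ?_
        simp only [mul_add, Finset.sum_add_distrib, mul_one, hd.1.2]
        push_cast
        linarith
  obtain ⟨κ, hκ, w, μ, hd, h1, h2⟩ | ⟨κ, _, w, μ, hd, hn, hV, -⟩ := key (⌊1 / δ⌋₊ + 1)
  · refine ⟨κ, hκ, w, μ, hd, h1, h2.trans ?_⟩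
    push_cast
    linarith [Nat.floor_le (by positivity : 0 ≤ 1 / δ)]
  · exfalso
    have h0 : 0 ≤ ∑ z, w z * totVar (μ z) :=
      Finset.sum_nonneg fun z _ => mul_nonneg (hd.1.1 z) (totVar_nonneg (hd.2.1 z))
    have hN : 1 / δ < ((⌊1 / δ⌋₊ + 1 : ℕ) : ℝ) := by push_cast; exact Nat.lt_floor_add_one _
    rw [div_lt_iff₀ hδ] at hN
    have hn' : (0 : ℝ) < n := by exact_mod_cast hn
    nlinarith

theorem relEnt_eq (θ : ℝ) (g : Edge n → ℝ) {ν : (Fin n → Bool) → ℝ} (hν : IsLaw ν) :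
    relEnt θ g 0 ν = freeE θ g ν - n * log 2 + log (∑ x, Real.exp (ham (skMat n θ g) 0 x)) := by
  have hZ : 0 < ∑ x, Real.exp (ham (skMat n θ g) 0 x) :=
    Finset.sum_pos (fun x _ => Real.exp_pos _) univ_nonempty
  have hh : ∀ x, ham (skMat n θ g) 0 x = θ / 2 * bil g (spinv x) (spinv x) := fun x => by
    simp only [ham, Pi.zero_apply, zero_mul, Finset.sum_const_zero, zero_add, bil, spinv, Finset.mul_sum,
      Finset.sum_div]
    exact Finset.sum_congr rfl fun i _ => Finset.sum_congr rfl fun j _ => by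
      rw [skMat_smul]; ring
  have hw : ∀ x, Real.log (weight (skMat n θ g) 0 x) = θ / 2 * bil g (spinv x) (spinv x)
      - log (∑ z, Real.exp (ham (skMat n θ g) 0 z)) := fun x => by
    rw [weight, Real.log_div (Real.exp_pos _).ne' hZ.ne', Real.log_exp, hh]
  have hs : ∑ x, ν x * (θ / 2 * bil g (spinv x) (spinv x))
      = θ / 2 * ∑ x, ν x * bil g (spinv x) (spinv x) := by
    rw [Finset.mul_sum]; exact Finset.sum_congr rfl fun x _ => by ring
  simp only [relEnt, hw, mul_sub, Finset.sum_sub_distrib, ← Finset.sum_mul, hν.2, one_mul, hs, freeE, nent]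
  ring

theorem relEnt_mix (θ : ℝ) (g : Edge n → ℝ) {ν : (Fin n → Bool) → ℝ} {κ : Type} [Fintype κ]
    {w : κ → ℝ} {μ : κ → (Fin n → Bool) → ℝ} (hd : Decomp ν w μ) :
    relEnt θ g 0 ν ≤ ∑ z, w z * relEnt θ g 0 (μ z) := by
  obtain ⟨hw, hμ, hmix⟩ := hd
  have key : ∀ x, ν x * (Real.log (ν x) - Real.log (weight (skMat n θ g) 0 x))
      ≤ ∑ z, w z * (μ z x * (Real.log (μ z x) - Real.log (weight (skMat n θ g) 0 x))) := fun x => by
    have h := Real.convexOn_mul_log.map_sum_le (t := univ) (fun z _ => hw.1 z) hw.2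
      (p := fun z => μ z x) fun z _ => (hμ z).1 x
    simp only [smul_eq_mul, hmix] at h
    simp only [mul_sub, Finset.sum_sub_distrib, ← mul_assoc, ← Finset.sum_mul, hmix]
    simp only [mul_assoc]
    linarith
  refine (Finset.sum_le_sum fun x _ => key x).trans (le_of_eq ?_)
  simp only [relEnt, Finset.mul_sum]
  exact Finset.sum_comm

theorem relEnt_le_of_free {θ Λ T ε : ℝ} {g : Edge n → ℝ} (hθ0 : 0 ≤ θ) (hθ1 : θ ≤ 1) (hΛ0 : 0 ≤ Λ)
    (hΛ : OpBound g Λ) (hn : 0 < n)
    (hZ : log (∑ x, Real.exp (ham (skMat n θ g) 0 x)) ≤ n * (log 2 + θ ^ 2 / 4 + ε))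
    {ν : (Fin n → Bool) → ℝ} (hν : IsLaw ν) (hq : qOf (bary ν) ≤ T) :
    relEnt θ g 0 ν ≤ excess θ g ν + n * ((Λ + 2) * T + ε) := by
  have hn' : (0 : ℝ) < n := by exact_mod_cast hn
  have hm := abs_bary_le hν
  set q := qOf (bary ν) with hqd
  have hsum : ∑ i, bary ν i ^ 2 = n * q := by rw [hqd, qOf]; field_simp
  have hq0 : 0 ≤ q := by
    rw [hqd, qOf]
    exact div_nonneg (Finset.sum_nonneg fun i _ => sq_nonneg _) hn'.le
  have hbin : ∑ i, binEnt (bary ν i) ≤ n * q := by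
    rw [← hsum]
    refine Finset.sum_le_sum fun i _ => ?_
    have h := binEnt_ref (hm i) (b := 0) (by norm_num)
    simpa [binEnt, Stability.slope] using h
  have hbil := (abs_le.1 (hΛ (bary ν))).1
  rw [hsum] at hbil
  have e : relEnt θ g 0 ν = excess θ g ν + tap θ g (bary ν) - n * log 2
      + log (∑ x, Real.exp (ham (skMat n θ g) 0 x)) := by rw [relEnt_eq θ g hν, excess]; ring
  have etap : tap θ g (bary ν)
      = (∑ i, binEnt (bary ν i)) - θ / 2 * bil g (bary ν) (bary ν) - n * θ ^ 2 / 4 * (1 - q) ^ 2 := rfl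
  rw [e, etap]
  have hθ2 : θ ^ 2 ≤ 1 := by nlinarith
  nlinarith [mul_le_mul_of_nonneg_left hbil (by linarith : 0 ≤ θ / 2),
    mul_le_mul_of_nonneg_left hq hn'.le, mul_nonneg hn'.le hq0, mul_nonneg (mul_nonneg hn'.le hq0) hΛ0,
    mul_le_mul_of_nonneg_left (mul_le_mul_of_nonneg_left hq hn'.le) hΛ0,
    mul_le_mul_of_nonneg_right hθ2 (mul_nonneg hn'.le hq0),
    mul_le_mul_of_nonneg_right hθ1 (mul_nonneg (mul_nonneg hn'.le hq0) hΛ0), sq_nonneg q,
    mul_nonneg (sq_nonneg θ) (mul_nonneg hn'.le (sq_nonneg q))]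

/-- The annealed bound holds with high probability. -/
theorem logZ_event (θ : ℝ) {ε : ℝ} (hε : 0 < ε) {η : ℝ} (hη : 0 < η) : ∃ n₀ : ℕ, ∀ n ≥ n₀,
    (stdPi (Edge n)).real {g | n * (log 2 + θ ^ 2 / 4 + ε)
      < log (∑ x, Real.exp (ham (skMat n θ g) 0 x))} ≤ η := by
  obtain ⟨N, hN⟩ := exists_nat_gt (1 / (ε * η))
  refine ⟨N + 1, fun n hn => ?_⟩
  have hn0 : 0 < n := by omega
  have hn' : (0 : ℝ) < n := by exact_mod_cast hn0
  set M := Real.exp (n * (log 2 + θ ^ 2 / 4 + ε)) with hM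
  have hint : Integrable (partZ n θ) (stdPi (Edge n)) := by
    unfold partZ
    simp only [expo_eq_dot]
    exact integrable_finsetSum _ fun x _ => integrable_exp_dot _
  have hnn : 0 ≤ᵐ[stdPi (Edge n)] partZ n θ :=
    Filter.Eventually.of_forall fun g => (sum_exp_pos _ _ g).le
  have hmk := mul_meas_ge_le_integral_of_nonneg hnn hint M
  rw [integral_partZ hn0] at hmk
  refine le_trans (measureReal_mono (fun g hg => ?_)) ((le_div_iff₀' (Real.exp_pos _)).2 hmk |>.trans ?_)
  · have hp : partZ n θ g = ∑ x, Real.exp (ham (skMat n θ g) 0 x) := by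
      simp only [partZ, ham_skMat, ← expo_pair]
    show M ≤ partZ n θ g
    rw [hp, hM, ← Real.le_log_iff_exp_le (Finset.sum_pos (fun x _ => Real.exp_pos _) univ_nonempty)]
    exact le_of_lt hg
  · have h2 : annZ n θ ≤ Real.exp (n * (log 2 + θ ^ 2 / 4)) := by
      rw [annZ, mul_add, Real.exp_add, show Real.exp ((n : ℝ) * log 2) = 2 ^ n by
        rw [Real.exp_nat_mul, Real.exp_log two_pos]]
      refine mul_le_mul_of_nonneg_left (Real.exp_le_exp.2 ?_) (by positivity)
      nlinarith [sq_nonneg θ]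
    refine (div_le_div_of_nonneg_right h2 (Real.exp_pos _).le).trans ?_
    rw [← Real.exp_sub, show (n : ℝ) * (log 2 + θ ^ 2 / 4) - n * (log 2 + θ ^ 2 / 4 + ε) = -(n * ε) by ring,
      Real.exp_neg]
    refine inv_le_of_inv_le₀ hη ?_
    have hN' : 1 < ε * η * n := by
      rw [div_lt_iff₀ (by positivity)] at hN
      have : (N : ℝ) ≤ n := by exact_mod_cast (by omega : N ≤ n)
      nlinarith [mul_pos hε hη]
    rw [inv_eq_one_div, div_le_iff₀ hη]
    nlinarith [Real.add_one_le_exp ((n : ℝ) * ε)]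

theorem relEnt_le_crude {θ Λ : ℝ} {g : Edge n → ℝ} (hθ0 : 0 ≤ θ) (hθ1 : θ ≤ 1) (hΛ0 : 0 ≤ Λ)
    (hΛ : OpBound g Λ) {ν : (Fin n → Bool) → ℝ} (hν : IsLaw ν) :
    relEnt θ g 0 ν ≤ n * (1 + Λ) := by
  have hw : ∀ x, -Real.log (weight (skMat n θ g) 0 x) ≤ n * (1 + Λ) := fun x => by
    have hb : ∀ z, |ham (skMat n θ g) 0 z| ≤ n * Λ / 2 := fun z => by
      have h : ham (skMat n θ g) 0 z = θ / 2 * bil g (spinv z) (spinv z) := by
        simp only [ham, Pi.zero_apply, zero_mul, Finset.sum_const_zero, zero_add, bil, spinv,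
          Finset.mul_sum, Finset.sum_div]
        exact Finset.sum_congr rfl fun i _ => Finset.sum_congr rfl fun j _ => by
          rw [skMat_smul]; ring
      rw [h, abs_mul, abs_of_nonneg (by linarith : 0 ≤ θ / 2)]
      refine (mul_le_mul_of_nonneg_left (hΛ _) (by linarith)).trans ?_
      have hs : ∑ i, spinv z i ^ 2 = n := by simp [spinv, spin_sq]
      rw [hs]
      nlinarith [mul_nonneg hΛ0 (Nat.cast_nonneg' n : (0 : ℝ) ≤ n)]
    rw [weight, Real.log_div (Real.exp_pos _).ne'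
      (Finset.sum_pos (fun z _ => Real.exp_pos _) univ_nonempty).ne', Real.log_exp]
    have hs : log (∑ z, Real.exp (ham (skMat n θ g) 0 z)) ≤ n * 1 + n * Λ / 2 := by
      refine (Real.log_le_log (Finset.sum_pos (fun z _ => Real.exp_pos _) univ_nonempty)
        (Finset.sum_le_sum (g := fun _ => Real.exp (n * Λ / 2)) fun z _ =>
          Real.exp_le_exp.2 ((le_abs_self _).trans (hb z)))).trans ?_
      rw [Finset.sum_const, card_univ, Fintype.card_fun, Fintype.card_bool, Fintype.card_fin, nsmul_eq_mul,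
        Real.log_mul (by positivity) (Real.exp_pos _).ne', Real.log_exp]
      push_cast
      rw [Real.log_pow]
      have : (n : ℝ) * log 2 ≤ n * 1 := mul_le_mul_of_nonneg_left
        (by linarith [log_le_sub_one_of_pos (two_pos : (0 : ℝ) < 2)]) (Nat.cast_nonneg' n)
      linarith
    linarith [(abs_le.1 (hb x)).1]
  have h1 : ∀ x, ν x * (Real.log (ν x) - Real.log (weight (skMat n θ g) 0 x)) ≤ ν x * (n * (1 + Λ)) :=
    fun x => by
    refine mul_le_mul_of_nonneg_left ?_ (hν.1 x)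
    have hle : ν x ≤ 1 := hν.2 ▸ Finset.single_le_sum (fun z _ => hν.1 z) (Finset.mem_univ x)
    linarith [hw x, Real.log_nonpos (hν.1 x) hle]
  refine (Finset.sum_le_sum fun x _ => h1 x).trans (le_of_eq ?_)
  rw [← Finset.sum_mul, hν.2, one_mul]

theorem notrap_of_events {β a ρ e Λ T : ℝ} {g : Edge n → ℝ} (hn : 0 < n) (hβ0 : 0 ≤ β) (hβ1 : β ≤ 1)
    (ha : 0 < a) (hρ : 0 < ρ) (he : 0 < e) (hΛ0 : 0 ≤ Λ) (hΛ : OpBound g Λ)
    (hA : LevelAt β 0 e a ρ g) (hT : 2 * e ≤ T)
    (hzero : ∀ m : Fin n → ℝ, NearCrit β g 0 m e → qOf m ≤ T)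
    (hZ : log (∑ x, Real.exp (ham (skMat n β g) 0 x)) ≤ n * (log 2 + β ^ 2 / 4 + e))
    {δ : ℝ} (hδ : 0 < δ) {b : ℝ} (hlarge : 1 / δ + 1 ≤ b * n)
    {ν : (Fin n → Bool) → ℝ} (hν : IsLaw ν) (hf : fisher β g 0 ν ≤ b * n) :
    relEnt β g 0 ν ≤ n * ((Λ + 4) * (3 * T) + (1 + Λ) * (2 * b / a + δ / ρ)) := by
  have hn' : (0 : ℝ) < n := by exact_mod_cast hn
  obtain ⟨κ, _, w, μ, hd, hcov, hfis⟩ := pin_fisher β g 0 hν hδ
  refine (relEnt_mix β g hd).trans ?_
  have hT0 : 0 < T := by linarith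
  have hterm : ∀ z, relEnt β g 0 (μ z) ≤ n * ((Λ + 4) * (3 * T))
      + n * (1 + Λ) * (fisher β g 0 (μ z) / (a * n) + covSq (μ z) / (ρ * (n : ℝ) ^ 2)) := fun z => by
    have hF : 0 ≤ fisher β g 0 (μ z) / (a * n) := div_nonneg (fisher_nonneg _ _ _ _) (by positivity)
    have hC : 0 ≤ covSq (μ z) / (ρ * (n : ℝ) ^ 2) := div_nonneg
      (Finset.sum_nonneg fun i _ => Finset.sum_nonneg fun j _ => sq_nonneg _) (by positivity)
    by_cases hg : IsGood β g 0 a ρ (μ z)
    · have hq0 : 0 ≤ qOf (bary (μ z)) :=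
        div_nonneg (Finset.sum_nonneg fun i _ => sq_nonneg _) hn'.le
      obtain ⟨hex, hnc⟩ := hA β hβ0 le_rfl 0 (μ z) hg hq0
      have hq : qOf (bary (μ z)) ≤ 3 * T := (hzero _ hnc).trans (by linarith)
      have h1 := relEnt_le_of_free hβ0 hβ1 hΛ0 hΛ hn hZ (hd.2.1 z) hq
      nlinarith [mul_nonneg (mul_nonneg hn'.le (by linarith : 0 ≤ 1 + Λ)) (add_nonneg hF hC),
        mul_le_mul_of_nonneg_left hT hn'.le, mul_pos hn' hT0]
    · have h1 := relEnt_le_crude hβ0 hβ1 hΛ0 hΛ (hd.2.1 z)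
      have hbig : 1 ≤ fisher β g 0 (μ z) / (a * n) + covSq (μ z) / (ρ * (n : ℝ) ^ 2) := by
        by_contra hlt
        rw [not_le] at hlt
        refine hg ⟨hd.2.1 z, ?_, ?_⟩
        · have := (div_lt_one (by positivity : (0 : ℝ) < a * n)).1 (by linarith)
          exact this.le
        · have := (div_lt_one (by positivity : (0 : ℝ) < ρ * (n : ℝ) ^ 2)).1 (by linarith)
          exact this.le
      nlinarith [mul_le_mul_of_nonneg_left hbig (mul_nonneg hn'.le (by linarith : 0 ≤ 1 + Λ)),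
        mul_nonneg (mul_nonneg hn'.le (by linarith : 0 ≤ Λ + 4)) hT0.le]
  refine (Finset.sum_le_sum fun z _ => mul_le_mul_of_nonneg_left (hterm z) (hd.1.1 z)).trans ?_
  have e1 : ∑ z, w z * (n * ((Λ + 4) * (3 * T))
      + n * (1 + Λ) * (fisher β g 0 (μ z) / (a * n) + covSq (μ z) / (ρ * (n : ℝ) ^ 2)))
      = n * ((Λ + 4) * (3 * T)) + n * (1 + Λ) * ((∑ z, w z * fisher β g 0 (μ z)) / (a * n)
        + (∑ z, w z * covSq (μ z)) / (ρ * (n : ℝ) ^ 2)) := by
    rw [Finset.sum_div, Finset.sum_div, ← Finset.sum_add_distrib, Finset.mul_sum, mul_add]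
    simp only [mul_add, Finset.sum_add_distrib, ← Finset.sum_mul, hd.1.2]
    rw [one_mul]
    congr 1
    rw [← Finset.sum_add_distrib, ← Finset.sum_add_distrib]
    exact Finset.sum_congr rfl fun z _ => by ring
  rw [e1]
  rw [show ∀ u v S : ℝ, (n : ℝ) * (u + v * S) = n * u + n * (v * S) from fun u v S => mul_add _ _ _,
    mul_assoc (n : ℝ) (1 + Λ)]
  refine add_le_add le_rfl (mul_le_mul_of_nonneg_left (mul_le_mul_of_nonneg_left (add_le_add ?_ ?_)
    (by linarith)) hn'.le)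
  · rw [div_le_iff₀ (by positivity), show 2 * b / a * (a * n) = 2 * b * n by field_simp]
    linarith
  · rw [div_le_iff₀ (by positivity), show δ / ρ * (ρ * (n : ℝ) ^ 2) = δ * n ^ 2 by field_simp]
    linarith

/-- The modules' descent and the absence of critical points give no traps. -/
theorem noTrap_whp (hD : Descent) (hZ : CritAtZero) {β : ℝ} (hβ0 : 0 ≤ β) (hβ1 : β < 1) {ε : ℝ}
    (hε : 0 < ε) : ∃ a : ℝ, 0 < a ∧ Whp fun n g =>
      ∀ ν : (Fin n → Bool) → ℝ, IsLaw ν → fisher β g 0 ν ≤ a * n → relEnt β g 0 ν ≤ ε * n := by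
  set T := ε / 63 with hTd
  have hT : 0 < T := by positivity
  obtain ⟨r, hr, -, step⟩ := hD β hβ0 hβ1
  obtain ⟨e₁, he₁, hz⟩ := hZ β hβ0 hβ1 T hT
  set e := min e₁ (T / 2) with hed
  have he : 0 < e := lt_min he₁ (by positivity)
  obtain ⟨a, ha, ρ, hρ, hlev⟩ := level_zero (by positivity : 0 < r ^ 2 / 2) step e he
  set b := a * ε / 48 with hbd
  have hb : 0 < b := by positivity
  set δ := ρ * ε / 24 with hδd
  have hδ : 0 < δ := by positivity
  refine ⟨b, hb, fun p hp => ?_⟩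
  obtain ⟨n1, h1⟩ := hlev (p / 4) (by positivity)
  obtain ⟨n2, h2⟩ := hz (p / 4) (by positivity)
  obtain ⟨n3, h3⟩ := opEvent (p / 4) (by positivity)
  obtain ⟨n4, h4⟩ := logZ_event β he (show 0 < p / 4 by positivity)
  obtain ⟨N, hN⟩ := exists_nat_gt ((1 / δ + 1) / b)
  refine ⟨max (max n1 n2) (max (max n3 n4) (N + 1)), fun n hn => ?_⟩
  simp only [ge_iff_le, max_le_iff] at hn
  obtain ⟨⟨hn1, hn2⟩, ⟨hn3, hn4⟩, hn5⟩ := hn
  have hn0 : 0 < n := by omega
  have hlarge : 1 / δ + 1 ≤ b * n := by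
    rw [div_lt_iff₀ hb] at hN
    have : (N : ℝ) ≤ n := by exact_mod_cast (by omega : N ≤ n)
    nlinarith
  have p3 : disorder n {g | ¬OpBound g 3} ≤ ENNReal.ofReal (p / 4) := by
    rw [disorder_eq, ← ofReal_measureReal]
    exact ENNReal.ofReal_le_ofReal (h3 n hn3)
  have p4 : disorder n {g | n * (log 2 + β ^ 2 / 4 + e) < log (∑ x, Real.exp (ham (skMat n β g) 0 x))}
      ≤ ENNReal.ofReal (p / 4) := by
    rw [disorder_eq, ← ofReal_measureReal]
    exact ENNReal.ofReal_le_ofReal (h4 n hn4)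
  refine le_trans (measure_mono (t := ({g | ¬LevelAt β 0 e a ρ g} ∪
    {g | ¬∀ θ : ℝ, 0 ≤ θ → θ ≤ β → ∀ m : Fin n → ℝ, NearCrit θ g 0 m e₁ → qOf m ≤ T}) ∪
    ({g | ¬OpBound g 3} ∪
    {g | n * (log 2 + β ^ 2 / 4 + e) < log (∑ x, Real.exp (ham (skMat n β g) 0 x))})) fun g hg => ?_) ?_
  · by_contra hc
    simp only [Set.mem_union, Set.mem_ofPred_eq, not_or, not_not, not_lt] at hc
    obtain ⟨⟨hA, hB⟩, hC, hD'⟩ := hc
    refine hg fun ν hν hf => ?_
    have h := notrap_of_events (Λ := 3) (T := T) hn0 hβ0 hβ1.le ha hρ he (by norm_num) hC hA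
      (by linarith [min_le_right e₁ (T / 2)]) (fun m hm => hB β hβ0 le_rfl m ?_) hD' hδ hlarge hν hf
    · refine h.trans ?_
      have e2 : (3 + 4 : ℝ) * (3 * T) + (1 + 3) * (2 * b / a + δ / ρ) ≤ ε := by
        rw [hTd, hbd, hδd]
        field_simp
        linarith
      nlinarith [mul_le_mul_of_nonneg_left e2 (Nat.cast_nonneg' n : (0 : ℝ) ≤ n)]
    · obtain ⟨h, hh1, hh2⟩ := hm
      exact ⟨h, hh1.trans (mul_le_mul_of_nonneg_right (min_le_left _ _) (Nat.cast_nonneg' n)),
        hh2.trans (mul_le_mul_of_nonneg_right (min_le_left _ _) (Nat.cast_nonneg' n))⟩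
  · refine (measure_union_le _ _).trans ((add_le_add (measure_union_le _ _) (measure_union_le _ _)).trans ?_)
    refine (add_le_add (add_le_add (h1 n hn1) (h2 n hn2)) (add_le_add p3 p4)).trans (le_of_eq ?_)
    rw [← ENNReal.ofReal_add (by positivity) (by positivity), ← ENNReal.ofReal_add (by positivity) (by positivity)]
    congr 1
    ring

theorem noTrapFromDescent : NoTrapFromDescent := fun hD hZ _ h0 h1 _ hε => by
  obtain ⟨a, ha, hw⟩ := noTrap_whp hD hZ h0 h1 hε
  exact ⟨a, ha, fun _ hη => hw.good hη⟩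

end Vale.Agent.P150.Full.T
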